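import Mathlib
import Vale.Agent.P101.Bridge.Central
import Vale.Agent.P095.Finite.Action

/-!
Invariant relations on representatives give an invariant homomorphism from the dimension drop
algebra into the central sequence algebra.
-/

noncomputable section

open Filter Topology
open scoped BoundedContinuousFunction

namespace Vale.Agent.P095.Amenable

open Vale.Agent.P101
open Vale.Agent.P095.Finite (InvComparison fixedAlg actCQ)

universe u v

variable {G : Type v} [Group G] {A : Type u} [CStarAlgebra A] {α : G → A ≃⋆ₐ[ℂ] A}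
  {ω : Ultrafilter ℕ} (hα : ∀ g h x, α (g * h) x = α g (α h x))

include hα in
/-- Invariant relations on representatives give an invariant unital homomorphism on
representatives. -/
theorem invariantHom_of_inv (h : InvComparison ω α Set.univ) :
    ∃ H : CentralHom ω A, ∀ g, InDimDrop g → ∀ k,
      Tendsto (fun n => ‖α k (H.val g n) - H.val g n‖) (ω : Filter ℕ) (𝓝 0) := by
  classical
  have : IsClosed (fixedAlg (actCQ ω α hα) : Set (CQ ω A)) := Finite.isClosed_fixed _
  obtain ⟨c, e, f, v, r, s, hc, he, hf, hv, hr, hs, h1, h2, h3, h4, h5, h6, h7, hi⟩ := h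
  simp only [List.mem_cons, List.not_mem_nil, or_false, forall_eq_or_imp, forall_eq, Set.mem_univ,
    true_imp_iff] at hi
  obtain ⟨ic, ie, if', iv, ir, is'⟩ := hi
  have fix : ∀ (x : ℕ →ᵇ A) (hx : IsCentral ω x),
      (∀ g, Tendsto (fun n => ‖α g (x n) - x n‖) (ω : Filter ℕ) (𝓝 0)) →
      proj ω ⟨x, hx⟩ ∈ fixedAlg (actCQ ω α hα) := fun x hx hxi g => by
    rw [Finite.actCQ_apply, Finite.actHom_proj]
    exact (proj_eq_iff ω _ _).2 (hxi g)
  have hcomp : Comparison (fixedAlg (actCQ ω α hα)) := by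
    refine ⟨⟨_, fix c hc ic⟩, ⟨_, fix e he ie⟩, ⟨_, fix f hf if'⟩, ⟨_, fix v hv iv⟩,
      ⟨_, fix r hr ir⟩, ⟨_, fix s hs is'⟩, ?_⟩
    simp only [← Subtype.coe_inj, MulMemClass.coe_mul, StarMemClass.coe_star,
      AddSubgroupClass.coe_sub, OneMemClass.coe_one, ZeroMemClass.coe_zero]
    simp only [← map_star, ← map_mul, ← map_sub, ← map_one (proj ω (A := A)),
      ← map_zero (proj ω (A := A)), proj_eq_iff]
    exact ⟨h1, h2, by simpa using h3, h4, h5, h6, h7⟩
  obtain ⟨ψ⟩ := exists_dimDropHom hcomp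
  choose ρ hρ using proj_surjective ω (A := A)
  let p : DimDrop → CQ ω A := fun g => (ψ g : CQ ω A)
  let val : MatFun → (ℕ →ᵇ A) := fun g =>
    if h : InDimDrop g then (ρ (p ⟨g, h⟩) : ℕ →ᵇ A) else 0
  have hval : ∀ g : DimDrop, val g = ρ (p g) := fun g => dif_pos g.2
  have key : ∀ (x : ↥(centralAlg ω A)) (g : DimDrop), proj ω x = p g →
      IsNull ω (val g - (x : ℕ →ᵇ A)) := fun x g h => by
    rw [hval]
    exact (proj_eq_iff ω _ _).1 ((hρ _).trans h.symm)
  refine ⟨⟨val, fun g hg => ?_, ?_, fun g g' hg hg' => ?_, fun g g' hg hg' => ?_,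
    fun z g hg => ?_, fun g hg => ?_⟩, fun g hg k => ?_⟩
  · rw [hval ⟨g, hg⟩]
    exact (ρ (p ⟨g, hg⟩)).2
  · exact key 1 1 (by simp [p])
  · have := key (ρ (p ⟨g, hg⟩) + ρ (p ⟨g', hg'⟩)) (⟨g, hg⟩ + ⟨g', hg'⟩) (by simp [hρ, p])
    simpa [← hval] using this
  · have := key (ρ (p ⟨g, hg⟩) * ρ (p ⟨g', hg'⟩)) (⟨g, hg⟩ * ⟨g', hg'⟩) (by simp [hρ, p])
    simpa [← hval] using this
  · have := key (z • ρ (p ⟨g, hg⟩)) (z • ⟨g, hg⟩) (by simp [hρ, p])
    simpa [← hval] using this
  · have := key (star (ρ (p ⟨g, hg⟩))) (star ⟨g, hg⟩) (by simp [map_star, hρ, p])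
    simpa [← hval] using this
  · show Tendsto (fun n => ‖α k (val g n) - val g n‖) _ _
    rw [hval ⟨g, hg⟩]
    have h : proj ω (Finite.centralAct ω (α k) (ρ (p ⟨g, hg⟩))) = proj ω (ρ (p ⟨g, hg⟩)) := by
      rw [← Finite.actHom_proj, hρ]
      exact (ψ ⟨g, hg⟩).2 k
    exact (proj_eq_iff ω _ _).1 h

/-- An invariant homomorphism excludes characters. -/
theorem isEmpty_of_hom (h : Nonempty (CentralHom ω A)) : IsEmpty (CentralChar ω A) := by
  obtain ⟨ψ⟩ := centralHom_iff.1 h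
  exact ⟨fun χ => dimDrop_no_character.false ((hom_of_char χ).some.comp ψ)⟩

end Vale.Agent.P095.Amenable
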