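import Vale.Agent.P095.Amenable.Defs
import Vale.Agent.P095.Link

/-! Without characters the central sequence algebra has two colours of arbitrarily large
matrices. -/

noncomputable section

open Filter Topology
open scoped BoundedContinuousFunction

namespace Vale.Agent.P095.Amenable

open Vale.Agent.P101
open Vale.Agent.P101.CombineN (IsOrderZero supp)
open Vale.Agent.P101.Stage4 (supp_sa)

universe u

/-- The relations of two colours in an abstract algebra, from a family and its complement. -/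
lemma colours_of_comparisonN {D : Type*} [CStarAlgebra D] {n : ℕ} {z : Fin n}
    (h : Vale.Agent.P101.Stage4.ComparisonN n z D) :
    ∃ (g : Fin n → D) (w : Fin 2 → Fin n → D),
      (∀ i j, i ≠ j → star (g i) * g j = 0) ∧ (∀ i j, star (g i) * g i = star (g j) * g j) ∧
      ∑ c, ∑ i, star (g i * w c i) * (g i * w c i) = 1 := by
  classical
  obtain ⟨G, v, hG, hs, -, hv, hfix⟩ := h
  set H := supp G with hH
  have hsa : IsSelfAdjoint H := supp_sa G hs
  set φ := cfc (fun t : ℝ => 1 / Real.sqrt (t ^ 4 + (1 - t))) H with hφ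
  have hφs : star φ = φ := (cfc_predicate _ H : IsSelfAdjoint _).star_eq
  have hHG : ∀ i j, Commute H (G i j) := fun i j => hG.commute_supp i j
  refine ⟨fun i => G i z, ![fun i => G z i * φ, fun i => if i = z then v * φ else 0],
    fun i j hij => ?_, fun i j => ?_, ?_⟩
  · rw [hs, hG.mul_eq, if_neg hij]
  · rw [hs, hs, hG.mul_eq, hG.mul_eq, if_pos rfl, if_pos rfl]
  · have e0 : ∀ i, star (G i z * (G z i * φ)) * (G i z * (G z i * φ))
        = φ * (H * H * (H * G i i)) * φ := fun i => by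
      rw [← mul_assoc (G i z), hG.mul_eq, if_pos rfl, ← hH, star_mul, star_mul, hφs, hs,
        hsa.star_eq]
      calc φ * (G i i * H) * (H * G i i * φ) = φ * (G i i * H * (H * G i i)) * φ := by
            simp only [mul_assoc]
        _ = φ * (H * H * (G i i * G i i)) * φ := by
            rw [← (hHG i i).eq, mul_assoc H (G i i), ← mul_assoc (G i i) H, ← (hHG i i).eq]
            simp only [mul_assoc]
        _ = _ := by rw [hG.mul_eq, if_pos rfl, ← hH]
    have e1 : star (G z z * (v * φ)) * (G z z * (v * φ)) = φ * (1 - H) * φ := by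
      rw [← mul_assoc (G z z) v φ, hfix, star_mul, hφs, ← hv]
      simp only [mul_assoc]
    have e2 : ∑ c : Fin 2, ∑ i, star (G i z * (![fun i => G z i * φ,
        fun i => if i = z then v * φ else 0] c i)) * (G i z * (![fun i => G z i * φ,
        fun i => if i = z then v * φ else 0] c i))
        = φ * (H ^ 4 + (1 - H)) * φ := by
      rw [Fin.sum_univ_two]
      simp only [Matrix.cons_val_zero, Matrix.cons_val_one, e0]
      rw [Finset.sum_eq_single (f := fun i => star (G i z * if i = z then v * φ else 0) *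
          (G i z * if i = z then v * φ else 0)) z
        (fun i _ hi => by simp [if_neg hi]) (by simp)]
      simp only [if_true]
      rw [e1, ← Finset.sum_mul, ← Finset.mul_sum, ← Finset.mul_sum,
        ← Finset.mul_sum, mul_add, add_mul]
      congr 1
      simp only [hH, supp, pow_succ, pow_zero, one_mul, mul_assoc]
    rw [e2]
    have hne : ∀ t : ℝ, 0 < t ^ 4 + (1 - t) := fun t => by
      nlinarith [sq_nonneg (t ^ 2 - 1 / 2), sq_nonneg (t - 1 / 2)]
    have hc : Continuous fun t : ℝ => 1 / Real.sqrt (t ^ 4 + (1 - t)) :=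
      continuous_const.div (by fun_prop) fun t => (Real.sqrt_pos.2 (hne t)).ne'
    have e3 : H ^ 4 + (1 - H) = cfc (fun t : ℝ => t ^ 4 + (1 - t)) H := by
      rw [cfc_add (a := H) (fun t : ℝ => t ^ 4) (fun t : ℝ => 1 - t), cfc_pow_id H 4,
        cfc_sub (fun _ : ℝ => (1 : ℝ)) (fun t => t) H, cfc_const_one ℝ H, cfc_id' ℝ H]
    rw [e3, hφ, ← cfc_mul _ _ H hc.continuousOn (by fun_prop),
      ← cfc_mul (fun t => 1 / Real.sqrt (t ^ 4 + (1 - t)) * (t ^ 4 + (1 - t))) _ H
        (hc.mul (by fun_prop)).continuousOn hc.continuousOn, ← cfc_const_one ℝ H]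
    refine cfc_congr fun t _ => ?_
    have := Real.sqrt_pos.2 (hne t)
    field_simp
    rw [Real.sq_sqrt (hne t).le]

/-- Module Colours. -/
theorem colours_ok : ColoursStatement.{u} := by
  intro A _ _ ω hω he m
  obtain ⟨G₀, hG₀⟩ := exists_finite_witness
    (show Full {x : CQ ω A | ∃ a b, a * b - b * a = x} by
      by_contra hn
      exact (isEmpty_char he).false (exists_char_of_not_full hn).some)
  obtain ⟨S₁, hS₁, hGS, ⟨c₁⟩⟩ := exists_copies hω G₀
  obtain ⟨n1, k1⟩ := stage1_ok S₁ (hG₀ S₁ hGS)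
  obtain ⟨B1, _, ⟨d1⟩, ⟨e1⟩⟩ := regroup_ok S₁ (CQ ω A) n1 c₁
  obtain ⟨n2, k2⟩ := stage2_ok B1 (k1 B1 d1)
  obtain ⟨B2, _, ⟨d2⟩, ⟨e2⟩⟩ := regroup_ok B1 (CQ ω A) n2 e1
  obtain ⟨n3, k3⟩ := stage3_ok B2 (k2 B2 d2)
  obtain ⟨B3, _, ⟨d3⟩, ⟨e3⟩⟩ := regroup_ok B2 (CQ ω A) n3 e2
  obtain ⟨x₀, hx₀, hx₀f⟩ := k3 B3 d3
  obtain ⟨k, hk⟩ : ∃ k : ℕ, m ≤ 2 ^ k := ⟨m, (Nat.lt_two_pow_self).le⟩
  obtain ⟨B4, _, ⟨d4⟩, ⟨e4⟩⟩ := regroup_ok B3 (CQ ω A) k e3
  obtain ⟨M, E, z₀, rfl, hE, hEs, hEf, -⟩ := Link.exists_family d4 hx₀ hx₀f k le_rfl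
  obtain ⟨l, hl⟩ := Vale.Agent.P101.Stage4.stage4N.{u, u} hE hEs hEf colour_ok
  obtain ⟨g, w, h1, h2, h3⟩ := colours_of_comparisonN (hl (CQ ω A)
    ⟨fun i => e4.hom i.1, fun i j hij => e4.comm _ _ fun e => hij (Fin.ext e)⟩)
  choose g' hg' using fun i => proj_surjective ω (g i)
  choose w' hw' using fun c i => proj_surjective ω (w c i)
  refine ⟨2 ^ k, hk, fun i => g' i, fun c i => w' c i, fun i => (g' i).2, fun c i => (w' c i).2,
    fun i j hij => ?_, fun i j => ?_, ?_⟩
  · have := (proj_eq_iff ω (star (g' i) * g' j) 0).1 (by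
      rw [map_mul, map_star, hg', hg', h1 i j hij, map_zero])
    simpa using this
  · have := (proj_eq_iff ω (star (g' i) * g' i) (star (g' j) * g' j)).1 (by
      rw [map_mul, map_star, map_mul, map_star, hg', hg', h2 i j])
    simpa using this
  · have := (proj_eq_iff ω (∑ c, ∑ i, star (g' i * w' c i) * (g' i * w' c i)) 1).1 (by
      simp only [map_sum, map_mul, map_star, map_one, hg', hw', h3])
    simpa using this

end Vale.Agent.P095.Amenable
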