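import Vale.Agent.P101.Quot

/-! Congruence modulo null sequences. -/

noncomputable section

open Filter Topology
open scoped BoundedContinuousFunction

namespace Vale.Agent.P095.Amenable

open Vale.Agent.P101

universe u

variable {A : Type u} [CStarAlgebra A] {ω : Ultrafilter ℕ}

/-- Equality modulo null sequences. -/
def EqN (ω : Ultrafilter ℕ) (a b : ℕ →ᵇ A) : Prop := IsNull ω (a - b)

lemma eqN_iff {a b : ℕ →ᵇ A} :
    EqN ω a b ↔ Tendsto (fun n => ‖a n - b n‖) (ω : Filter ℕ) (𝓝 0) := Iff.rfl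

lemma EqN.refl (a : ℕ →ᵇ A) : EqN ω a a := by simp [eqN_iff]

lemma EqN.symm {a b : ℕ →ᵇ A} (h : EqN ω a b) : EqN ω b a :=
  (eqN_iff.1 h).congr fun _ => norm_sub_rev _ _

lemma EqN.trans {a b c : ℕ →ᵇ A} (h : EqN ω a b) (h' : EqN ω b c) : EqN ω a c :=
  squeeze_zero (fun _ => norm_nonneg _) (fun n => norm_sub_le_norm_sub_add_norm_sub _ (b n) _)
    (by simpa using Tendsto.add (eqN_iff.1 h) (eqN_iff.1 h'))

lemma EqN.add {a b c d : ℕ →ᵇ A} (h : EqN ω a b) (h' : EqN ω c d) : EqN ω (a + c) (b + d) :=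
  squeeze_zero (fun _ => norm_nonneg _) (fun n => (le_of_eq (congrArg (‖·‖) (add_sub_add_comm
    (a n) (c n) (b n) (d n)))).trans (norm_add_le _ _))
    (by simpa using Tendsto.add (eqN_iff.1 h) (eqN_iff.1 h'))

lemma EqN.sum {ι : Type*} (s : Finset ι) {a b : ι → ℕ →ᵇ A} (h : ∀ i ∈ s, EqN ω (a i) (b i)) :
    EqN ω (∑ i ∈ s, a i) (∑ i ∈ s, b i) := by
  classical
  induction s using Finset.induction_on with
  | empty => simpa using EqN.refl 0
  | insert i s hi ih =>
    rw [Finset.sum_insert hi, Finset.sum_insert hi]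
    exact (h i (Finset.mem_insert_self i s)).add
      (ih fun j hj => h j (Finset.mem_insert_of_mem hj))

lemma EqN.mul_left {a b : ℕ →ᵇ A} (c : ℕ →ᵇ A) (h : EqN ω a b) : EqN ω (c * a) (c * b) :=
  squeeze_zero (fun _ => norm_nonneg _) (fun n => by
    simp only [BoundedContinuousFunction.sub_apply, BoundedContinuousFunction.mul_apply,
      ← mul_sub]
    exact (norm_mul_le _ _).trans
      (mul_le_mul_of_nonneg_right (c.norm_coe_le_norm n) (norm_nonneg _)))
    (by simpa using Tendsto.const_mul ‖c‖ h)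

lemma EqN.mul_right {a b : ℕ →ᵇ A} (c : ℕ →ᵇ A) (h : EqN ω a b) : EqN ω (a * c) (b * c) :=
  squeeze_zero (fun _ => norm_nonneg _) (fun n => by
    simp only [BoundedContinuousFunction.sub_apply, BoundedContinuousFunction.mul_apply,
      ← sub_mul]
    exact (norm_mul_le _ _).trans
      (mul_le_mul_of_nonneg_left (c.norm_coe_le_norm n) (norm_nonneg _)))
    (by simpa using Tendsto.mul_const ‖c‖ h)

lemma EqN.mul {a b c d : ℕ →ᵇ A} (h : EqN ω a b) (h' : EqN ω c d) : EqN ω (a * c) (b * d) :=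
  (h.mul_right c).trans (h'.mul_left b)

lemma EqN.star {a b : ℕ →ᵇ A} (h : EqN ω a b) : EqN ω (Star.star a) (Star.star b) :=
  (eqN_iff.1 h).congr fun n => by
    simp [← star_sub]

lemma eqN_cst_comm {a : ℕ →ᵇ A} (ha : IsCentral ω a) (b : A) :
    EqN ω (a * cst b) (cst b * a) :=
  (ha b).congr fun _ => rfl

lemma EqN.eventually_le {a b : ℕ →ᵇ A} (h : EqN ω a b) {ε : ℝ} (hε : 0 < ε) :
    ∀ᶠ n in (ω : Filter ℕ), ‖a n - b n‖ < ε :=
  (eqN_iff.1 h).eventually_lt_const hε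

lemma isCentral_star {a : ℕ →ᵇ A} (ha : IsCentral ω a) : IsCentral ω (star a) :=
  (centralAlg ω A).star_mem' ha

lemma isCentral_mul {a b : ℕ →ᵇ A} (ha : IsCentral ω a) (hb : IsCentral ω b) :
    IsCentral ω (a * b) :=
  (centralAlg ω A).mul_mem' ha hb

@[simp] lemma cst_apply (b : A) (n : ℕ) : cst b n = b := rfl

end Vale.Agent.P095.Amenable
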