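import Vale.Agent.P095.Amenable.Defs
import Vale.Agent.P095.Amenable.Null

/-! Two colours turn divisibility into comparison with two copies. -/

noncomputable section

open Filter Topology
open scoped BoundedContinuousFunction

namespace Vale.Agent.P095.Amenable

open Vale.Agent.P101

universe u

/-- A divisibility witness spread over n indices. -/
lemma exists_square {A : Type u} [CStarAlgebra A] {x a : A} {l m n k : ℕ} (hkl : k * l ≤ n)
    (hkm : n ≤ k * m) {η : ℝ} (V : Fin l → Fin m → A)
    (hV : ∀ i j, ‖∑ p, star (V p i) * a * V p j - if i = j then x else 0‖ < η) :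
    ∃ W : Fin n → Fin n → A, ∀ i j,
      ‖∑ p, star (W p i) * a * W p j - if i = j then x else 0‖ ≤ η := by
  classical
  let e : Fin n → Fin k × Fin m := fun i => finProdFinEquiv.symm (Fin.castLE hkm i)
  have he : Function.Injective e := fun i j h =>
    Fin.castLE_injective hkm (finProdFinEquiv.symm.injective h)
  let R : Fin k × Fin l → Fin n := fun r => Fin.castLE hkl (finProdFinEquiv r)
  have hR : Function.Injective R := fun r s h =>
    finProdFinEquiv.injective (Fin.castLE_injective hkl h)
  refine ⟨fun p i => ∑ q, if R ((e i).1, q) = p then V q (e i).2 else 0, fun i j => ?_⟩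
  have hS : ∑ p, star (∑ q, if R ((e i).1, q) = p then V q (e i).2 else 0) * a *
      (∑ q, if R ((e j).1, q) = p then V q (e j).2 else 0)
      = if (e i).1 = (e j).1 then ∑ q, star (V q (e i).2) * a * V q (e j).2 else 0 := by
    simp only [star_sum, Finset.sum_mul, Finset.mul_sum, apply_ite (star : A → A), star_zero,
      ite_mul, zero_mul, mul_ite, mul_zero]
    rw [Finset.sum_comm]
    by_cases hb : (e i).1 = (e j).1
    · rw [if_pos hb]
      refine Finset.sum_congr rfl fun q _ => ?_
      rw [Finset.sum_eq_single (R ((e j).1, q))]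
      · rw [if_pos rfl, Finset.sum_eq_single q]
        · rw [if_pos (by rw [hb])]
        · intro q' _ hq'
          exact if_neg fun h => hq' (congrArg Prod.snd (hR h))
        · simp
      · intro p _ hp
        simp [hp.symm]
      · simp
    · rw [if_neg hb]
      refine Finset.sum_eq_zero fun q _ => Finset.sum_eq_zero fun p _ => ?_
      split_ifs with h
      · exact Finset.sum_eq_zero fun q' _ => if_neg fun h' =>
          hb ((Prod.mk.injEq .. ▸ hR (h'.trans h.symm)).1)
      · rfl
  rw [hS]
  by_cases hb : (e i).1 = (e j).1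
  · rw [if_pos hb]
    refine le_of_eq_of_le ?_ (hV (e i).2 (e j).2).le
    by_cases hij : i = j
    · subst hij; simp
    · rw [if_neg hij, if_neg fun h => hij (he (Prod.ext hb h))]
  · rw [if_neg hb, if_neg fun h => hb (by rw [h]), sub_self, norm_zero]
    exact (norm_nonneg _).trans (hV (e i).2 (e i).2).le

/-- Module Compare. -/
theorem compare_ok : CompareStatement.{u} := by
  intro A _ ω hc x a l m hlm hdiv ε hε
  classical
  obtain ⟨n, hn, g, w, hg, hw, horth, heq, hsum⟩ := hc (m * l + 1)
  have hn0 : 0 < n := by omega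
  have hm : 0 < m := by omega
  set k := n / m + 1 with hk
  have hkm : n ≤ k * m := by
    rw [hk, Nat.add_mul, one_mul]
    have := Nat.div_add_mod n m
    have := Nat.mod_lt n hm
    rw [mul_comm (n / m)]
    omega
  have hkl : k * l ≤ n := by
    refine Nat.le_of_mul_le_mul_left ?_ hm
    have h1 : n / m * m ≤ n := Nat.div_mul_le_self n m
    have h2 : (l + 1) * n ≤ m * n := Nat.mul_le_mul_right n hlm
    have h3 : m * l ≤ n := by omega
    have h4 : n / m * m * l ≤ n * l := Nat.mul_le_mul_right l h1
    rw [hk]
    nlinarith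
  let K : ℕ →ᵇ A := star (g ⟨0, hn0⟩) * g ⟨0, hn0⟩
  have hK : IsCentral ω K := isCentral_mul (isCentral_star (hg _)) (hg _)
  set C : ℝ := ∑ c : Fin 2, ∑ i : Fin n, ∑ j : Fin n, ‖star (w c i) * K‖ * ‖w c j‖ with hC
  have hC0 : 0 ≤ C := Finset.sum_nonneg fun c _ => Finset.sum_nonneg fun i _ =>
    Finset.sum_nonneg fun j _ => by positivity
  obtain ⟨V, hV⟩ := hdiv (ε / (2 * (C + 1))) (by positivity)
  obtain ⟨W, hW⟩ := exists_square hkl hkm V hV
  let T : Fin 2 → ℕ →ᵇ A := fun c => ∑ i, ∑ p, g p * cst (W p i) * w c i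
  let S : Fin n → Fin n → A := fun i j => ∑ p, star (W p i) * a * W p j
  let M : ℕ →ᵇ A := ∑ c, ∑ i, ∑ j, star (w c i) * K * cst (S i j) * w c j
  let N : ℕ →ᵇ A := ∑ c, ∑ i, star (w c i) * K * cst x * w c i
  have h1 : ∀ c, EqN ω (star (T c) * cst a * T c)
      (∑ i, ∑ j, star (w c i) * K * cst (S i j) * w c j) := fun c => by
    have e : star (T c) * cst a * T c = ∑ i, ∑ j, ∑ p, ∑ q,
        star (w c i) * (star (cst (W p i)) * (star (g p) * cst a * g q)) * cst (W q j) * w c j := by
      simp only [T]
      rw [star_sum, Finset.sum_mul, Finset.sum_mul]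
      refine Finset.sum_congr rfl fun i _ => ?_
      rw [star_sum, Finset.sum_mul, Finset.sum_mul]
      rw [Finset.sum_comm (s := (Finset.univ : Finset (Fin n))) (t := Finset.univ)
        (f := fun j p => ∑ q, star (w c i) * (star (cst (W p i)) * (star (g p) * cst a * g q)) *
          cst (W q j) * w c j)]
      refine Finset.sum_congr rfl fun p _ => ?_
      simp only [Finset.mul_sum, star_mul, mul_assoc]
    rw [e]
    refine EqN.sum _ fun i _ => EqN.sum _ fun j _ => ?_
    have e2 : star (w c i) * K * cst (S i j) * w c j = ∑ p, ∑ q, if p = q then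
        star (w c i) * (K * cst (star (W p i) * a)) * cst (W q j) * w c j else 0 := by
      simp only [Finset.sum_ite_eq, Finset.mem_univ, if_true]
      have : cst (S i j) = ∑ p, cst (star (W p i) * a) * cst (W p j) := by
        ext N; simp [S]
      simp only [this, Finset.mul_sum, Finset.sum_mul, mul_assoc]
    rw [e2]
    refine EqN.sum _ fun p _ => EqN.sum _ fun q _ => ?_
    have h0 : EqN ω (star (g p) * cst a * g q) ((star (g p) * g q) * cst a) := by
      rw [mul_assoc, mul_assoc]
      exact (eqN_cst_comm (hg q) a).symm.mul_left _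
    by_cases hpq : p = q
    · subst hpq
      rw [if_pos rfl]
      refine EqN.mul_right _ (EqN.mul_right _ (EqN.mul_left _ ?_))
      have hgK : EqN ω (star (g p) * g p) K := heq p ⟨0, hn0⟩
      have h2 : star (cst (W p i)) = cst (star (W p i)) := by ext N; simp
      have h3 : cst (star (W p i) * a) = cst (star (W p i)) * cst a := by ext N; simp
      rw [h2, h3, ← mul_assoc K]
      refine ((h0.trans (hgK.mul_right _)).mul_left _).trans ?_
      rw [← mul_assoc]
      exact (eqN_cst_comm hK _).symm.mul_right _
    · rw [if_neg hpq]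
      have h4 : EqN ω (star (g p) * g q) 0 := by simpa [EqN] using horth p q hpq
      have h5 : EqN ω (star (g p) * cst a * g q) 0 := by
        simpa using h0.trans (h4.mul_right (cst a))
      simpa using ((h5.mul_left (star (cst (W p i)))).mul_left (star (w c i))).mul_right
        (cst (W q j)) |>.mul_right (w c j)
  have h6 : EqN ω N (cst x) := by
    have h7 : ∀ c i, EqN ω (star (w c i) * K * cst x * w c i)
        (cst x * (star (g i * w c i) * (g i * w c i))) := fun c i => by
      have hgK : EqN ω (star (g i) * g i) K := heq i ⟨0, hn0⟩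
      have : star (g i * w c i) * (g i * w c i)
          = star (w c i) * (star (g i) * g i) * w c i := by simp [mul_assoc]
      rw [this, ← mul_assoc (cst x), ← mul_assoc (cst x)]
      refine EqN.mul_right _ ?_
      exact (eqN_cst_comm (isCentral_mul (isCentral_star (hw c i)) hK) x).trans
        ((by rw [← mul_assoc]; exact EqN.refl _ : EqN ω (cst x * (star (w c i) * K))
          (cst x * star (w c i) * K)).trans (hgK.symm.mul_left _))
    refine (EqN.sum _ fun c _ => EqN.sum _ fun i _ => h7 c i).trans ?_
    simp only [← Finset.mul_sum]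
    simpa using (show EqN ω (∑ c, ∑ i, star (g i * w c i) * (g i * w c i)) 1 from
      hsum).mul_left (cst x)
  have h8 : ∀ N', ‖M N' - N N'‖ ≤ C * (ε / (2 * (C + 1))) := fun N' => by
    have e : M N' - N N' = ∑ c, ∑ i, ∑ j, (star (w c i) * K) N' *
        (S i j - if i = j then x else 0) * w c j N' := by
      simp [M, N, mul_sub, sub_mul, Finset.sum_sub_distrib, mul_ite, ite_mul]
    rw [e, hC, Finset.sum_mul]
    refine (norm_sum_le _ _).trans (Finset.sum_le_sum fun c _ => ?_)
    rw [Finset.sum_mul]
    refine (norm_sum_le _ _).trans (Finset.sum_le_sum fun i _ => ?_)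
    rw [Finset.sum_mul]
    refine (norm_sum_le _ _).trans (Finset.sum_le_sum fun j _ => ?_)
    refine (norm_mul₃_le ..).trans ?_
    rw [mul_right_comm]
    gcongr
    · exact (star (w c i) * K).norm_coe_le_norm N'
    · exact (w c j).norm_coe_le_norm N'
    · exact hW i j
  have h9 : EqN ω (∑ c, star (T c) * cst a * T c) M := EqN.sum _ fun c _ => h1 c
  obtain ⟨N', hN1, hN2⟩ := ((h9.eventually_le (show (0 : ℝ) < ε / 4 by positivity)).and
    (h6.eventually_le (show (0 : ℝ) < ε / 4 by positivity))).exists
  refine ⟨T 0 N', T 1 N', ?_⟩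
  have hsmall : C * (ε / (2 * (C + 1))) ≤ ε / 2 := by
    rw [mul_div_assoc', div_le_div_iff₀ (by positivity) two_pos]; nlinarith
  have e : star (T 0 N') * a * T 0 N' + star (T 1 N') * a * T 1 N'
      = (∑ c, star (T c) * cst a * T c) N' := by
    simp [Fin.sum_univ_two]
  rw [e]
  simp only [cst_apply] at hN2
  calc ‖(∑ c, star (T c) * cst a * T c) N' - x‖
      ≤ ‖(∑ c, star (T c) * cst a * T c) N' - M N'‖ + ‖M N' - x‖ :=
        norm_sub_le_norm_sub_add_norm_sub _ _ _
    _ ≤ ‖(∑ c, star (T c) * cst a * T c) N' - M N'‖ + (‖M N' - N N'‖ + ‖N N' - x‖) :=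
        add_le_add le_rfl (norm_sub_le_norm_sub_add_norm_sub _ _ _)
    _ < ε := by linarith [h8 N']

end Vale.Agent.P095.Amenable
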