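import Vale.Agent.P095.Amenable.Defs

/-! Small traces give a decomposition with small rows (Cuntz-Pedersen). -/

noncomputable section

open Filter Topology

namespace Vale.Agent.P095.Amenable

universe u

variable {A : Type u} [CStarAlgebra A] [PartialOrder A] [StarOrderedRing A]

/-- Cuntz-Pedersen subequivalence up to arbitrarily small errors. -/
def Sub (a b : A) : Prop :=
  ∀ η : ℝ, 0 < η → ∃ (n : ℕ) (z : Fin n → A),
    a ≤ ∑ j, star (z j) * z j + η • (1 : A) ∧ ∑ j, z j * star (z j) ≤ b

/-- Inverse square root of an element bounded below. -/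
lemma exists_invSqrt {θ : ℝ} (hθ : 0 < θ) {P : A} (hP : θ • (1 : A) ≤ P) :
    ∃ q : A, star q = q ∧ q * P * q = 1 := by
  have h0 : (0 : A) ≤ P := (smul_nonneg hθ.le zero_le_one).trans hP
  have hsa : IsSelfAdjoint P := IsSelfAdjoint.of_nonneg h0
  have hge : ∀ t ∈ spectrum ℝ P, θ ≤ t :=
    (algebraMap_le_iff_le_spectrum (a := P)).1 (by rwa [Algebra.algebraMap_eq_smul_one])
  set r : ℝ → ℝ := fun t => 1 / Real.sqrt (max t θ) with hr
  have hc : Continuous r := continuous_const.div (by fun_prop) fun t =>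
    (Real.sqrt_pos.2 (lt_of_lt_of_le hθ (le_max_right _ _))).ne'
  refine ⟨cfc r P, (cfc_predicate r P : IsSelfAdjoint _).star_eq, ?_⟩
  conv_lhs => arg 1; arg 2; rw [← cfc_id' ℝ P]
  rw [← cfc_mul r (fun t => t) P hc.continuousOn continuousOn_id,
    ← cfc_mul (fun t => r t * t) r P (hc.mul continuous_id).continuousOn hc.continuousOn,
    ← cfc_const_one ℝ P]
  refine cfc_congr fun t ht => ?_
  have hpos : 0 < t := hθ.trans_le (hge t ht)
  have := Real.sqrt_pos.2 hpos
  simp only [hr, max_eq_left (hge t ht)]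
  field_simp
  rw [Real.sq_sqrt hpos.le]

/-- Both orders of products through an intermediate element. -/
lemma norm_star_mul_sq_le {q z P : A} (hq : star q = q) (h1 : q * P * q = 1)
    (hz : z * star z ≤ P) : star z * (q * q) * z ≤ 1 := by
  have h : q * z * star (q * z) ≤ 1 := by
    have := star_left_conjugate_le_conjugate hz q
    rw [hq] at this
    rw [← h1, star_mul, hq]
    simpa [mul_assoc] using this
  have hn : ‖q * z‖ * ‖q * z‖ ≤ 1 := by
    rw [← CStarRing.norm_self_mul_star]
    exact (CStarAlgebra.norm_le_one_iff_of_nonneg _ (mul_star_self_nonneg _)).2 h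
  have e : star z * (q * q) * z = star (q * z) * (q * z) := by
    simp [star_mul, hq, mul_assoc]
  rw [e]
  refine (CStarAlgebra.norm_le_one_iff_of_nonneg _ (star_mul_self_nonneg _)).1 ?_
  rwa [CStarRing.norm_star_mul_self]

lemma sub_refl' {a : A} (ha : 0 ≤ a) : Sub a a := fun η hη => by
  obtain ⟨c, hc⟩ : ∃ c : A, star c = c ∧ c * c = a :=
    ⟨CFC.sqrt a, (IsSelfAdjoint.of_nonneg (CFC.sqrt_nonneg a)).star_eq,
      CFC.sqrt_mul_sqrt_self a ha⟩
  refine ⟨1, fun _ => c, ?_, ?_⟩ <;> simp only [Fin.sum_univ_one, hc.1, hc.2]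
  · exact le_add_of_nonneg_right (smul_nonneg hη.le zero_le_one)
  · exact le_rfl

lemma Sub.add {a b c d : A} (h : Sub a b) (h' : Sub c d) : Sub (a + c) (b + d) := fun η hη => by
  obtain ⟨n, z, hz1, hz2⟩ := h (η / 2) (half_pos hη)
  obtain ⟨m, w, hw1, hw2⟩ := h' (η / 2) (half_pos hη)
  refine ⟨n + m, Fin.append z w, ?_, ?_⟩
  · simp only [Fin.sum_univ_add, Fin.append_left, Fin.append_right]
    calc a + c ≤ _ := add_le_add hz1 hw1
      _ = _ := by
        rw [add_add_add_comm, ← add_smul, add_halves]
  · simp only [Fin.sum_univ_add, Fin.append_left, Fin.append_right]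
    exact add_le_add hz2 hw2

omit [StarOrderedRing A] in
lemma Sub.mono {a a' b b' : A} (h : Sub a b) (ha : a' ≤ a) (hb : b ≤ b') : Sub a' b' :=
  fun η hη => by
    obtain ⟨n, z, hz1, hz2⟩ := h η hη
    exact ⟨n, z, ha.trans hz1, hz2.trans hb⟩

lemma Sub.trans {a b c : A} (h : Sub a b) (h' : Sub b c) : Sub a c := fun η hη => by
  obtain ⟨n, z, hz1, hz2⟩ := h (η / 2) (half_pos hη)
  set θ : ℝ := η / (2 * (n + 1)) with hθ
  have hθ0 : 0 < θ := by positivity
  obtain ⟨m, w, hw1, hw2⟩ := h' θ hθ0
  set Q : A := ∑ l, star (w l) * w l with hQ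
  have hQ0 : 0 ≤ Q := Finset.sum_nonneg fun l _ => star_mul_self_nonneg _
  set P : A := Q + θ • (1 : A) with hP
  obtain ⟨q, hq, hqP⟩ := exists_invSqrt hθ0 (le_add_of_nonneg_left hQ0 : θ • (1 : A) ≤ P)
  refine ⟨m * n, fun p => w (finProdFinEquiv.symm p).1 * q * z (finProdFinEquiv.symm p).2,
    ?_, ?_⟩
  · rw [← finProdFinEquiv.sum_comp, Fintype.sum_prod_type, Finset.sum_comm]
    simp only [Equiv.symm_apply_apply]
    have e : ∀ j, ∑ l, star (w l * q * z j) * (w l * q * z j)
        = star (z j) * z j - θ • (star (z j) * (q * q) * z j) := fun j => by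
      have : ∑ l, star (w l * q * z j) * (w l * q * z j) = star (z j) * (q * Q * q) * z j := by
        simp only [hQ, star_mul, hq, Finset.mul_sum, Finset.sum_mul, mul_assoc]
      rw [this, show Q = P - θ • (1 : A) by rw [hP, add_sub_cancel_right], mul_sub, sub_mul, hqP,
        mul_smul_comm, smul_mul_assoc, mul_one, mul_sub, sub_mul, mul_one, mul_smul_comm,
        smul_mul_assoc]
    simp only [e, Finset.sum_sub_distrib]
    have hb : ∑ j, θ • (star (z j) * (q * q) * z j) ≤ (η / 2) • (1 : A) := by
      calc ∑ j, θ • (star (z j) * (q * q) * z j) ≤ ∑ _j : Fin n, θ • (1 : A) :=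
            Finset.sum_le_sum fun j _ => smul_le_smul_of_nonneg_left
              (norm_star_mul_sq_le hq hqP (((Finset.single_le_sum
                (fun i _ => mul_star_self_nonneg (z i)) (Finset.mem_univ j)).trans hz2).trans
                hw1)) hθ0.le
        _ = ((n : ℝ) * θ) • (1 : A) := by simp [Finset.sum_const, ← Nat.cast_smul_eq_nsmul ℝ,
            smul_smul]
        _ ≤ _ := smul_le_smul_of_nonneg_right (by
            rw [hθ, mul_div_assoc', div_le_div_iff₀ (by positivity) two_pos]
            nlinarith [(Nat.cast_nonneg n : (0 : ℝ) ≤ n)]) zero_le_one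
    calc a ≤ ∑ j, star (z j) * z j + (η / 2) • (1 : A) := hz1
      _ = ∑ j, star (z j) * z j - (η / 2) • (1 : A) + η • (1 : A) := by
          rw [show η • (1 : A) = (η / 2) • (1 : A) + (η / 2) • (1 : A) by
            rw [← add_smul, add_halves]]
          abel
      _ ≤ _ := add_le_add (sub_le_sub le_rfl hb) le_rfl
  · rw [← finProdFinEquiv.sum_comp, Fintype.sum_prod_type]
    simp only [Equiv.symm_apply_apply]
    have e : ∀ l, ∑ j, w l * q * z j * star (w l * q * z j)
        = w l * (q * (∑ j, z j * star (z j)) * q) * star (w l) := fun l => by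
      simp only [star_mul, hq, Finset.mul_sum, Finset.sum_mul, mul_assoc]
    simp only [e]
    refine le_trans (Finset.sum_le_sum fun l _ => ?_) hw2
    have h1 : q * (∑ j, z j * star (z j)) * q ≤ 1 := by
      have := star_left_conjugate_le_conjugate (hz2.trans hw1) q
      rwa [hq, hP, hqP] at this
    have := star_right_conjugate_le_conjugate h1 (w l)
    rwa [mul_one] at this

/-- Separation: small traces give the basic relation. -/
lemma exists_base {e : A} {δ : ℝ} (he : IsSelfAdjoint e) (htr : TraceSmall e δ) {η : ℝ}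
    (hη : 0 < η) : ∃ (n : ℕ) (x : Fin n → A),
      e + ∑ j, star (x j) * x j ≤ (δ + η) • (1 : A) + ∑ j, x j * star (x j) := by
  let S : Set A := {a | ∃ (n : ℕ) (z : Fin n → A),
    ∑ j, (star (z j) * z j - z j * star (z j)) ≤ a}
  have hS0 : (0 : A) ∈ S := ⟨0, Fin.elim0, by simp⟩
  have hadd : ∀ a b, a ∈ S → b ∈ S → a + b ∈ S := by
    rintro a b ⟨n, z, hz⟩ ⟨m, w, hw⟩
    refine ⟨n + m, Fin.append z w, ?_⟩
    simp only [Fin.sum_univ_add, Fin.append_left, Fin.append_right]
    exact add_le_add hz hw
  have hsmul : ∀ (t : ℝ) a, 0 ≤ t → a ∈ S → t • a ∈ S := by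
    rintro t a ht ⟨n, z, hz⟩
    refine ⟨n, fun j => Real.sqrt t • z j, le_of_eq_of_le ?_ (smul_le_smul_of_nonneg_left hz ht)⟩
    simp only [Finset.smul_sum, star_smul, star_trivial, smul_mul_smul_comm,
      Real.mul_self_sqrt ht, smul_sub]
  by_cases hd : δ • (1 : A) - e ∈ closure S
  · obtain ⟨a, ⟨n, z, hz⟩, ha⟩ := Metric.mem_closure_iff.1 hd η hη
    refine ⟨n, z, ?_⟩
    have hsa : IsSelfAdjoint a := by
      have h0 : 0 ≤ a - ∑ j, (star (z j) * z j - z j * star (z j)) := sub_nonneg.2 hz
      have h1 : IsSelfAdjoint (∑ j, (star (z j) * z j - z j * star (z j))) :=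
        isSelfAdjoint_sum _ fun j _ =>
          (IsSelfAdjoint.star_mul_self _).sub (IsSelfAdjoint.mul_star_self _)
      simpa using (IsSelfAdjoint.of_nonneg h0).add h1
    have hle : a - (δ • (1 : A) - e) ≤ η • (1 : A) := by
      have hsa' : IsSelfAdjoint (a - (δ • (1 : A) - e)) :=
        hsa.sub ((IsSelfAdjoint.smul (IsSelfAdjoint.all δ) (IsSelfAdjoint.one A)).sub he)
      refine (hsa'.le_algebraMap_norm_self).trans ?_
      rw [Algebra.algebraMap_eq_smul_one]
      refine smul_le_smul_of_nonneg_right ?_ zero_le_one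
      rw [← dist_eq_norm, dist_comm]
      exact ha.le
    have h2 := (hz.trans (sub_le_iff_le_add.1 hle))
    rw [Finset.sum_sub_distrib] at h2
    calc e + ∑ j, star (z j) * z j
        = (∑ j, star (z j) * z j - ∑ j, z j * star (z j)) + (e + ∑ j, z j * star (z j)) := by abel
      _ ≤ η • (1 : A) + (δ • (1 : A) - e) + (e + ∑ j, z j * star (z j)) := add_le_add h2 le_rfl
      _ = _ := by rw [add_smul]; abel
  · exfalso
    have hconv : Convex ℝ S := fun a ha b hb s t hs ht _ =>
      hadd _ _ (hsmul s a hs ha) (hsmul t b ht hb)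
    obtain ⟨f, u, hfu, huf⟩ := geometric_hahn_banach_closed_point hconv.closure isClosed_closure hd
    have hu : 0 < u := by simpa using hfu 0 (subset_closure hS0)
    have hneg : ∀ a ∈ S, f a ≤ 0 := fun a ha => by
      by_contra hpos
      rw [not_le] at hpos
      have := hfu _ (subset_closure (hsmul (u / f a) a (div_pos hu hpos).le ha))
      rw [map_smul, smul_eq_mul, div_mul_cancel₀ _ hpos.ne'] at this
      exact lt_irrefl u this
    have hpos : ∀ a, 0 ≤ a → f a ≤ 0 := fun a ha =>
      hneg a ⟨0, Fin.elim0, by simpa using ha⟩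
    have hcom : ∀ z : A, f (star z * z) = f (z * star z) := fun z => by
      have h1 := hneg (star z * z - z * star z) ⟨1, fun _ => z, by simp⟩
      have h2 := hneg (z * star z - star z * z) ⟨1, fun _ => star z, by simp⟩
      rw [map_sub] at h1 h2
      linarith
    let g : A →ₗ[ℝ] ℝ := -f.toLinearMap
    have hg : ∀ a, g a = -f a := fun a => rfl
    have hsab : ∀ a : A, IsSelfAdjoint a → |g a| ≤ ‖a‖ * g 1 := fun a ha => by
      have h1 := hpos _ (sub_nonneg.2 ha.le_algebraMap_norm_self)
      have h2 := hpos _ (sub_nonneg.2 ha.neg_algebraMap_norm_le_self)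
      simp only [Algebra.algebraMap_eq_smul_one, map_sub, map_neg, map_smul, smul_eq_mul] at h1 h2
      rw [hg, hg, abs_le]
      constructor <;> linarith
    have hg1 : 0 < g 1 := by
      rcases lt_or_ge 0 (g 1) with h | h
      · exact h
      · exfalso
        have h3 := hsab (δ • (1 : A) - e)
          ((IsSelfAdjoint.smul (IsSelfAdjoint.all δ) (IsSelfAdjoint.one A)).sub he)
        have h4 : |g (δ • (1 : A) - e)| ≤ 0 :=
          h3.trans (mul_nonpos_of_nonneg_of_nonpos (norm_nonneg _) h)
        rw [abs_nonpos_iff, hg] at h4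
        linarith
    let h : Module.Dual ℝ A :=
      { toFun := fun a => g (a + star a) / (2 * g 1)
        map_add' := fun a b => by simp only [star_add, map_add]; ring
        map_smul' := fun t a => by
          simp only [star_smul, star_trivial, ← smul_add, map_smul, smul_eq_mul, RingHom.id_apply,
            mul_div_assoc] }
    let τ : A →ₗ[ℂ] ℂ := h.extendRCLike
    have hτsa : ∀ a, IsSelfAdjoint a → τ a = ((g a / g 1 : ℝ) : ℂ) := fun a ha => by
      have h0 : h (Complex.I • a) = 0 := by
        show g (Complex.I • a + star (Complex.I • a)) / (2 * g 1) = 0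
        rw [star_smul, ha.star_eq, ← add_smul]
        simp
      have h1 : h a = g a / g 1 := by
        show g (a + star a) / (2 * g 1) = g a / g 1
        rw [ha.star_eq, map_add]
        field_simp
        ring
      simp [τ, Module.Dual.extendRCLike_apply, h0, h1]
    have hpol : ∀ x y : A, τ (star y * x) = τ (x * star y) := fun x y => by
      have key : ∀ z : A, τ (star z * z) = τ (z * star z) := fun z => by
        rw [hτsa _ (IsSelfAdjoint.star_mul_self z), hτsa _ (IsSelfAdjoint.mul_star_self z), hg,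
          hg (z * star z), hcom]
      have h1 := key (x + y)
      have h2 := key (x + Complex.I • y)
      simp only [star_add, star_smul, Complex.star_def, Complex.conj_I, add_mul, mul_add,
        smul_mul_assoc, mul_smul_comm, map_add, map_smul, smul_eq_mul, key x, key y]
        at h1 h2
      linear_combination h1 / 2 + Complex.I / 2 * h2 +
        (τ (star y * x) - τ (x * star y) - τ (star x * y) + τ (y * star x)) / 2 *
          Complex.I_mul_I
    have hτ : Vale.Agent.P095.IsTr τ := by
      refine ⟨?_, fun x y => ?_, fun x => ⟨g (star x * x) / g 1, ?_, hτsa _ (.star_mul_self x)⟩⟩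
      · rw [hτsa _ (IsSelfAdjoint.one A), div_self hg1.ne', Complex.ofReal_one]
      · simpa using hpol y (star x)
      · refine div_nonneg ?_ hg1.le
        rw [hg]
        linarith [hpos _ (star_mul_self_nonneg x)]
    have h5 := htr τ hτ
    rw [hτsa e he, Complex.ofReal_re, div_le_iff₀ hg1] at h5
    have h6 : u < f (δ • (1 : A) - e) := huf
    rw [map_sub, map_smul, smul_eq_mul] at h6
    rw [hg, hg] at h5
    linarith

/-- Module Decomp. -/
theorem decomp_ok : DecompStatement.{u} := by
  intro A _ e δ ⟨y, hy⟩ _ hδ htr η hη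
  let := CStarAlgebra.spectralOrder A
  have := CStarAlgebra.spectralOrderedRing A
  have he0 : 0 ≤ e := hy ▸ star_mul_self_nonneg y
  have he : IsSelfAdjoint e := IsSelfAdjoint.of_nonneg he0
  obtain ⟨n, x, hx⟩ := exists_base he htr (half_pos hδ)
  set d : A := (δ + δ / 2) • (1 : A) with hd
  set B : A := ∑ j, x j * star (x j) with hB
  have hB0 : 0 ≤ B := Finset.sum_nonneg fun j _ => mul_star_self_nonneg _
  obtain ⟨c, hc1, hc2⟩ : ∃ c : A, star c = c ∧ c * c = e :=
    ⟨CFC.sqrt e, (IsSelfAdjoint.of_nonneg (CFC.sqrt_nonneg e)).star_eq,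
      CFC.sqrt_mul_sqrt_self e he0⟩
  have hd0 : 0 ≤ d := smul_nonneg (by positivity) zero_le_one
  have base : Sub (e + B) (d + B) := fun θ hθ => by
    refine ⟨n + 1, Fin.cons c (fun j => star (x j)), ?_, ?_⟩
    · simp only [Fin.sum_univ_succ, Fin.cons_zero, Fin.cons_succ, star_star, hc1, hc2]
      exact le_add_of_nonneg_right (smul_nonneg hθ.le zero_le_one)
    · simp only [Fin.sum_univ_succ, Fin.cons_zero, Fin.cons_succ, star_star, hc1, hc2]
      exact hx
  have iter : ∀ k : ℕ, Sub ((k : ℝ) • e + B) ((k : ℝ) • d + B) := by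
    intro k
    induction k with
    | zero => simpa using sub_refl' hB0
    | succ k ih =>
      have h1 : Sub (e + ((k : ℝ) • e + B)) (e + ((k : ℝ) • d + B)) := (sub_refl' he0).add ih
      have h2 : Sub ((k : ℝ) • d + (e + B)) ((k : ℝ) • d + (d + B)) :=
        (sub_refl' (smul_nonneg (Nat.cast_nonneg k) hd0)).add base
      rw [add_left_comm ((k : ℝ) • d)] at h2
      have h3 := h1.trans h2
      refine h3.mono (le_of_eq ?_) (le_of_eq ?_) <;>
        · push_cast
          rw [add_smul, one_smul]
          abel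
  obtain ⟨k, hk⟩ := exists_nat_gt (2 * ‖B‖ / δ)
  rw [div_lt_iff₀ hδ] at hk
  have hk0 : (0 : ℝ) < k := by nlinarith [norm_nonneg B]
  obtain ⟨m, z, hz1, hz2⟩ := iter k ((k : ℝ) * η) (by positivity)
  set s : ℝ := Real.sqrt (1 / k) with hs
  have hss : s * s = 1 / k := Real.mul_self_sqrt (by positivity)
  have hz3 : e ≤ ∑ j, star (s • z j) * (s • z j) + η • (1 : A) := by
    have h1 : (1 / (k : ℝ)) • ((k : ℝ) • e) ≤
        (1 / (k : ℝ)) • (∑ j, star (z j) * z j + ((k : ℝ) * η) • (1 : A)) :=
      smul_le_smul_of_nonneg_left ((le_add_of_nonneg_right hB0).trans hz1) (by positivity)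
    rw [smul_smul, smul_add, smul_smul, one_div, inv_mul_cancel₀ hk0.ne', one_smul, ← mul_assoc,
      inv_mul_cancel₀ hk0.ne', one_mul] at h1
    simp only [star_smul, star_trivial, smul_mul_smul_comm, hss, ← Finset.smul_sum, one_div]
    exact h1
  have hz4 : ∑ j, (s • z j) * star (s • z j) ≤ (2 * δ) • (1 : A) := by
    simp only [star_smul, star_trivial, smul_mul_smul_comm, hss, ← Finset.smul_sum]
    have h1 : ∑ j, z j * star (z j) ≤ ((k : ℝ) * (δ + δ / 2) + ‖B‖) • (1 : A) := by
      refine hz2.trans ?_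
      rw [add_smul, hd, smul_smul]
      refine add_le_add le_rfl ?_
      simpa [Algebra.algebraMap_eq_smul_one] using
        (IsSelfAdjoint.of_nonneg hB0).le_algebraMap_norm_self
    refine (smul_le_smul_of_nonneg_left h1 (by positivity)).trans ?_
    rw [smul_smul]
    refine smul_le_smul_of_nonneg_right ?_ zero_le_one
    rw [one_div_mul_eq_div, div_le_iff₀ hk0]
    nlinarith
  set P : A := ∑ j, star (s • z j) * (s • z j) + η • (1 : A) with hP
  obtain ⟨q, hq, hqP⟩ := exists_invSqrt hη
    (le_add_of_nonneg_left (Finset.sum_nonneg fun j _ => star_mul_self_nonneg _) : η • (1 : A) ≤ P)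
  have hcP : c * star c ≤ P := by rw [hc1, hc2]; exact hz3
  refine ⟨m, fun j => (s • z j) * q * c, ?_, ?_⟩
  · have e1 : ∑ j, star ((s • z j) * q * c) * ((s • z j) * q * c) - e
        = -(η • (star c * (q * q) * c)) := by
      have : ∑ j, star ((s • z j) * q * c) * ((s • z j) * q * c)
          = star c * (q * (∑ j, star (s • z j) * (s • z j)) * q) * c := by
        simp only [star_mul, hq, Finset.mul_sum, Finset.sum_mul, mul_assoc]
      rw [this, eq_sub_of_add_eq hP.symm, mul_sub, sub_mul, hqP, mul_sub, sub_mul, mul_one, hc1,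
        hc2, mul_smul_comm, mul_one, smul_mul_assoc, mul_smul_comm, smul_mul_assoc]
      abel
    rw [e1, norm_neg, norm_smul, Real.norm_eq_abs, abs_of_pos hη]
    have h0 : 0 ≤ star c * (q * q) * c := by
      have : star c * (q * q) * c = star (q * c) * (q * c) := by simp [hq, mul_assoc]
      exact this ▸ star_mul_self_nonneg _
    exact mul_le_of_le_one_right hη.le ((CStarAlgebra.norm_le_one_iff_of_nonneg _ h0).2
      (norm_star_mul_sq_le hq hqP hcP))
  · have h1 : q * (c * star c) * q ≤ 1 := by
      have := star_left_conjugate_le_conjugate hcP q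
      rwa [hq, hqP] at this
    have h2 : ∑ j, (s • z j) * q * c * star ((s • z j) * q * c) ≤ (2 * δ) • (1 : A) := by
      refine le_trans (Finset.sum_le_sum fun j _ => ?_) hz4
      have := star_right_conjugate_le_conjugate h1 (s • z j)
      rw [mul_one] at this
      simpa [star_mul, hq, mul_assoc] using this
    refine (CStarAlgebra.norm_le_norm_of_nonneg_of_le
      (Finset.sum_nonneg fun j _ => mul_star_self_nonneg _) h2).trans ?_
    rw [norm_smul, Real.norm_eq_abs, abs_of_pos (by positivity)]
    calc 2 * δ * ‖(1 : A)‖ ≤ 2 * δ * 1 := by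
          refine mul_le_mul_of_nonneg_left ?_ (by positivity)
          rcases subsingleton_or_nontrivial A with h | h
          · simp [Subsingleton.elim (1 : A) 0]
          · exact le_of_eq CStarRing.norm_one
      _ ≤ 3 * δ := by linarith

end Vale.Agent.P095.Amenable
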