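import Mathlib
import Vale.Agent.P101.Defs
import Vale.Agent.P095.Defs
import Vale.Agent.P095.Finite.Defs

/-!
Interfaces for P095: actions of amenable groups on unital simple separable nuclear algebras whose
central sequence algebra has no characters.
-/

noncomputable section

open Filter Topology
open scoped BoundedContinuousFunction

namespace Vale.Agent.P095.Amenable

open Vale.Agent.P101

universe u v

/-- Nonnegative elements, as squares. -/
def Nonneg {B : Type*} [Mul B] [Star B] (x : B) : Prop := ∃ y : B, x = star y * y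

/-- Algebraic simplicity of a unital algebra: every nonzero element generates everything. -/
def IsSimpleUnital (A : Type u) [Ring A] : Prop :=
  ∀ a : A, a ≠ 0 → ∃ (n : ℕ) (p q : Fin n → A), ∑ i, p i * a * q i = 1

/-- A completely positive linear map. -/
def IsCP {B : Type u} {C : Type v} [Ring B] [StarRing B] [Algebra ℂ B] [Ring C] [StarRing C]
    [Algebra ℂ C] (φ : B →ₗ[ℂ] C) : Prop :=
  ∀ (L : ℕ) (X : Matrix (Fin L) (Fin L) B), ∃ Y : Matrix (Fin L) (Fin L) C,
    (star X * X).map φ = star Y * Y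

/-- Nuclearity: unital completely positive approximate factorisations through matrix algebras. -/
def IsNuclearAlg (A : Type u) [CStarAlgebra A] : Prop :=
  ∀ (F : Finset A) (ε : ℝ), 0 < ε → ∃ (k : ℕ) (φ : A →ₗ[ℂ] Matrix (Fin k) (Fin k) ℂ)
    (ψ : Matrix (Fin k) (Fin k) ℂ →ₗ[ℂ] A),
    IsCP φ ∧ IsCP ψ ∧ φ 1 = 1 ∧ ψ 1 = 1 ∧ ∀ a ∈ F, ‖ψ (φ a) - a‖ < ε

/-- For arbitrarily large n the central sequence algebra has n elements with pairwise orthogonal
ranges and common supports, and two colours of multipliers which together give the identity.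
No characters on the central sequence algebra gives them (module Colours). -/
def TwoColours (ω : Ultrafilter ℕ) (A : Type u) [CStarAlgebra A] : Prop :=
  ∀ m : ℕ, ∃ n : ℕ, m ≤ n ∧ ∃ (g : Fin n → ℕ →ᵇ A) (w : Fin 2 → Fin n → ℕ →ᵇ A),
    (∀ i, IsCentral ω (g i)) ∧ (∀ c i, IsCentral ω (w c i)) ∧
    (∀ i j, i ≠ j → IsNull ω (star (g i) * g j)) ∧
    (∀ i j, IsNull ω (star (g i) * g i - star (g j) * g j)) ∧
    IsNull ω (∑ c, ∑ i, star (g i * w c i) * (g i * w c i) - 1)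

variable {A : Type u} [CStarAlgebra A]

/-- All tracial states take values at most δ. -/
def TraceSmall (e : A) (δ : ℝ) : Prop := ∀ τ : A →ₗ[ℂ] ℂ, IsTr τ → (τ e).re ≤ δ

/-- A sequence of values tending to zero uniformly on tracial states. -/
def TraceNull (ω : Ultrafilter ℕ) (e : ℕ →ᵇ A) : Prop :=
  ∀ δ : ℝ, 0 < δ → ∀ᶠ n in (ω : Filter ℕ), TraceSmall (e n) δ

/-- The part of e above t. -/
def cut (e : A) (t : ℝ) : A := cfc (fun x : ℝ => max (x - t) 0) e

/-- m copies of x lie below l copies of a. -/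
def Div (x a : A) (l m : ℕ) : Prop :=
  ∀ ε : ℝ, 0 < ε → ∃ V : Fin l → Fin m → A, ∀ i j,
    ‖∑ p, star (V p i) * a * V p j - if i = j then x else 0‖ < ε

/-- The automorphism fixes all central sequences. -/
def ActsTrivially (ω : Ultrafilter ℕ) (φ : A ≃⋆ₐ[ℂ] A) : Prop :=
  ∀ x : ℕ →ᵇ A, IsCentral ω x → Tendsto (fun n => ‖φ (x n) - x n‖) (ω : Filter ℕ) (𝓝 0)

/-- Invariance of a sequence modulo null sequences. -/
def InvSeq {G : Type v} (ω : Ultrafilter ℕ) (α : G → A ≃⋆ₐ[ℂ] A) (x : ℕ →ᵇ A) : Prop :=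
  ∀ g, Tendsto (fun n => ‖α g (x n) - x n‖) (ω : Filter ℕ) (𝓝 0)

/-- A scalar matrix inside matrices over the algebra. -/
def scal {L : ℕ} (M : Matrix (Fin L) (Fin L) ℂ) : CStarMatrix (Fin L) (Fin L) A :=
  CStarMatrix.ofMatrix (M.map (algebraMap ℂ A))

/-- An elementary tensor inside matrices over the algebra. -/
def tens {L : ℕ} (a : A) (M : Matrix (Fin L) (Fin L) ℂ) : CStarMatrix (Fin L) (Fin L) A :=
  CStarMatrix.ofMatrix (M.map fun z => z • a)

/-! ## Module interfaces -/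

/-- Module Decomp: small traces give a decomposition with small rows. -/
def DecompStatement : Prop :=
  ∀ (A : Type u) [CStarAlgebra A] (e : A) (δ : ℝ), Nonneg e → ‖e‖ ≤ 1 → 0 < δ → TraceSmall e δ →
    ∀ η : ℝ, 0 < η → ∃ (n : ℕ) (x : Fin n → A),
      ‖∑ j, star (x j) * x j - e‖ ≤ η ∧ ‖∑ j, x j * star (x j)‖ ≤ 3 * δ

/-- Module Free: matrix models of free unitaries, after removing a small scalar projection. -/
def FreeStatement : Prop :=
  ∀ (A : Type u) [CStarAlgebra A] [PartialOrder A] [StarOrderedRing A], IsNuclearAlg A →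
    ∀ (n : ℕ) (x : Fin n → A) (δ : ℝ), 0 < δ → δ ≤ 1 →
    ‖∑ j, star (x j) * x j‖ ≤ 2 → ‖∑ j, x j * star (x j)‖ ≤ δ →
    ∀ ε : ℝ, 0 < ε → ∃ (L : ℕ) (u : Fin n → Matrix (Fin L) (Fin L) ℂ)
      (P : Matrix (Fin L) (Fin L) ℂ), 0 < L ∧ star P = P ∧ P * P = P ∧
      (∀ i, star (u i) * u i = 1) ∧ (∀ i, (u i).trace = 0) ∧
      (∀ i j, i ≠ j → (star (u i) * u j).trace = 0) ∧
      (L : ℝ) - P.trace.re ≤ ε * L ∧
      ‖scal P * star (∑ j, tens (x j) (u j)) * (∑ j, tens (x j) (u j)) * scal P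
          - tens (∑ j, star (x j) * x j) P‖ ≤ 30 * Real.sqrt δ + ε

/-- Module Small: tracially small elements are divisibly small. -/
def SmallStatement : Prop :=
  ∀ (A : Type u) [CStarAlgebra A] [TopologicalSpace.SeparableSpace A],
    IsSimpleUnital A → IsNuclearAlg A →
    ∀ a : A, Nonneg a → a ≠ 0 → ∀ η : ℝ, 0 < η → ∃ δ : ℝ, 0 < δ ∧
      ∀ e : A, Nonneg e → ‖e‖ ≤ 1 → TraceSmall e δ → ∃ l m : ℕ, l < m ∧ Div (cut e η) a l m

/-- Module Compare: two colours turn divisibility into comparison with two copies. -/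
def CompareStatement : Prop :=
  ∀ (A : Type u) [CStarAlgebra A] (ω : Ultrafilter ℕ), TwoColours ω A →
    ∀ (x a : A) (l m : ℕ), l < m → Div x a l m → ∀ ε : ℝ, 0 < ε →
      ∃ t₁ t₂ : A, ‖star t₁ * a * t₁ + star t₂ * a * t₂ - x‖ < ε

/-- Module Orth: almost central elements with almost orthogonal translates. -/
def OrthStatement : Prop :=
  ∀ (A : Type u) [CStarAlgebra A] [TopologicalSpace.SeparableSpace A] (ω : Ultrafilter ℕ),
    (ω : Filter ℕ) ≤ cofinite → IsSimpleUnital A → IsEmpty (CentralChar ω A) →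
    ∀ (G : Type v) (α : G → A ≃⋆ₐ[ℂ] A) (E : Finset G), (∀ g ∈ E, ¬ ActsTrivially ω (α g)) →
    ∀ (K : ℕ) (S : Finset A) (ε : ℝ), 0 < ε → ∃ h : Fin K → A,
      (∀ p, Nonneg (h p) ∧ ‖h p‖ ≤ 1) ∧ (∀ p, ∀ s ∈ S, ‖h p * s - s * h p‖ ≤ ε) ∧
      (∀ p, ∀ s ∈ S, ‖s‖ - ε ≤ ‖s * h p‖) ∧
      (∀ p q, p ≠ q → ‖h p * h q‖ ≤ ε) ∧
      ∀ p q, ∀ g ∈ E, ‖h p * α g (h q)‖ ≤ ε

/-- Module Excise: unital completely positive maps into matrices are convex combinations of
excisable ones, with errors relative to the excising element. -/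
def ExciseStatement : Prop :=
  ∀ (A : Type u) [CStarAlgebra A] [Nontrivial A] (k : ℕ) (φ : A →ₗ[ℂ] Matrix (Fin k) (Fin k) ℂ),
    IsCP φ → φ 1 = 1 → ∀ (S : Finset A) (ε : ℝ), 0 < ε →
    ∃ (P : ℕ) (lam : Fin P → ℝ) (ρ : Fin P → A → Fin k → Fin k → ℂ) (r : Fin P → Fin k → A)
      (b : Fin P → A), (∀ p, 0 ≤ lam p) ∧ ∑ p, lam p = 1 ∧
      (∀ p, Nonneg (b p) ∧ ‖b p‖ = 1) ∧
      (∀ x ∈ S, ∀ i j, ‖∑ p, (lam p : ℂ) * ρ p x i j - φ x i j‖ ≤ ε) ∧
      ∀ p, ∀ x ∈ S, ∀ i j, ∀ v : A,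
        ‖star v * (star (r p i) * x * r p j - ρ p x i j • b p) * v‖ ≤ ε * ‖star v * b p * v‖

/-- Module SI: two orthogonal intertwiners with orthogonal translates. -/
def SIStatement : Prop :=
  ∀ (A : Type u) [CStarAlgebra A] [TopologicalSpace.SeparableSpace A] (ω : Ultrafilter ℕ),
    (ω : Filter ℕ) ≤ cofinite → IsSimpleUnital A → IsNuclearAlg A → TwoColours ω A →
    IsEmpty (CentralChar ω A) →
    ∀ (G : Type v) [Countable G] (α : G → A ≃⋆ₐ[ℂ] A) (e : ℕ →ᵇ A),
      (∀ n, Nonneg (e n) ∧ ‖e n‖ ≤ 1) → IsCentral ω e → TraceNull ω e →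
      ∃ s : Fin 2 → ℕ →ᵇ A, (∀ i, IsCentral ω (s i)) ∧
        (∀ i, IsNull ω (star (s i) * s i - e)) ∧ IsNull ω (star (s 0) * s 1) ∧
        ∀ g, ¬ ActsTrivially ω (α g) → ∀ i j,
          Tendsto (fun n => ‖star (s i n) * α g (s j n)‖) (ω : Filter ℕ) (𝓝 0)

/-- Module Pair: exactly invariant central sequences which anticommute up to tracially null
elements. -/
def PairStatement : Prop :=
  ∀ (G : Type v) [Group G] [Countable G], Folner G →
    ∀ (A : Type u) [CStarAlgebra A] [TopologicalSpace.SeparableSpace A]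
      (α : G → A ≃⋆ₐ[ℂ] A), (∀ g h x, α (g * h) x = α g (α h x)) →
      ∀ (ω : Ultrafilter ℕ), (ω : Filter ℕ) ≤ cofinite → IsEmpty (CentralChar ω A) →
        ∃ x z : ℕ →ᵇ A, (∀ n, IsSelfAdjoint (x n) ∧ IsSelfAdjoint (z n)) ∧
          IsCentral ω x ∧ IsCentral ω z ∧ InvSeq ω α x ∧ InvSeq ω α z ∧
          TraceNull ω (star (x * x - 1) * (x * x - 1)) ∧
          TraceNull ω (star (z * z - 1) * (z * z - 1)) ∧
          TraceNull ω (star (x * z + z * x) * (x * z + z * x))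

/-- Module Finish: averaging over cosets kills characters on the trace kernel; then the relations
of the dimension drop algebra. -/
def FinishStatement : Prop :=
  ∀ (G : Type v) [Group G] [Countable G], Folner G →
    ∀ (A : Type u) [CStarAlgebra A] [TopologicalSpace.SeparableSpace A]
      (α : G → A ≃⋆ₐ[ℂ] A), (∀ g h x, α (g * h) x = α g (α h x)) →
      ∀ (ω : Ultrafilter ℕ), (ω : Filter ℕ) ≤ cofinite → IsEmpty (CentralChar ω A) →
        (∀ e : ℕ →ᵇ A, (∀ n, Nonneg (e n) ∧ ‖e n‖ ≤ 1) → IsCentral ω e → TraceNull ω e →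
          ∃ s : Fin 2 → ℕ →ᵇ A, (∀ i, IsCentral ω (s i)) ∧
            (∀ i, IsNull ω (star (s i) * s i - e)) ∧ IsNull ω (star (s 0) * s 1) ∧
            ∀ g, ¬ ActsTrivially ω (α g) → ∀ i j,
              Tendsto (fun n => ‖star (s i n) * α g (s j n)‖) (ω : Filter ℕ) (𝓝 0)) →
        (∃ x z : ℕ →ᵇ A, (∀ n, IsSelfAdjoint (x n) ∧ IsSelfAdjoint (z n)) ∧
          IsCentral ω x ∧ IsCentral ω z ∧ InvSeq ω α x ∧ InvSeq ω α z ∧
          TraceNull ω (star (x * x - 1) * (x * x - 1)) ∧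
          TraceNull ω (star (z * z - 1) * (z * z - 1)) ∧
          TraceNull ω (star (x * z + z * x) * (x * z + z * x))) →
        Vale.Agent.P095.Finite.InvComparison ω α Set.univ

/-- Module Colours: no characters give two colours of arbitrarily large matrices. -/
def ColoursStatement : Prop :=
  ∀ (A : Type u) [CStarAlgebra A] [TopologicalSpace.SeparableSpace A] (ω : Ultrafilter ℕ),
    (ω : Filter ℕ) ≤ cofinite → IsEmpty (CentralChar ω A) → TwoColours ω A

/-- The main statement. -/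
def Final : Prop :=
  ∀ (G : Type v) [Group G] [Countable G], Folner G →
    ∀ (A : Type u) [CStarAlgebra A] [TopologicalSpace.SeparableSpace A],
      IsSimpleUnital A → IsNuclearAlg A →
      ∀ (α : G → A ≃⋆ₐ[ℂ] A), (∀ g h x, α (g * h) x = α g (α h x)) →
      ∀ (ω : Ultrafilter ℕ), (ω : Filter ℕ) ≤ cofinite → IsEmpty (CentralChar ω A) →
        Vale.Agent.P095.Finite.InvComparison ω α Set.univ

/-- Assembly. -/
theorem final_of (hn : ColoursStatement.{u}) (hs : SIStatement.{u, v})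
    (hp : PairStatement.{u, v}) (hf : FinishStatement.{u, v}) : Final.{u, v} := by
  intro G _ _ hG A _ _ hsimp hnuc α hα ω hω he
  exact hf G hG A α hα ω hω he (hs A ω hω hsimp hnuc (hn A ω hω he) he G α)
    (hp G hG A α hα ω hω he)

end Vale.Agent.P095.Amenable
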