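import Mathlib
import Vale.Agent.P101.Cuts

/-!
Excision in a unital algebra without representations: below a given cut-off every self-adjoint
element is nearly a scalar after cutting down further, and the values so obtained have dense
convex hull among all states.
-/

noncomputable section

namespace Vale.Agent.P095.Amenable.Excise

open Vale.Agent.P101.Stage4 (ramp continuous_ramp ramp_nonneg ramp_le_one ramp_of_le ramp_of_ge
  lt_of_ramp_ne_zero lt_of_ramp_ne_one)

variable {B : Type*} [CStarAlgebra B]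

/-- A self-adjoint contraction fixing a nonzero element. -/
structure Good (d : B) : Prop where
  sa : IsSelfAdjoint d
  norm_le : ‖d‖ ≤ 1
  nz : ∃ y : B, y ≠ 0 ∧ d * y = y

theorem good_one [Nontrivial B] : Good (1 : B) :=
  ⟨IsSelfAdjoint.one B, by simp, 1, one_ne_zero, one_mul 1⟩

theorem one_le_norm_sq {d : B} (hd : Good d) : 1 ≤ ‖d * d‖ := by
  obtain ⟨y, hy, hdy⟩ := hd.nz
  have h : ‖y‖ ≤ ‖d * d‖ * ‖y‖ := by
    conv_lhs => rw [← hdy, ← hdy, ← mul_assoc]
    exact norm_mul_le _ _
  by_contra hc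
  nlinarith [norm_pos_iff.2 hy, not_le.1 hc]

variable [PartialOrder B] [StarOrderedRing B]

/-- A self-adjoint element between two constants has small norm. -/
theorem norm_le_of_between {x : B} {c : ℝ} (hc : 0 ≤ c) (hx : IsSelfAdjoint x)
    (h1 : algebraMap ℝ B (-c) ≤ x) (h2 : x ≤ algebraMap ℝ B c) : ‖x‖ ≤ c := by
  rw [← cfc_id' ℝ x hx]
  refine norm_cfc_le hc fun t ht => abs_le.2 ⟨?_, ?_⟩
  · exact (algebraMap_le_iff_le_spectrum hx).1 h1 t ht
  · exact (le_algebraMap_iff_spectrum_le hx).1 h2 t ht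

/-- An element of norm at most one below whose support S is nearly the scalar m from above. -/
theorem near_from_above {S y : B} {m η : ℝ} (hS : IsSelfAdjoint S) (hm : 0 ≤ m) (hy : ‖y‖ ≤ 1)
    (hη : 0 ≤ η) {f : ℝ → ℝ} (cf : Continuous f) (hf : ∀ x, 0 ≤ f x ∧ f x ≤ 1)
    (hsupp : ∀ x, f x ≠ 0 → m - η ≤ x) :
    m • (star (y * cfc f (star y * S * y)) * (y * cfc f (star y * S * y)))
      - star (y * cfc f (star y * S * y)) * S * (y * cfc f (star y * S * y))
      ≤ algebraMap ℝ B η := by
  set W : B := star y * S * y with hW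
  have hWsa : IsSelfAdjoint W := hS.conjugate' y
  set F : B := cfc f W with hF
  have hFsa : IsSelfAdjoint F := cfc_predicate f W
  have hyy : star y * y ≤ 1 := by
    refine (CStarAlgebra.norm_le_one_iff_of_nonneg (star y * y) (star_mul_self_nonneg y)).1 ?_
    rw [CStarRing.norm_star_mul_self]
    exact mul_le_one₀ hy (norm_nonneg y) hy
  have h1 : star (y * F) * (y * F) ≤ F * F := by
    have h := star_left_conjugate_le_conjugate hyy F
    rw [mul_one, hFsa.star_eq] at h
    rw [star_mul, hFsa.star_eq]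
    simpa only [mul_assoc] using h
  have h2 : star (y * F) * S * (y * F) = cfc (fun x => f x * x * f x) W := by
    rw [cfc_mul (fun x => f x * x) f W (cf.mul continuous_id).continuousOn cf.continuousOn,
      cfc_mul f (fun x => x) W cf.continuousOn continuousOn_id, cfc_id' ℝ W hWsa, ← hF, star_mul,
      hFsa.star_eq, hW]
    simp only [mul_assoc]
  refine le_trans (sub_le_sub_right (smul_le_smul_of_nonneg_left h1 hm) _) ?_
  have h3 : m • (F * F) - cfc (fun x => f x * x * f x) W
      = cfc (fun x => m * (f x * f x) - f x * x * f x) W := by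
    rw [cfc_sub (fun x => m * (f x * f x)) (fun x => f x * x * f x) W
      (continuous_const.mul (cf.mul cf)).continuousOn
      ((cf.mul continuous_id).mul cf).continuousOn,
      cfc_const_mul m (fun x => f x * f x) W (cf.mul cf).continuousOn,
      cfc_mul f f W cf.continuousOn cf.continuousOn, hF]
  rw [h2, h3]
  refine cfc_le_algebraMap (fun x => m * (f x * f x) - f x * x * f x) η W (fun x _ => ?_)
    ((continuous_const.mul (cf.mul cf)).sub ((cf.mul continuous_id).mul cf)).continuousOn hWsa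
  rcases eq_or_ne (f x) 0 with h0 | h0
  · rw [h0]; simpa using hη
  · have hb : f x * f x ≤ 1 := mul_le_one₀ (hf x).2 (hf x).1 (hf x).2
    nlinarith [mul_self_nonneg (f x), hsupp x h0]

/-- S stays below m at u as soon as it does so at all normalisations of u. -/
theorem le_from_below {S u : B} {m η : ℝ} (hm : 0 < m) (hη : 0 < η)
    (h : ∀ r : B, ‖u * r‖ ≤ 1 → star (u * r) * S * (u * r) ≤ algebraMap ℝ B m) :
    star u * S * u ≤ m • (star u * u) + algebraMap ℝ B η := by
  set δ : ℝ := η / m with hδ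
  have hδ0 : 0 < δ := by rw [hδ]; positivity
  set a : B := star u * u with ha
  have ha0 : 0 ≤ a := star_mul_self_nonneg u
  have hasa : IsSelfAdjoint a := IsSelfAdjoint.star_mul_self u
  set s : ℝ → ℝ := fun t => Real.sqrt (max t 0 + δ) with hs
  have hspos : ∀ t, 0 < s t := fun t =>
    Real.sqrt_pos.2 (by linarith [le_max_right t (0 : ℝ)])
  have hsq : ∀ t, 0 ≤ t → s t * s t = t + δ := fun t ht => by
    simp only [hs]
    rw [max_eq_left ht, Real.mul_self_sqrt (by linarith)]
  have cs : Continuous s := by rw [hs]; fun_prop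
  have cr : Continuous fun t => (s t)⁻¹ := cs.inv₀ fun t => (hspos t).ne'
  set r : B := cfc (fun t => (s t)⁻¹) a with hr
  have hrsa : IsSelfAdjoint r := cfc_predicate _ a
  have hz1 : ‖u * r‖ ≤ 1 := by
    refine (sq_le_one_iff₀ (norm_nonneg (u * r))).1 ?_
    have e : star (u * r) * (u * r) = cfc (fun t => (s t)⁻¹ * t * (s t)⁻¹) a := by
      rw [cfc_mul (fun t => (s t)⁻¹ * t) (fun t => (s t)⁻¹) a (cr.mul continuous_id).continuousOn
        cr.continuousOn, cfc_mul (fun t => (s t)⁻¹) (fun t => t) a cr.continuousOn continuousOn_id,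
        cfc_id' ℝ a hasa, ← hr, ha, star_mul, hrsa.star_eq]
      simp only [mul_assoc]
    rw [sq, ← CStarRing.norm_star_mul_self, e]
    refine norm_cfc_le zero_le_one fun t ht => ?_
    have ht0 : 0 ≤ t := spectrum_nonneg_of_nonneg ha0 ht
    have := (hspos t).le
    rw [Real.norm_eq_abs, abs_of_nonneg (by positivity),
      show (s t)⁻¹ * t * (s t)⁻¹ = t / (s t * s t) by rw [div_eq_mul_inv, mul_inv]; ring,
      hsq t ht0, div_le_one (by linarith)]
    linarith
  have hus : u = u * r * cfc s a := by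
    rw [mul_assoc, hr, ← cfc_mul (fun t => (s t)⁻¹) s a cr.continuousOn cs.continuousOn,
      cfc_congr (g := fun _ => (1 : ℝ)) fun t _ => inv_mul_cancel₀ (hspos t).ne',
      cfc_const_one ℝ a hasa, mul_one]
  have hsa' : IsSelfAdjoint (cfc s a) := cfc_predicate _ a
  calc star u * S * u = star (cfc s a) * (star (u * r) * S * (u * r)) * cfc s a := by
        conv_lhs => rw [hus]
        rw [star_mul]; simp only [mul_assoc]
    _ ≤ star (cfc s a) * algebraMap ℝ B m * cfc s a := star_left_conjugate_le_conjugate (h r hz1) _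
    _ = cfc (fun t => m * (s t * s t)) a := by
      rw [hsa'.star_eq, ← Algebra.commutes, mul_assoc, ← Algebra.smul_def,
        cfc_const_mul m (fun t => s t * s t) a (cs.mul cs).continuousOn,
        cfc_mul s s a cs.continuousOn cs.continuousOn]
    _ = cfc (fun t => m * t + η) a := by
      refine cfc_congr fun t ht => ?_
      simp only [hsq t (spectrum_nonneg_of_nonneg ha0 ht), hδ]
      field_simp
    _ = m • a + algebraMap ℝ B η := by
      rw [cfc_add_const η (fun t => m * t) a (continuous_const.mul continuous_id).continuousOn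
        hasa, cfc_const_mul m (fun t => t) a continuousOn_id,
        cfc_id' ℝ a hasa]

/-- The elementary step: below d, some smaller cut-off at which T is nearly scalar; the scalar is
an upper bound of T when d is the identity. -/
theorem step [Nontrivial B] {d : B} (hd : Good d) {T : B} (hT : IsSelfAdjoint T) {η : ℝ}
    (hη : 0 < η) :
    ∃ (d₂ : B) (c : ℝ), Good d₂ ∧ d * d₂ = d₂ ∧ d₂ * d = d₂ ∧
      ‖d₂ * T * d₂ - c • (d₂ * d₂)‖ ≤ η ∧ (d = 1 → T ≤ algebraMap ℝ B c) := by
  set C : ℝ := ‖T‖ + 1 with hCdef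
  set S : B := T + algebraMap ℝ B C with hSdef
  have hS1 : (1 : B) ≤ S := by
    have h := add_le_add_left (IsSelfAdjoint.neg_algebraMap_norm_le_self (a := T) hT)
      (algebraMap ℝ B C)
    rw [hSdef]
    calc (1 : B) = -algebraMap ℝ B ‖T‖ + algebraMap ℝ B C := by
          rw [hCdef, map_add, map_one]; abel
      _ ≤ _ := by rw [add_comm T, add_comm (-_)]; exact add_le_add le_rfl
                    (IsSelfAdjoint.neg_algebraMap_norm_le_self (a := T) hT)
  have hS0 : 0 ≤ S := zero_le_one.trans hS1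
  have hSsa : IsSelfAdjoint S := .of_nonneg hS0
  have hnS : 1 ≤ ‖S‖ := by
    simpa using CStarAlgebra.norm_le_norm_of_nonneg_of_le zero_le_one hS1
  -- the supremum over elements fixed by d
  set R : Set ℝ := {r | ∃ z : B, d * z = z ∧ ‖z‖ ≤ 1 ∧ r = ‖star z * S * z‖} with hR
  have hbdd : BddAbove R := ⟨‖S‖, fun r ⟨z, _, hz, hr⟩ => by
    rw [hr]
    calc ‖star z * S * z‖ ≤ ‖star z‖ * ‖S‖ * ‖z‖ :=
          (norm_mul_le _ _).trans (by gcongr; exact norm_mul_le _ _)
      _ ≤ 1 * ‖S‖ * 1 := by rw [norm_star]; gcongr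
      _ = ‖S‖ := by ring⟩
  set m : ℝ := sSup R with hm
  have hm1 : 1 ≤ m := by
    obtain ⟨y, hy, hdy⟩ := hd.nz
    set z : B := ‖y‖⁻¹ • y with hz
    have hny : 0 < ‖y‖ := norm_pos_iff.2 hy
    have hnz : ‖z‖ = 1 := by rw [hz, norm_smul, norm_inv, norm_norm, inv_mul_cancel₀ hny.ne']
    refine le_trans ?_ (le_csSup hbdd ⟨z, by rw [hz, mul_smul_comm, hdy], hnz.le, rfl⟩)
    calc (1 : ℝ) = ‖star z * z‖ := by rw [CStarRing.norm_star_mul_self, hnz, one_mul]
      _ ≤ _ := by
        refine CStarAlgebra.norm_le_norm_of_nonneg_of_le (star_mul_self_nonneg z) ?_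
        simpa using star_left_conjugate_le_conjugate hS1 z
  set κ : ℝ := 3 / (4 * ‖S‖) with hκ
  have hκ0 : 0 < κ := by rw [hκ]; positivity
  set η' : ℝ := min (1 / 4) (η * κ / 8) with hη'
  have hη0 : 0 < η' := lt_min (by norm_num) (by positivity)
  have hne : R.Nonempty := ⟨_, 0, by simp, by simp, rfl⟩
  obtain ⟨_, ⟨y, hdy, hy1, rfl⟩, hyW⟩ := exists_lt_of_lt_csSup hne (sub_lt_self m hη0)
  set W : B := star y * S * y with hW
  have hW0 : 0 ≤ W := star_left_conjugate_nonneg hS0 y
  have hWsa : IsSelfAdjoint W := .of_nonneg hW0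
  have hWm : ‖W‖ ≤ m := le_csSup hbdd ⟨y, hdy, hy1, rfl⟩
  have hη4 : η' ≤ 1 / 4 := min_le_left _ _
  set f : ℝ → ℝ := ramp (m - 2 * η') (m - η') with hf
  have cf : Continuous f := continuous_ramp _ _
  have hab : m - 2 * η' < m - η' := by linarith
  set F : B := cfc f W with hF
  set u : B := y * F with hu
  have hFsa : IsSelfAdjoint F := cfc_predicate f W
  have hdu : d * u = u := by rw [hu, ← mul_assoc, hdy]
  have hSu : star u * S * u = F * W * F := by
    rw [hu, star_mul, hFsa.star_eq, hW]; simp only [mul_assoc]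
  have hFWF : F * W * F = cfc (fun x => f x * x * f x) W := by
    rw [cfc_mul (fun x => f x * x) f W (cf.mul continuous_id).continuousOn cf.continuousOn,
      cfc_mul f (fun x => x) W cf.continuousOn continuousOn_id, cfc_id' ℝ W hWsa]
  have hbig : 3 / 4 ≤ ‖star u * S * u‖ := by
    rw [hSu, hFWF]
    refine le_trans ?_ (norm_apply_le_norm_cfc _ W (CStarAlgebra.norm_mem_spectrum_of_nonneg hW0)
      ((cf.mul continuous_id).mul cf).continuousOn hWsa)
    rw [hf, ramp_of_ge hab hyW.le, one_mul, mul_one, Real.norm_eq_abs,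
      abs_of_nonneg (norm_nonneg _)]
    linarith
  have hF1 : ‖F‖ ≤ 1 := norm_cfc_le zero_le_one fun x _ => by
    rw [Real.norm_eq_abs, abs_of_nonneg (ramp_nonneg _ _ x)]; exact ramp_le_one _ _ x
  set P : B := u * star u with hP
  have hP0 : 0 ≤ P := mul_star_self_nonneg u
  have hPsa : IsSelfAdjoint P := .of_nonneg hP0
  have hnP : κ ≤ ‖P‖ := by
    rw [hP, CStarRing.norm_self_mul_star, hκ, div_le_iff₀ (by positivity)]
    have h : ‖star u * S * u‖ ≤ ‖u‖ * ‖S‖ * ‖u‖ := by
      refine (norm_mul_le _ _).trans ?_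
      rw [← norm_star u]
      gcongr
      exact norm_mul_le _ _
    linarith [show ‖u‖ * ‖u‖ * (4 * ‖S‖) = 4 * (‖u‖ * ‖S‖ * ‖u‖) by ring]
  -- T is nearly scalar at u
  set X : B := m • (star u * u) - star u * S * u with hX
  have hXsa : IsSelfAdjoint X :=
    (IsSelfAdjoint.smul (show IsSelfAdjoint m from star_trivial m) (IsSelfAdjoint.star_mul_self u)).sub (hSsa.conjugate' u)
  have hXle : X ≤ algebraMap ℝ B (2 * η') :=
    near_from_above hSsa (by linarith) hy1 (by linarith) cf
      (fun x => ⟨ramp_nonneg _ _ x, ramp_le_one _ _ x⟩)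
      fun x hx => (lt_of_ramp_ne_zero hab hx).le
  have hXge : algebraMap ℝ B (-(2 * η')) ≤ X := by
    have hup := le_from_below (S := S) (u := u) (by linarith : (0 : ℝ) < m) hη0 fun r hr =>
      (IsSelfAdjoint.le_algebraMap_norm_self (a := star (u * r) * S * (u * r))
        (hSsa.conjugate' (u * r))).trans (algebraMap_mono B
          (le_csSup hbdd ⟨u * r, by rw [← mul_assoc, hdu], hr, rfl⟩))
    calc algebraMap ℝ B (-(2 * η')) ≤ algebraMap ℝ B (-η') := algebraMap_mono B (by linarith)
      _ ≤ X := by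
        rw [map_neg, hX, neg_le_sub_iff_le_add]
        exact le_of_le_of_eq hup rfl
  have hXn : ‖X‖ ≤ 2 * η' := norm_le_of_between (by linarith) hXsa hXge hXle
  -- cut down to u
  set g : ℝ → ℝ := ramp (κ / 4) (κ / 2) with hg
  have cg : Continuous g := continuous_ramp _ _
  have hgab : κ / 4 < κ / 2 := by linarith
  set k : ℝ → ℝ := fun t => g t / max t (κ / 4) with hk
  have hm0 : ∀ t : ℝ, 0 < max t (κ / 4) := fun t =>
    lt_of_lt_of_le (by linarith) (le_max_right _ _)
  have ck : Continuous k := cg.div (by fun_prop) fun t => (hm0 t).ne'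
  have hgk : ∀ t, k t * t = g t := fun t => by
    rcases eq_or_ne (g t) 0 with h0 | h0
    · simp [hk, h0]
    · have ht := lt_of_ramp_ne_zero hgab h0
      simp only [hk, max_eq_left ht.le]
      have : t ≠ 0 := by linarith
      field_simp
  set K : B := cfc k P with hK
  set d₂ : B := cfc g P with hd2
  have hKsa : IsSelfAdjoint K := cfc_predicate k P
  have hd2sa : IsSelfAdjoint d₂ := cfc_predicate g P
  have hd2K : d₂ = K * P := by
    rw [hK, hd2, cfc_congr (g := fun t => k t * t) fun t _ => (hgk t).symm,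
      cfc_mul k (fun t => t) P ck.continuousOn continuousOn_id, cfc_id' ℝ P hPsa]
  have hd2K' : d₂ = P * K := by
    conv_lhs => rw [← hd2sa.star_eq, hd2K]
    rw [star_mul, hKsa.star_eq, (IsSelfAdjoint.of_nonneg hP0).star_eq]
  have hdd : d * d₂ = d₂ := by rw [hd2K', ← mul_assoc, hP, ← mul_assoc, hdu]
  have hdd' : d₂ * d = d₂ := by
    have := congrArg star hdd
    rwa [star_mul, hd2sa.star_eq, hd.sa.star_eq] at this
  have hKu : ‖K * u‖ * ‖K * u‖ ≤ 4 / κ := by
    rw [← CStarRing.norm_self_mul_star, star_mul, hKsa.star_eq,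
      show K * u * (star u * K) = K * P * K by rw [hP]; simp only [mul_assoc], ← hd2K, hd2, hK,
      ← cfc_mul g k P cg.continuousOn ck.continuousOn]
    refine norm_cfc_le (by positivity) fun t _ => ?_
    have h1 : 0 ≤ k t := div_nonneg (ramp_nonneg _ _ t) (hm0 t).le
    rw [Real.norm_eq_abs, abs_of_nonneg (mul_nonneg (ramp_nonneg _ _ t) h1)]
    calc g t * k t ≤ 1 * (1 / (κ / 4)) := by
          refine mul_le_mul (ramp_le_one _ _ t) ?_ h1 zero_le_one
          exact div_le_div₀ zero_le_one (ramp_le_one _ _ t) (by linarith) (le_max_right _ _)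
      _ = 4 / κ := by field_simp
  refine ⟨d₂, m - C, ⟨hd2sa, ?_, ?_⟩, hdd, hdd', ?_, fun hd1 => ?_⟩
  · exact norm_cfc_le zero_le_one fun x _ => by
      rw [Real.norm_eq_abs, abs_of_nonneg (ramp_nonneg _ _ x)]; exact ramp_le_one _ _ x
  · have hab2 : κ / 2 < κ := by linarith
    refine ⟨cfc (ramp (κ / 2) κ) P, fun h0 => ?_, ?_⟩
    · have h := norm_apply_le_norm_cfc (ramp (κ / 2) κ) P
        (CStarAlgebra.norm_mem_spectrum_of_nonneg hP0) (continuous_ramp _ _).continuousOn hPsa
      rw [h0, ramp_of_ge hab2 hnP] at h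
      norm_num at h
    · rw [hd2, ← cfc_mul g (ramp (κ / 2) κ) P cg.continuousOn (continuous_ramp _ _).continuousOn]
      refine cfc_congr fun t _ => ?_
      rcases eq_or_ne (ramp (κ / 2) κ t) 0 with h0 | h0
      · simp [h0]
      · simp only [hg, ramp_of_ge hgab (lt_of_ramp_ne_zero hab2 h0).le, one_mul]
  · have hid : d₂ * T * d₂ - (m - C) • (d₂ * d₂) = -(K * u * X * star (K * u)) := by
      have e1 : d₂ * T * d₂ - (m - C) • (d₂ * d₂) = d₂ * S * d₂ - m • (d₂ * d₂) := by
        rw [hSdef, mul_add, add_mul, sub_smul, ← Algebra.commutes, mul_assoc (algebraMap ℝ B C),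
          ← Algebra.smul_def]
        abel
      have hconj : ∀ V : B, d₂ * V * d₂ = K * u * (star u * V * u) * star (K * u) := fun V => by
        calc d₂ * V * d₂ = K * P * V * (P * K) := by rw [← hd2K, ← hd2K']
          _ = K * u * (star u * V * u) * (star u * K) := by rw [hP]; simp only [mul_assoc]
          _ = _ := by rw [star_mul K u, hKsa.star_eq]
      have hsq : d₂ * d₂ = K * u * (star u * u) * star (K * u) := by
        simpa only [mul_one] using hconj 1
      rw [e1, hconj, hsq, hX, mul_sub, sub_mul, neg_sub, mul_smul_comm, smul_mul_assoc]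
    rw [hid, norm_neg]
    calc ‖K * u * X * star (K * u)‖ ≤ ‖K * u‖ * ‖X‖ * ‖K * u‖ := by
          refine (norm_mul_le _ _).trans ?_
          rw [norm_star]
          gcongr
          exact norm_mul_le _ _
      _ = ‖K * u‖ * ‖K * u‖ * ‖X‖ := by ring
      _ ≤ 4 / κ * (2 * (η * κ / 8)) :=
          mul_le_mul hKu (hXn.trans (by linarith [min_le_right (1/4 : ℝ) (η * κ / 8)]))
            (norm_nonneg _) (by positivity)
      _ = η := by field_simp; ring
  · subst hd1
    have h1 : ‖star (1 : B) * S * 1‖ ≤ m := le_csSup hbdd ⟨1, by simp, by simp, rfl⟩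
    rw [star_one, one_mul, mul_one] at h1
    have h2 := (IsSelfAdjoint.le_algebraMap_norm_self (a := S) hSsa).trans (algebraMap_mono B h1)
    rw [hSdef] at h2
    rw [map_sub]
    exact le_sub_iff_add_le.2 h2

/-- All at once: one cut-off at which finitely many self-adjoint elements are nearly scalar,
with the scalar of Z an upper bound of Z. -/
theorem excise_finset [Nontrivial B] {Z : B} (hZ : IsSelfAdjoint Z) {ι : Type*} (T : ι → B)
    (hT : ∀ t, IsSelfAdjoint (T t)) (s : Finset ι) {η : ℝ} (hη : 0 < η) :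
    ∃ (d : B) (c₀ : ℝ) (c : ι → ℝ), Good d ∧ Z ≤ algebraMap ℝ B c₀ ∧
      ‖d * Z * d - c₀ • (d * d)‖ ≤ η ∧ ∀ t ∈ s, ‖d * T t * d - c t • (d * d)‖ ≤ η := by
  classical
  induction s using Finset.induction_on with
  | empty =>
    obtain ⟨d, c₀, hd, -, -, h1, h2⟩ := step (good_one (B := B)) hZ hη
    exact ⟨d, c₀, fun _ => 0, hd, h2 rfl, h1, by simp⟩
  | insert a s ha ih =>
    obtain ⟨d, c₀, c, hd, hc0, hZd, hs⟩ := ih
    obtain ⟨d₂, ca, hd2, h1, h2, h3, -⟩ := step hd (hT a) hη
    have key : ∀ (X : B) (r : ℝ), ‖d * X * d - r • (d * d)‖ ≤ η →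
        ‖d₂ * X * d₂ - r • (d₂ * d₂)‖ ≤ η := fun X r hX => by
      have e : d₂ * X * d₂ - r • (d₂ * d₂) = d₂ * (d * X * d - r • (d * d)) * d₂ := by
        rw [mul_sub, sub_mul, mul_smul_comm, smul_mul_assoc,
          show d₂ * (d * X * d) * d₂ = d₂ * d * X * (d * d₂) by simp only [mul_assoc],
          show d₂ * (d * d) * d₂ = d₂ * d * (d * d₂) by simp only [mul_assoc], h2, h1]
      rw [e]
      calc ‖d₂ * (d * X * d - r • (d * d)) * d₂‖ ≤ ‖d₂‖ * ‖d * X * d - r • (d * d)‖ * ‖d₂‖ :=
            (norm_mul_le _ _).trans (by gcongr; exact norm_mul_le _ _)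
        _ ≤ 1 * η * 1 := by gcongr <;> exact hd2.norm_le
        _ = η := by ring
    refine ⟨d₂, c₀, Function.update c a ca, hd2, hc0, key Z c₀ hZd, fun t ht => ?_⟩
    rcases Finset.mem_insert.1 ht with rfl | ht
    · rw [Function.update_self]; exact h3
    · rw [Function.update_of_ne (ne_of_mem_of_not_mem ht ha)]; exact key _ _ (hs t ht)

/-- The excisable value vectors. -/
def values {ι : Type*} (T : ι → B) (η : ℝ) : Set (ι → ℝ) :=
  {c | ∃ d : B, Good d ∧ ∀ t, ‖d * T t * d - c t • (d * d)‖ ≤ η}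

/-- Every positive unital functional is close to convex combinations of excisable values. -/
theorem mem_closure_hull [Nontrivial B] (ω : B →ₗ[ℂ] ℂ) (hω : ω 1 = 1)
    (hpos : ∀ x, 0 ≤ (ω (star x * x)).re) {ι : Type*} [Fintype ι] (T : ι → B)
    (hT : ∀ t, IsSelfAdjoint (T t)) {η : ℝ} (hη : 0 < η) :
    (fun t => (ω (T t)).re) ∈ closure (convexHull ℝ (values T η)) := by
  classical
  by_contra hx
  obtain ⟨f, u, hu, hxu⟩ := geometric_hahn_banach_closed_point
    (convex_convexHull ℝ (values T η)).closure isClosed_closure hx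
  set μ : ι → ℝ := fun t => f (Pi.single t 1) with hμ
  have hf : ∀ v : ι → ℝ, f v = ∑ t, v t * μ t := fun v => by
    conv_lhs => rw [pi_eq_sum_univ' v]
    simp [hμ, map_sum, map_smul]
  set Z : B := ∑ t, μ t • T t with hZdef
  have hZ : IsSelfAdjoint Z := isSelfAdjoint_sum _ fun t _ =>
    IsSelfAdjoint.smul (show IsSelfAdjoint (μ t) from star_trivial _) (hT t)
  set gap : ℝ := f (fun t => (ω (T t)).re) - u with hgap
  have hgap0 : 0 < gap := sub_pos.2 hxu
  set M : ℝ := 1 + ∑ t, |μ t| with hM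
  have hM0 : 0 < M := by rw [hM]; positivity
  obtain ⟨d, c₀, c, hd, hc0, hZd, hc⟩ :=
    excise_finset hZ T hT Finset.univ (η := min η (gap / M)) (lt_min hη (by positivity))
  have hcV : f c < u := hu c (subset_closure (subset_convexHull ℝ _
    ⟨d, hd, fun t => (hc t (Finset.mem_univ t)).trans (min_le_left _ _)⟩))
  have hc0' : f (fun t => (ω (T t)).re) ≤ c₀ := by
    obtain ⟨y, hy⟩ := CStarAlgebra.nonneg_iff_eq_star_mul_self.1 (sub_nonneg.2 hc0)
    have h := hpos y
    rw [← hy, map_sub, hZdef, map_sum, Algebra.algebraMap_eq_smul_one, ← Complex.coe_smul,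
      map_smul, hω, Complex.sub_re, Complex.re_sum] at h
    simp only [← Complex.coe_smul, map_smul, smul_eq_mul, Complex.re_ofReal_mul, mul_one,
      Complex.ofReal_re] at h
    rw [hf]
    simp only [mul_comm _ (μ _)]
    linarith
  have hdiff : |f c - c₀| ≤ gap := by
    have e : (f c - c₀) • (d * d) = (d * Z * d - c₀ • (d * d))
        - ∑ t, μ t • (d * T t * d - c t • (d * d)) := by
      rw [hf, hZdef, Finset.mul_sum, Finset.sum_mul, sub_smul, Finset.sum_smul]
      simp only [smul_sub, Finset.sum_sub_distrib, mul_smul_comm, smul_mul_assoc, smul_smul,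
        mul_comm (μ _)]
      abel
    have hn : ‖(f c - c₀) • (d * d)‖ ≤ gap / M * M := by
      rw [e]
      refine (norm_sub_le _ _).trans ((add_le_add (hZd.trans (min_le_right _ _))
        ((norm_sum_le _ _).trans (Finset.sum_le_sum (g := fun t => |μ t| * (gap / M))
          fun t _ => ?_))).trans (le_of_eq ?_))
      · rw [norm_smul, Real.norm_eq_abs]
        exact mul_le_mul_of_nonneg_left ((hc t (Finset.mem_univ t)).trans (min_le_right _ _))
          (abs_nonneg _)
      · rw [hM, ← Finset.sum_mul]; ring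
    rw [div_mul_cancel₀ _ hM0.ne', norm_smul, Real.norm_eq_abs] at hn
    exact le_trans (le_mul_of_one_le_right (abs_nonneg _) (one_le_norm_sq hd)) hn
  linarith [(abs_le.1 hdiff).1]

end Vale.Agent.P095.Amenable.Excise
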