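import Mathlib
import Vale.Agent.P095.Amenable.Defs
import Vale.Agent.P095.Amenable.ExciseStep

/-!
Module Excise: unital completely positive maps into matrices are convex combinations of
excisable ones, with errors relative to the excising element.
-/

noncomputable section

namespace Vale.Agent.P095.Amenable

universe u

namespace Excise

variable {A : Type u} [CStarAlgebra A] {k : ℕ}

variable [PartialOrder A] [StarOrderedRing A] in
/-- An element in one corner of the matrices. -/
def corner (l : Fin k) : A →⋆ₙₐ[ℂ] CStarMatrix (Fin k) (Fin k) A where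
  toFun a := CStarMatrix.ofMatrix (Matrix.single l l a)
  map_smul' c a := by
    ext i j
    simp [Matrix.single_apply]
  map_zero' := by
    ext i j
    simp
  map_add' a b := by
    ext i j
    simp [Matrix.single_apply]
    split_ifs <;> simp
  map_mul' a b := by
    ext i j
    rw [CStarMatrix.mul_apply]
    simp only [CStarMatrix.ofMatrix_apply, Matrix.single_apply]
    rw [Finset.sum_eq_single l]
    · by_cases h1 : l = i <;> by_cases h2 : l = j <;> simp [h1, h2]
    · intro b _ hb; simp [Ne.symm hb]
    · simp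
  map_star' a := by
    ext i j
    simp only [CStarMatrix.star_apply, CStarMatrix.ofMatrix_apply, Matrix.single_apply]
    by_cases h1 : l = i <;> by_cases h2 : l = j <;> simp [h1, h2, apply_ite star, eq_comm]

variable [PartialOrder A] [StarOrderedRing A] in
theorem corner_mul_mul (l : Fin k) (a b : A) (M : CStarMatrix (Fin k) (Fin k) A) :
    corner l a * M * corner l b = corner l (a * M l l * b) := by
  ext i j
  show ((Matrix.single l l a : Matrix _ _ A) * (CStarMatrix.ofMatrix.symm M)
    * (Matrix.single l l b : Matrix _ _ A)) i j = (Matrix.single l l (a * M l l * b) : Matrix _ _ A) i j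
  rw [Matrix.single_mul_mul_single]
  rfl

/-- The pairing of a map into scalar matrices with matrices over the algebra. -/
def pairing (φ : A →ₗ[ℂ] Matrix (Fin k) (Fin k) ℂ) : CStarMatrix (Fin k) (Fin k) A →ₗ[ℂ] ℂ where
  toFun M := (k : ℂ)⁻¹ * ∑ i, ∑ j, φ (M i j) i j
  map_add' M N := by simp [Finset.sum_add_distrib, mul_add]
  map_smul' c M := by simp [Finset.mul_sum, mul_left_comm]

theorem pairing_one (hk : 0 < k) {φ : A →ₗ[ℂ] Matrix (Fin k) (Fin k) ℂ} (h : φ 1 = 1) :
    pairing φ 1 = 1 := by
  have hk' : (k : ℂ) ≠ 0 := by exact_mod_cast hk.ne'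
  have e : ∀ i j : Fin k, φ ((1 : CStarMatrix (Fin k) (Fin k) A) i j) i j = if i = j then 1 else 0 := by
    intro i j
    rw [CStarMatrix.one_apply]
    by_cases hij : i = j <;> simp [hij, h]
  simp [pairing, e, hk']

theorem pairing_pos {φ : A →ₗ[ℂ] Matrix (Fin k) (Fin k) ℂ} (h : IsCP φ)
    (M : CStarMatrix (Fin k) (Fin k) A) :
    ∃ r : ℝ, 0 ≤ r ∧ pairing φ (star M * M) = (r : ℂ) := by
  obtain ⟨Y, hY⟩ := h k (CStarMatrix.ofMatrix.symm M)
  have e : ∀ i j, φ ((star M * M) i j) = ∑ p, star (Y p i) * Y p j := fun i j => by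
    have := congrFun (congrFun hY i) j
    simp only [Matrix.map_apply, Matrix.mul_apply, Matrix.star_apply] at this
    rw [CStarMatrix.mul_apply]
    simp only [CStarMatrix.star_apply]
    exact this
  have key : ∑ i, ∑ j, φ ((star M * M) i j) i j
      = ∑ p, ∑ q, starRingEnd ℂ (∑ i, Y p i q i) * ∑ j, Y p j q j := by
    simp only [e, Matrix.sum_apply, Matrix.mul_apply, Matrix.star_apply, map_sum,
      Finset.sum_mul_sum, starRingEnd_apply]
    rw [Finset.sum_congr rfl fun i _ => Finset.sum_comm, Finset.sum_comm]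
    refine Finset.sum_congr rfl fun p _ => ?_
    rw [Finset.sum_congr rfl fun i _ => Finset.sum_comm, Finset.sum_comm]
  refine ⟨(k : ℝ)⁻¹ * ∑ p, ∑ q, Complex.normSq (∑ i, Y p i q i), mul_nonneg (by positivity)
    (Finset.sum_nonneg fun p _ => Finset.sum_nonneg fun q _ => Complex.normSq_nonneg _), ?_⟩
  show (k : ℂ)⁻¹ * ∑ i, ∑ j, φ ((star M * M) i j) i j = _
  rw [key]
  push_cast
  simp only [Complex.normSq_eq_conj_mul_self]

theorem pairing_single (φ : A →ₗ[ℂ] Matrix (Fin k) (Fin k) ℂ) (x : A) (i j : Fin k) :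
    pairing φ (CStarMatrix.ofMatrix (Matrix.single i j x)) = (k : ℂ)⁻¹ * φ x i j := by
  show (k : ℂ)⁻¹ * ∑ a, ∑ b, φ ((Matrix.single i j x : Matrix _ _ A) a b) a b = _
  rw [Finset.sum_eq_single i, Finset.sum_eq_single j]
  · simp
  · intro b _ hb; simp [Ne.symm hb]
  · simp
  · intro b _ hb; simp [Ne.symm hb]
  · simp

/-- The real or the imaginary part. -/
def part {B : Type*} [CStarAlgebra B] (X : B) (b : Bool) : B :=
  bif b then (realPart X : B) else (imaginaryPart X : B)

theorem isSelfAdjoint_part {B : Type*} [CStarAlgebra B] (X : B) (b : Bool) :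
    IsSelfAdjoint (part X b) := by
  cases b
  · exact (imaginaryPart X).2
  · exact (realPart X).2

/-- The pairing of the parts. -/
theorem re_part {B : Type*} [CStarAlgebra B] [PartialOrder B] [StarOrderedRing B] (ω : B →ₗ[ℂ] ℂ)
    (hω : ω 1 = 1) (hpos : ∀ x, ∃ r : ℝ, 0 ≤ r ∧ ω (star x * x) = (r : ℂ)) (X : B) :
    ((ω (part X true)).re : ℂ) + Complex.I * (ω (part X false)).re = ω X := by
  have him : ∀ T : B, IsSelfAdjoint T → (ω T).im = 0 := fun T hT => by
    have h1 : ∀ x : B, (ω (star x * x)).im = 0 := fun x => by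
      obtain ⟨r, -, hr⟩ := hpos x
      simp [hr]
    have h0 : 0 ≤ T + algebraMap ℝ B ‖T‖ :=
      neg_le_iff_add_nonneg.1 (IsSelfAdjoint.neg_algebraMap_norm_le_self (a := T) hT)
    obtain ⟨y, hy⟩ := CStarAlgebra.nonneg_iff_eq_star_mul_self.1 h0
    have h := h1 y
    rw [← hy, map_add, Algebra.algebraMap_eq_smul_one, ← Complex.coe_smul, map_smul, hω] at h
    simpa using h
  conv_rhs => rw [← realPart_add_I_smul_imaginaryPart X, map_add, map_smul, smul_eq_mul]
  apply Complex.ext <;>
    simp [part, him _ (realPart X).2, him _ (imaginaryPart X).2]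

end Excise

open Excise in
theorem excise_ok : ExciseStatement.{u} := by
  intro A _ _ k φ hφ hφ1 S ε hε
  classical
  let _ := CStarAlgebra.spectralOrder A
  have := CStarAlgebra.spectralOrderedRing A
  rcases Nat.eq_zero_or_pos k with rfl | hk
  · refine ⟨1, fun _ => 1, fun _ _ i => i.elim0, fun _ i => i.elim0, fun _ => 1, ?_, ?_, ?_, ?_, ?_⟩
    · exact fun _ => zero_le_one
    · simp
    · exact fun _ => ⟨⟨1, by simp⟩, by simp⟩
    · exact fun x _ i => i.elim0
    · exact fun p x _ i => i.elim0
  have : Nonempty (Fin k) := ⟨⟨0, hk⟩⟩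
  have hk' : (k : ℂ) ≠ 0 := by exact_mod_cast hk.ne'
  set ω := pairing φ with hωdef
  have hω1 : ω 1 = 1 := pairing_one hk hφ1
  have hωp : ∀ M, ∃ r : ℝ, 0 ≤ r ∧ ω (star M * M) = (r : ℂ) := pairing_pos hφ
  have hωre : ∀ M, 0 ≤ (ω (star M * M)).re := fun M => by
    obtain ⟨r, hr, e⟩ := hωp M
    simp [e, hr]
  let E : A → Fin k → Fin k → CStarMatrix (Fin k) (Fin k) A :=
    fun x i j => CStarMatrix.ofMatrix (Matrix.single i j x)
  let T : ({x // x ∈ S} × Fin k × Fin k) × Bool → CStarMatrix (Fin k) (Fin k) A :=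
    fun t => part (E t.1.1 t.1.2.1 t.1.2.2) t.2
  have hkR : (0 : ℝ) < k := by exact_mod_cast hk
  obtain ⟨v, hv, hvd⟩ := Metric.mem_closure_iff.1
    (mem_closure_hull ω hω1 hωre T (fun t => isSelfAdjoint_part _ _) (η := ε / (2 * k))
      (by positivity)) (ε / (2 * k)) (by positivity)
  obtain ⟨ι, hι, w, z, hw0, hw1, hz, hwz⟩ := mem_convexHull_iff_exists_fintype.1 hv
  choose d hd hdz using hz
  choose y hy0 hyd using fun q => (hd q).nz
  have hcol : ∀ q, ∃ l i, y q i l ≠ 0 := fun q => by
    by_contra hn
    refine hy0 q (CStarMatrix.ext fun i j => ?_)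
    simp only [not_exists, not_not] at hn
    exact hn j i
  choose l hl using hcol
  set b₀ : ι → A := fun q => ∑ i, star (y q i (l q)) * y q i (l q) with hb₀
  have hb0pos : ∀ q, 0 ≤ b₀ q := fun q => Finset.sum_nonneg fun i _ => star_mul_self_nonneg _
  set β : ι → ℝ := fun q => ‖b₀ q‖ with hβ
  have hβ0 : ∀ q, 0 < β q := fun q => by
    obtain ⟨i, hi⟩ := hl q
    refine lt_of_lt_of_le (norm_pos_iff.2 ?_) (CStarAlgebra.norm_le_norm_of_nonneg_of_le
      (star_mul_self_nonneg (y q i (l q))) (Finset.single_le_sum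
        (f := fun i => star (y q i (l q)) * y q i (l q))
        (fun j _ => star_mul_self_nonneg _) (Finset.mem_univ i)))
    rwa [ne_eq, CStarRing.star_mul_self_eq_zero_iff]
  let c : ι → A → Fin k → Fin k → ℂ := fun q x i j =>
    if h : x ∈ S then (z q ((⟨x, h⟩, i, j), true) : ℂ) + Complex.I * z q ((⟨x, h⟩, i, j), false)
    else 0
  let e := Fintype.equivFin ι
  refine ⟨Fintype.card ι, fun p => w (e.symm p), fun p x i j => k * c (e.symm p) x i j,
    fun p i => Real.sqrt (k / β (e.symm p)) • y (e.symm p) i (l (e.symm p)),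
    fun p => (β (e.symm p))⁻¹ • b₀ (e.symm p), fun p => hw0 _, ?_, ?_, ?_, ?_⟩
  · rw [← hw1]; exact e.symm.sum_comp w
  · intro p
    refine ⟨?_, ?_⟩
    · exact CStarAlgebra.nonneg_iff_eq_star_mul_self.1
        (smul_nonneg (inv_nonneg.2 (hβ0 _).le) (hb0pos _))
    · rw [norm_smul, norm_inv, Real.norm_eq_abs, abs_of_pos (hβ0 _)]
      exact inv_mul_cancel₀ (hβ0 _).ne'
  · intro x hx i j
    have hre := re_part ω hω1 hωp (E x i j)
    rw [show ω (E x i j) = (k : ℂ)⁻¹ * φ x i j from pairing_single φ x i j] at hre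
    have hφx : φ x i j = (k : ℂ) * (((ω (T ((⟨x, hx⟩, i, j), true))).re : ℂ)
        + Complex.I * (ω (T ((⟨x, hx⟩, i, j), false))).re) := by
      simp only [T, hre, ← mul_assoc, mul_inv_cancel₀ hk', one_mul]
    have hsum : ∑ p, ((w (e.symm p) : ℂ) * ((k : ℂ) * c (e.symm p) x i j))
        = (k : ℂ) * ((v ((⟨x, hx⟩, i, j), true) : ℂ)
          + Complex.I * v ((⟨x, hx⟩, i, j), false)) := by
      rw [e.symm.sum_comp (fun q => (w q : ℂ) * ((k : ℂ) * c q x i j)), ← hwz]
      simp only [c, dif_pos hx, Finset.sum_apply, Pi.smul_apply, smul_eq_mul, Complex.ofReal_sum,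
        Complex.ofReal_mul, mul_add, Finset.sum_add_distrib, Finset.mul_sum]
      congr 1 <;> exact Finset.sum_congr rfl fun q _ => by ring
    rw [hsum, hφx, ← mul_sub, norm_mul, Complex.norm_natCast]
    have hb : ∀ t, |v t - (ω (T t)).re| ≤ ε / (2 * k) := fun t => by
      rw [← Real.dist_eq, dist_comm]
      exact (dist_le_pi_dist _ _ t).trans hvd.le
    calc (k : ℝ) * ‖((v ((⟨x, hx⟩, i, j), true) : ℂ) + Complex.I * v ((⟨x, hx⟩, i, j), false))
          - (((ω (T ((⟨x, hx⟩, i, j), true))).re : ℂ)
            + Complex.I * (ω (T ((⟨x, hx⟩, i, j), false))).re)‖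
        ≤ k * (ε / (2 * k) + ε / (2 * k)) := by
          refine mul_le_mul_of_nonneg_left ((Complex.norm_le_abs_re_add_abs_im _).trans ?_) hkR.le
          simp only [Complex.sub_re, Complex.add_re, Complex.ofReal_re, Complex.mul_re, Complex.I_re,
            zero_mul, Complex.I_im, Complex.ofReal_im, mul_zero, sub_zero, add_zero, Complex.sub_im,
            Complex.add_im, Complex.mul_im, one_mul, zero_add]
          exact add_le_add (hb _) (hb _)
      _ = ε := by field_simp; ring
  · intro p x hx i j u
    beta_reduce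
    generalize e.symm p = q
    set Y := y q with hY
    set η : ℝ := ε / (2 * k) with hη
    -- the two parts combine
    have hpart : ‖d q * E x i j * d q - c q x i j • (d q * d q)‖ ≤ 2 * η := by
      have e1 : d q * E x i j * d q - c q x i j • (d q * d q)
          = (d q * T ((⟨x, hx⟩, i, j), true) * d q - z q ((⟨x, hx⟩, i, j), true) • (d q * d q))
          + Complex.I • (d q * T ((⟨x, hx⟩, i, j), false) * d q
              - z q ((⟨x, hx⟩, i, j), false) • (d q * d q)) := by
        conv_lhs => rw [← realPart_add_I_smul_imaginaryPart (E x i j)]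
        simp only [c, dif_pos hx, T, part, cond_true, cond_false, mul_add, add_mul, add_smul,
          mul_smul_comm, smul_mul_assoc, smul_sub, mul_smul, Complex.coe_smul]
        abel
      rw [e1]
      refine (norm_add_le _ _).trans ?_
      rw [norm_smul, Complex.norm_I, one_mul, two_mul]
      exact add_le_add (hdz q _) (hdz q _)
    -- conjugate by the column
    set Z := d q * E x i j * d q - c q x i j • (d q * d q) with hZ
    set W := Y * corner (l q) u with hW
    have hdY : star Y * d q = star Y := by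
      have := congrArg star (hyd q)
      rwa [star_mul, (hd q).sa.star_eq, ← hY] at this
    have hWM : ∀ M : CStarMatrix (Fin k) (Fin k) A,
        star W * M * W = corner (l q) (star u * (star Y * M * Y) (l q) (l q) * u) := fun M => by
      rw [← corner_mul_mul, hW, star_mul, map_star]
      simp only [mul_assoc]
    have hentry : ∀ M : CStarMatrix (Fin k) (Fin k) A,
        (star W * M * W) (l q) (l q) = star u * (star Y * M * Y) (l q) (l q) * u := fun M => by
      rw [hWM]
      simp [corner]
    have hcorner : star W * W = corner (l q) (star u * b₀ q * u) := by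
      have := hWM 1
      simp only [mul_one] at this
      rw [this]
      simp [CStarMatrix.mul_apply, CStarMatrix.star_apply, hb₀, hY]
    have hmain : ‖star u * (star Y * Z * Y) (l q) (l q) * u‖ ≤ 2 * η * ‖star u * b₀ q * u‖ := by
      rw [← hentry]
      refine CStarMatrix.norm_entry_le_norm.trans ?_
      calc ‖star W * Z * W‖ ≤ ‖W‖ * ‖Z‖ * ‖W‖ := by
            refine (norm_mul_le _ _).trans ?_
            rw [← norm_star W]
            gcongr
            exact norm_mul_le _ _
        _ = ‖Z‖ * ‖star W * W‖ := by rw [CStarRing.norm_star_mul_self]; ring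
        _ ≤ 2 * η * ‖star u * b₀ q * u‖ := by
            refine mul_le_mul hpart ?_ (norm_nonneg _) (by positivity)
            rw [hcorner]
            exact NonUnitalStarAlgHom.norm_apply_le _ _
    have hZY : (star Y * Z * Y) (l q) (l q)
        = star (Y i (l q)) * x * Y j (l q) - c q x i j • b₀ q := by
      have e3 : star Y * Z * Y = star Y * E x i j * Y - c q x i j • (star Y * Y) := by
        rw [hZ, mul_sub, sub_mul, mul_smul_comm, smul_mul_assoc,
          show star Y * (d q * E x i j * d q) * Y = star Y * d q * E x i j * (d q * Y) by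
            simp only [mul_assoc],
          show star Y * (d q * d q) * Y = star Y * d q * (d q * Y) by simp only [mul_assoc],
          hdY, hY, hyd q]
      rw [e3]
      have e5 : (star Y * E x i j * Y) (l q) (l q) = star (Y i (l q)) * x * Y j (l q) := by
        rw [CStarMatrix.mul_apply, Finset.sum_eq_single j, CStarMatrix.mul_apply,
          Finset.sum_eq_single i]
        · simp [E, CStarMatrix.star_apply]
        · intro b _ hb; simp [E, Ne.symm hb]
        · simp
        · intro b _ hb
          rw [CStarMatrix.mul_apply, Finset.sum_eq_zero, zero_mul]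
          intro a _
          simp [E, Ne.symm hb]
        · simp
      have e6 : (star Y * Y) (l q) (l q) = b₀ q := by
        simp [CStarMatrix.mul_apply, CStarMatrix.star_apply, hb₀, hY]
      show (star Y * E x i j * Y) (l q) (l q) - c q x i j • (star Y * Y) (l q) (l q) = _
      rw [e5, e6]
    -- rescale
    have hβq := hβ0 q
    have hscale : star u * (star (Real.sqrt (k / β q) • Y i (l q)) * x
          * (Real.sqrt (k / β q) • Y j (l q))
          - ((k : ℂ) * c q x i j) • (β q)⁻¹ • b₀ q) * u
        = (k / β q) • (star u * (star Y * Z * Y) (l q) (l q) * u) := by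
      have e4 : ((k : ℂ) * c q x i j) • (β q)⁻¹ • b₀ q = (k / β q) • (c q x i j • b₀ q) := by
        rw [← Complex.coe_smul, ← Complex.coe_smul, smul_smul, smul_smul]
        congr 1
        push_cast
        ring
      have e5 : star (Real.sqrt (k / β q) • Y i (l q)) * x * (Real.sqrt (k / β q) • Y j (l q))
          = (k / β q) • (star (Y i (l q)) * x * Y j (l q)) := by
        rw [star_smul, star_trivial, smul_mul_assoc, smul_mul_assoc, mul_smul_comm, smul_smul,
          Real.mul_self_sqrt (by positivity)]
      rw [e4, e5, ← smul_sub, ← hZY, mul_smul_comm, smul_mul_assoc]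
    rw [hscale, norm_smul, Real.norm_eq_abs, abs_of_pos (by positivity)]
    calc k / β q * ‖star u * (star Y * Z * Y) (l q) (l q) * u‖
        ≤ k / β q * (2 * η * ‖star u * b₀ q * u‖) := by gcongr
      _ = ε * ‖star u * ((β q)⁻¹ • b₀ q) * u‖ := by
        rw [mul_smul_comm, smul_mul_assoc, norm_smul, Real.norm_eq_abs,
          abs_of_pos (inv_pos.2 hβq), hη]
        field_simp

end Vale.Agent.P095.Amenable
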