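import Vale.Agent.P095.Amenable.Finish.Kill
import Vale.Agent.P095.Amenable.Finish.Copies
import Vale.Agent.P095.Finite.FiniteMain

/-!
Characters of the fixed point algebra vanish on the trace kernel, so there are none; then the
relations of the dimension drop algebra.
-/

noncomputable section

open Filter Topology
open scoped BoundedContinuousFunction

namespace Vale.Agent.P095.Amenable

open Vale.Agent.P101 (CQ centralAlg Full Copies)
open Vale.Agent.P095.Finite (fixedAlg actCQ)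

universe u v

variable {G : Type v} [Group G] [Countable G] {A : Type u} [CStarAlgebra A]
  [TopologicalSpace.SeparableSpace A] {ω : Ultrafilter ℕ} {α : G → A ≃⋆ₐ[ℂ] A}
  (hα : ∀ g h x, α (g * h) x = α g (α h x))

include hα in
/-- Characters kill invariant elements whose squares are tracially null. -/
lemma char_eq_zero (hG : Folner G) (hω : (ω : Filter ℕ) ≤ cofinite)
    (hSI : ∀ e : ℕ →ᵇ A, (∀ n, Nonneg (e n) ∧ ‖e n‖ ≤ 1) → P101.IsCentral ω e → TraceNull ω e →
      ∃ s : Fin 2 → ℕ →ᵇ A, (∀ i, P101.IsCentral ω (s i)) ∧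
        (∀ i, P101.IsNull ω (star (s i) * s i - e)) ∧ P101.IsNull ω (star (s 0) * s 1) ∧
        ∀ g, ¬ ActsTrivially ω (α g) → ∀ i j,
          Tendsto (fun n => ‖star (s i n) * α g (s j n)‖) (ω : Filter ℕ) (𝓝 0))
    (χ : fixedAlg (actCQ ω α hα) →⋆ₐ[ℂ] ℂ) (d : ↥(centralAlg ω A))
    (hd : P101.proj ω d ∈ fixedAlg (actCQ ω α hα))
    (hnull : TraceNull ω (star (d : ℕ →ᵇ A) * (d : ℕ →ᵇ A))) :
    χ ⟨P101.proj ω d, hd⟩ = 0 := by
  set c : ℝ := (‖(d : ℕ →ᵇ A)‖ + 1)⁻¹ with hc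
  have hc0 : 0 < c := by positivity
  set d' : ↥(centralAlg ω A) := (c : ℂ) • d with hd'
  have hd'f : P101.proj ω d' ∈ fixedAlg (actCQ ω α hα) := by
    rw [hd', map_smul]
    exact SMulMemClass.smul_mem _ hd
  have hd'n : ∀ n, ‖(d' : ℕ →ᵇ A) n‖ ≤ 1 := fun n => by
    show ‖(c : ℂ) • (d : ℕ →ᵇ A) n‖ ≤ 1
    rw [norm_smul, Complex.norm_real, Real.norm_eq_abs, abs_of_pos hc0, hc,
      inv_mul_le_one₀ (by positivity)]
    linarith [(d : ℕ →ᵇ A).norm_coe_le_norm n]
  set e : ↥(centralAlg ω A) := star d' * d' with he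
  have hen : ∀ n, ‖(e : ℕ →ᵇ A) n‖ ≤ 1 := fun n => by
    show ‖star ((d' : ℕ →ᵇ A) n) * (d' : ℕ →ᵇ A) n‖ ≤ 1
    rw [CStarRing.norm_star_mul_self]
    exact mul_le_one₀ (hd'n n) (norm_nonneg _) (hd'n n)
  have henull : TraceNull ω (e : ℕ →ᵇ A) := by
    intro δ hδ
    filter_upwards [hnull (δ / (c * c)) (by positivity)] with n hn τ hτ
    have h := hn τ hτ
    have e1 : (e : ℕ →ᵇ A) n = ((c * c : ℝ) : ℂ) • (star (d : ℕ →ᵇ A) * (d : ℕ →ᵇ A)) n := by
      show star ((c : ℂ) • (d : ℕ →ᵇ A) n) * ((c : ℂ) • (d : ℕ →ᵇ A) n) = _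
      rw [star_smul, smul_mul_smul_comm, ← starRingEnd_apply, Complex.conj_ofReal,
        ← Complex.ofReal_mul]
      rfl
    rw [e1, map_smul, smul_eq_mul, Complex.re_ofReal_mul]
    rw [le_div_iff₀ (mul_pos hc0 hc0)] at h
    linarith
  obtain ⟨s, hs, hse, hs01, hsorth⟩ := hSI (e : ℕ →ᵇ A)
    (fun n => ⟨⟨(d' : ℕ →ᵇ A) n, rfl⟩, hen n⟩) e.2 henull
  have henorm : ‖P101.proj ω e‖ ≤ 1 := by
    rw [P101.norm_proj]
    exact (P101.nrm_le _).trans ((BoundedContinuousFunction.norm_le zero_le_one).2 hen)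
  have hef : P101.proj ω e ∈ fixedAlg (actCQ ω α hα) := by
    rw [he, map_mul, map_star]
    exact mul_mem (star_mem hd'f) hd'f
  obtain ⟨S, hSf, hS, hS01⟩ := exists_exact hα hω e henorm fun E ε hε =>
    exists_almost hα hG hef henorm hs (fun i => by
      show star (P101.proj ω _) * P101.proj ω _ = P101.proj ω e
      rw [← map_star, ← map_mul, P101.proj_eq_iff]
      exact hse i) hs01 hsorth E hε
  set D : fixedAlg (actCQ ω α hα) := ⟨P101.proj ω d', hd'f⟩ with hD
  set T : Fin 2 → fixedAlg (actCQ ω α hα) := fun i => ⟨S i, hSf i⟩ with hT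
  have hTD : ∀ i, star (T i) * T i = star D * D := fun i => Subtype.ext (by
    show star (S i) * S i = star (P101.proj ω d') * P101.proj ω d'
    rw [hS, he, map_mul, map_star])
  have hT01 : star (T 0) * T 1 = 0 := Subtype.ext hS01
  have h0 := congrArg χ hT01
  have hi := fun i => congrArg χ (hTD i)
  simp only [map_mul, map_star, map_zero, ← starRingEnd_apply,
    ← Complex.normSq_eq_conj_mul_self, Complex.ofReal_inj] at hi
  rw [map_mul, map_star, map_zero, mul_eq_zero, star_eq_zero] at h0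
  have hD0 : χ D = 0 := by
    rcases h0 with h | h
    · exact Complex.normSq_eq_zero.1 (by rw [← hi 0, h, map_zero])
    · exact Complex.normSq_eq_zero.1 (by rw [← hi 1, h, map_zero])
  have hDd : D = (c : ℂ) • (⟨P101.proj ω d, hd⟩ : fixedAlg (actCQ ω α hα)) :=
    Subtype.ext (map_smul (P101.proj ω) (c : ℂ) d)
  rw [hDd, map_smul, smul_eq_zero] at hD0
  exact hD0.resolve_left (Complex.ofReal_ne_zero.2 hc0.ne')

/-- Module Finish. -/
theorem finish_ok : FinishStatement.{u, v} := by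
  intro G _ _ hG A _ _ α hα ω hω he hSI hpair
  obtain ⟨x, z, -, hxc, hzc, hxi, hzi, hxx, hzz, hxz⟩ := hpair
  set β := actCQ ω α hα with hβ
  have : IsClosed (fixedAlg β : Set (CQ ω A)) := Finite.isClosed_fixed β
  set X : ↥(centralAlg ω A) := ⟨x, hxc⟩
  set Z : ↥(centralAlg ω A) := ⟨z, hzc⟩
  have hfix : ∀ w : ↥(centralAlg ω A), InvSeq ω α (w : ℕ →ᵇ A) → P101.proj ω w ∈ fixedAlg β :=
    fun w hw g => by
      rw [hβ, Finite.actCQ_apply, Finite.actHom_proj, P101.proj_eq_iff]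
      exact hw g
  have hXf := hfix X hxi
  have hZf := hfix Z hzi
  have hchar : IsEmpty (fixedAlg β →⋆ₐ[ℂ] ℂ) := by
    refine ⟨fun χ => ?_⟩
    set FX : fixedAlg β := ⟨P101.proj ω X, hXf⟩
    set FZ : fixedAlg β := ⟨P101.proj ω Z, hZf⟩
    have hmem : ∀ (d : ↥(centralAlg ω A)) (F : fixedAlg β), (F : CQ ω A) = P101.proj ω d →
        TraceNull ω (star (d : ℕ →ᵇ A) * (d : ℕ →ᵇ A)) → χ F = 0 := fun d F hF hn => by
      have hd : P101.proj ω d ∈ fixedAlg β := hF ▸ F.2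
      rw [show F = ⟨P101.proj ω d, hd⟩ from Subtype.ext hF]
      exact char_eq_zero hα hG hω hSI χ d hd hn
    have h1 := hmem (X * X - 1) (FX * FX - 1) (by simp [FX]) hxx
    have h2 := hmem (Z * Z - 1) (FZ * FZ - 1) (by simp [FZ]) hzz
    have h3 := hmem (X * Z + Z * X) (FX * FZ + FZ * FX) (by simp [FX, FZ]) hxz
    simp only [map_sub, map_add, map_mul, map_one, sub_eq_zero] at h1 h2 h3
    have h4 : χ FX * χ FZ = 0 := by linear_combination h3 / 2
    rcases mul_eq_zero.1 h4 with h | h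
    · rw [h, mul_zero] at h1; exact zero_ne_one h1
    · rw [h, mul_zero] at h2; exact zero_ne_one h2
  have hfull' : Full {y : fixedAlg β | ∃ a b, a * b - b * a = y} := by
    by_contra h
    exact hchar.false (P101.exists_char_of_not_full h).some
  obtain ⟨n', p', x', q', hx', hsum'⟩ := P101.full_exists_sum hfull'
  choose a' b' hab' using hx'
  have hsum'' : ∑ i, (p' i : CQ ω A) * ((a' i : CQ ω A) * b' i - b' i * a' i) * q' i = 1 := by
    have e := congrArg (fixedAlg β).subtype hsum'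
    simpa [← hab'] using e
  obtain ⟨B', _, γ', c', -, hB', hfix'⟩ := exists_copies_countable α hα hω _ _ _ _ hsum''
  have hmem : ∀ k y, c'.hom k y ∈ fixedAlg β := fun k y g =>
    hfix' (fun i g => ⟨(p' i).2 g, (a' i).2 g, (b' i).2 g, (q' i).2 g⟩) k y g
  let cF : Copies B' (fixedAlg β) ℕ :=
    ⟨fun k => StarAlgHom.codRestrict (c'.hom k) (fixedAlg β) (hmem k),
      fun j k hjk y z => Subtype.ext (c'.comm j k hjk y z)⟩
  obtain ⟨c0, e0, f0, v0, r0, s0, h1, h2, h3, h4, h5, h6, h7⟩ := Finite.comparison_copies cF hB'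
  obtain ⟨c1, hc1⟩ := P101.proj_surjective ω (c0 : CQ ω A)
  obtain ⟨e1, he1⟩ := P101.proj_surjective ω (e0 : CQ ω A)
  obtain ⟨f1, hf1⟩ := P101.proj_surjective ω (f0 : CQ ω A)
  obtain ⟨v1, hv1⟩ := P101.proj_surjective ω (v0 : CQ ω A)
  obtain ⟨r1, hr1⟩ := P101.proj_surjective ω (r0 : CQ ω A)
  obtain ⟨s1, hs1⟩ := P101.proj_surjective ω (s0 : CQ ω A)
  replace h1 := congrArg (fixedAlg β).subtype h1
  replace h2 := congrArg (fixedAlg β).subtype h2
  replace h3 := congrArg (fixedAlg β).subtype h3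
  replace h4 := congrArg (fixedAlg β).subtype h4
  replace h5 := congrArg (fixedAlg β).subtype h5
  replace h6 := congrArg (fixedAlg β).subtype h6
  replace h7 := congrArg (fixedAlg β).subtype h7
  simp only [map_mul, map_star, map_sub, map_one, map_zero, StarSubalgebra.subtype_apply,
    ← hc1, ← he1, ← hf1, ← hv1, ← hr1, ← hs1] at h1 h2 h3 h4 h5 h6 h7
  simp only [← map_star, ← map_mul, ← map_sub, ← map_one (P101.proj ω (A := A)),
    ← map_zero (P101.proj ω (A := A)), P101.proj_eq_iff] at h1 h2 h3 h4 h5 h6 h7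
  refine ⟨c1, e1, f1, v1, r1, s1, c1.2, e1.2, f1.2, v1.2, r1.2, s1.2, h1, h2, by simpa using h3,
    h4, h5, h6, h7, ?_⟩
  have hinv : ∀ (w : fixedAlg β) (w1 : ↥(centralAlg ω A)), P101.proj ω w1 = (w : CQ ω A) → ∀ g,
      Tendsto (fun m => ‖α g ((w1 : ℕ →ᵇ A) m) - (w1 : ℕ →ᵇ A) m‖) (ω : Filter ℕ) (𝓝 0) := by
    intro w w1 hw g
    have e : P101.proj ω (Finite.centralAct ω (α g) w1) = P101.proj ω w1 := by
      rw [← Finite.actHom_proj, hw]
      exact w.2 g
    exact ((P101.proj_eq_iff ω _ _).1 e).congr fun m => by simp [Finite.coe_centralAct]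
  intro y hy g _
  simp only [List.mem_cons, List.not_mem_nil, or_false] at hy
  rcases hy with rfl | rfl | rfl | rfl | rfl | rfl
  exacts [hinv _ _ hc1 g, hinv _ _ he1 g, hinv _ _ hf1 g, hinv _ _ hv1 g, hinv _ _ hr1 g,
    hinv _ _ hs1 g]

end Vale.Agent.P095.Amenable
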