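import Mathlib
import Vale.Agent.P095.Defs
import Vale.Agent.P095.Finite.Action

/-!
Folner averages in a C*-algebra with an action.
-/

noncomputable section

open Filter Topology

namespace Vale.Agent.P095.Amenable

universe u v

variable {G : Type v} [Group G]

/-- A translate of a set differs from the set by few elements on both sides. -/
lemma card_sdiff_image [DecidableEq G] (P : Finset G) (h : G) {ε : ℝ}
    (hP : (Set.ncard (((h * ·) '' (P : Set G)) \ (P : Set G)) : ℝ) ≤ ε * P.card) :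
    ((P.image (h * ·) \ P).card : ℝ) ≤ ε * P.card ∧
      ((P \ P.image (h * ·)).card : ℝ) ≤ ε * P.card := by
  have h1 : Set.ncard (((h * ·) '' (P : Set G)) \ (P : Set G)) = (P.image (h * ·) \ P).card := by
    rw [← Set.ncard_coe_finset, Finset.coe_sdiff, Finset.coe_image]
  have h2 : (P \ P.image (h * ·)).card = (P.image (h * ·) \ P).card :=
    Finset.card_sdiff_comm (Finset.card_image_of_injective P (mul_right_injective h)).symm
  rw [h2, ← h1]
  exact ⟨hP, hP⟩

variable {D : Type u} [CStarAlgebra D] (β : G → D ≃⋆ₐ[ℂ] D)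

/-- The average over a finite set of translates. -/
def avgF (P : Finset G) (x : D) : D := (P.card : ℝ)⁻¹ • ∑ g ∈ P, β g x

lemma avgF_isSelfAdjoint (P : Finset G) {x : D} (hx : IsSelfAdjoint x) :
    IsSelfAdjoint (avgF β P x) :=
  (IsSelfAdjoint.all _).smul (isSelfAdjoint_sum P fun g _ => hx.map (β g))

lemma norm_avgF_le (P : Finset G) {x : D} (hx : ‖x‖ ≤ 1) : ‖avgF β P x‖ ≤ 1 := by
  rw [avgF, norm_smul, norm_inv, Real.norm_natCast]
  rcases Nat.eq_zero_or_pos P.card with h | h
  · simp [Finset.card_eq_zero.1 h]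
  · rw [inv_mul_le_one₀ (Nat.cast_pos.2 h)]
    refine (norm_sum_le _ _).trans ((Finset.sum_le_card_nsmul P _ 1 fun g _ => ?_).trans_eq (by simp))
    rw [Finite.norm_equiv]
    exact hx

lemma avgF_sub_self (P : Finset G) (hP : P.Nonempty) (x : D) :
    avgF β P x - x = (P.card : ℝ)⁻¹ • ∑ g ∈ P, (β g x - x) := by
  have h : (P.card : ℝ) ≠ 0 := Nat.cast_ne_zero.2 (Finset.card_ne_zero.2 hP)
  rw [avgF, Finset.sum_sub_distrib, smul_sub, Finset.sum_const, ← Nat.cast_smul_eq_nsmul ℝ,
    smul_smul, inv_mul_cancel₀ h, one_smul]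

/-- Averages over almost invariant sets are almost invariant in norm. -/
lemma norm_avgF_inv (hβ : ∀ g h x, β (g * h) x = β g (β h x)) (P : Finset G) (hP : P.Nonempty)
    {x : D} (hx : ‖x‖ ≤ 1) (h : G) {ε : ℝ}
    (hh : (Set.ncard (((h * ·) '' (P : Set G)) \ (P : Set G)) : ℝ) ≤ ε * P.card) :
    ‖β h (avgF β P x) - avgF β P x‖ ≤ 2 * ε := by
  classical
  obtain ⟨h1, h2⟩ := card_sdiff_image P h hh
  have hc : (0 : ℝ) < P.card := Nat.cast_pos.2 (Finset.card_pos.2 hP)
  have e : β h (avgF β P x) - avgF β P x = (P.card : ℝ)⁻¹ •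
      ((∑ g ∈ P.image (h * ·) \ P, β g x) - ∑ g ∈ P \ P.image (h * ·), β g x) := by
    rw [Finset.sum_sdiff_sub_sum_sdiff, Finset.sum_image (fun a _ b _ e => mul_left_cancel e),
      smul_sub, avgF, ← Complex.coe_smul, ← Complex.coe_smul, map_smul, map_sum]
    simp only [hβ, Complex.coe_smul]
  have hn : ∀ s : Finset G, ‖∑ g ∈ s, β g x‖ ≤ (s.card : ℝ) := fun s =>
    (norm_sum_le _ _).trans ((Finset.sum_le_card_nsmul s _ 1 fun g _ => by
      rw [Finite.norm_equiv]; exact hx).trans_eq (by simp))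
  rw [e, norm_smul, norm_inv, Real.norm_natCast, inv_mul_le_iff₀ hc]
  refine (norm_sub_le _ _).trans ?_
  linarith [hn (P.image (h * ·) \ P), hn (P \ P.image (h * ·))]

end Vale.Agent.P095.Amenable
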