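import Vale.Agent.P095.Amenable.Free.Moments
import Vale.Agent.P095.Amenable.Free.Spectral
import Vale.Agent.P095.Amenable.Free.Transfer

/-! Matrix models of free unitaries for a nuclear algebra (module Free). -/

noncomputable section

open scoped Classical ComplexOrder Kronecker

namespace Vale.Agent.P095.Amenable

open FreeModel

universe u

variable {A : Type u} [CStarAlgebra A] [PartialOrder A] [StarOrderedRing A]

namespace FreeModel

variable {L : ℕ}

omit [PartialOrder A] [StarOrderedRing A] in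
lemma scal_mul (M N : Matrix (Fin L) (Fin L) ℂ) :
    scal (A := A) (M * N) = scal M * scal N := by
  change (M * N).map (algebraMap ℂ A) = M.map (algebraMap ℂ A) * N.map (algebraMap ℂ A)
  exact Matrix.map_mul

omit [PartialOrder A] [StarOrderedRing A] in
lemma scal_star (M : Matrix (Fin L) (Fin L) ℂ) : star (scal (A := A) M) = scal (star M) := by
  ext a b
  simp [scal, CStarMatrix.star_apply]
  exact (algebraMap_star_comm _).symm

omit [PartialOrder A] [StarOrderedRing A] in
lemma scal_one : scal (A := A) (1 : Matrix (Fin L) (Fin L) ℂ) = 1 := by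
  change (1 : Matrix (Fin L) (Fin L) ℂ).map (algebraMap ℂ A) = 1
  exact Matrix.map_one _ (map_zero _) (map_one _)

lemma norm_scal_le_one {M : Matrix (Fin L) (Fin L) ℂ}
    (h : star M * M * (star M * M) = star M * M) : ‖scal (A := A) M‖ ≤ 1 := by
  refine norm_le_one_of_gram_proj ?_
  rw [scal_star, ← scal_mul, ← scal_mul, h]

omit [PartialOrder A] [StarOrderedRing A] in
lemma map_sandwich {k : ℕ} (ψ : Matrix (Fin k) (Fin k) ℂ →ₗ[ℂ] A)
    (P : Matrix (Fin L) (Fin L) ℂ) (M : Matrix (Fin L) (Fin L) (Matrix (Fin k) (Fin k) ℂ)) :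
    (P.map (algebraMap ℂ (Matrix (Fin k) (Fin k) ℂ)) * M *
        P.map (algebraMap ℂ (Matrix (Fin k) (Fin k) ℂ))).map ψ
      = P.map (algebraMap ℂ A) * M.map ψ * P.map (algebraMap ℂ A) := by
  ext a d
  simp only [Matrix.map_apply, Matrix.mul_apply, Finset.sum_mul, map_sum]
  refine Finset.sum_congr rfl fun c _ => Finset.sum_congr rfl fun b _ => ?_
  simp only [Algebra.algebraMap_eq_smul_one, smul_mul_assoc, one_mul, mul_smul_comm, mul_one,
    map_smul]

lemma comp_scalar {k : ℕ} (P : Matrix (Fin L) (Fin L) ℂ) :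
    Matrix.compRingEquiv (Fin L) (Fin k) ℂ (P.map (algebraMap ℂ (Matrix (Fin k) (Fin k) ℂ)))
      = P ⊗ₖ (1 : Matrix (Fin k) (Fin k) ℂ) := by
  ext ⟨a, i⟩ ⟨b, j⟩
  change algebraMap ℂ (Matrix (Fin k) (Fin k) ℂ) (P a b) i j
    = P a b * (1 : Matrix (Fin k) (Fin k) ℂ) i j
  rw [Matrix.algebraMap_matrix_apply, Matrix.one_apply]
  split_ifs <;> simp

omit [PartialOrder A] [StarOrderedRing A] in
lemma tens_eq (a : A) (M N : Matrix (Fin L) (Fin L) ℂ) :
    tens a (M * N) = scal M * diagM (fun _ => a) * scal N := by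
  ext i j
  rw [CStarMatrix.mul_apply]
  simp only [tens, CStarMatrix.ofMatrix_apply, Matrix.map_apply, Matrix.mul_apply,
    Finset.sum_smul]
  refine Finset.sum_congr rfl fun c _ => ?_
  have e : (scal M * diagM fun _ : Fin L => a : CStarMatrix (Fin L) (Fin L) A) i c
      = M i c • a := by
    change (M.map (algebraMap ℂ A) * Matrix.diagonal fun _ : Fin L => a) i c = _
    rw [Matrix.mul_diagonal, Matrix.map_apply, Algebra.smul_def]
  rw [e]
  change _ = M i c • a * algebraMap ℂ A (N c j)
  rw [← Algebra.commutes, ← Algebra.smul_def, smul_smul, mul_comm]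

end FreeModel

/-- Module Free. -/
theorem free_ok : FreeStatement.{u} := by
  intro A _ _ _ hA n x δ hδ hδ1 he hr ε hε
  set ε' := ε / ((n : ℝ) * n + 1) with hε'
  have hε'0 : 0 < ε' := by positivity
  obtain ⟨k, φ, ψ, hφ, hψ, hφ1, hψ1, happ⟩ :=
    hA (Finset.univ.image fun jk : Fin n × Fin n => star (x jk.1) * x jk.2) ε' hε'0
  obtain ⟨p, hp0, hp⟩ : ∃ p : ℕ, 0 < p ∧ (k : ℝ) * k * (1 / 6) ^ (2 * p) ≤ ε := by
    obtain ⟨m, hm⟩ := exists_pow_lt_of_lt_one (x := ε / ((k : ℝ) * k + 1)) (y := (1 / 6 : ℝ))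
      (by positivity) (by norm_num)
    refine ⟨m + 1, m.succ_pos, ?_⟩
    have h1 : (1 / 6 : ℝ) ^ (2 * (m + 1)) ≤ (1 / 6) ^ m :=
      pow_le_pow_of_le_one (by norm_num) (by norm_num) (by omega)
    calc (k : ℝ) * k * (1 / 6) ^ (2 * (m + 1))
        ≤ ((k : ℝ) * k + 1) * (ε / ((k : ℝ) * k + 1)) :=
          mul_le_mul (le_add_of_nonneg_right zero_le_one) (h1.trans hm.le) (by positivity)
            (by positivity)
      _ = ε := by field_simp
  set R := 4 * p with hR
  set L := Fintype.card (Equiv.Perm (Ball n (R + 1))) with hL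
  set E : Fin L ≃ Equiv.Perm (Ball n (R + 1)) := (Fintype.equivFin _).symm with hE
  set π := model n (R + 1) with hπ
  set u : Fin n → Matrix (Fin L) (Fin L) ℂ :=
    fun j => Matrix.of fun a b => if E a = π (FreeGroup.of j) * E b then 1 else 0 with hu
  have huu : ∀ i j, star (u i) * u j = Matrix.of fun a b =>
      if E a = π ((FreeGroup.of i)⁻¹ * FreeGroup.of j) * E b then (1 : ℂ) else 0 := by
    intro i j
    ext a b
    rw [Matrix.mul_apply, Matrix.of_apply,
      Fintype.sum_eq_single (E.symm (π (FreeGroup.of j) * E b))]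
    · simp only [Matrix.star_eq_conjTranspose, Matrix.conjTranspose_apply, hu, Matrix.of_apply,
        E.apply_symm_apply, if_true, mul_one]
      rw [apply_ite star, star_one, star_zero]
      refine if_congr ?_ rfl rfl
      rw [map_mul, map_inv, mul_assoc, eq_comm, ← eq_inv_mul_iff_mul_eq]
    · intro c hc
      have : ¬ E c = π (FreeGroup.of j) * E b := fun h => hc (E.eq_symm_apply.2 h)
      simp [hu, this]
  have hnorm1 : ∀ j : Fin n, (FreeGroup.of j).norm ≤ R + 1 := fun j => by
    rw [FreeGroup.norm_of]; omega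
  have hu1 : ∀ i, star (u i) * u i = 1 := by
    intro i
    rw [huu]
    ext a b
    simp [Matrix.one_apply]
  set S := ∑ j, tens (x j) (u j) with hS
  set e := ∑ j, star (x j) * x j with hed
  set cA : Fin n → Fin n → A := fun j l => if j = l then 0 else star (x j) * x l with hcA
  set X : CStarMatrix (Fin L) (Fin L) A := CStarMatrix.ofMatrix (grpMat E cA) with hX
  have hSS : star S * S = X + tens e 1 := by
    have h : star S * S = ∑ j, ∑ l, tens (star (x j) * x l) (star (u j) * u l) := by
      have hts : ∀ j, tens (x j) (u j) = diagM (fun _ => x j) * scal (u j) := fun j => by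
        have := tens_eq (x j) 1 (u j)
        rwa [one_mul, scal_one, one_mul] at this
      rw [hS, star_sum, Finset.sum_mul_sum]
      refine Finset.sum_congr rfl fun j _ => Finset.sum_congr rfl fun l _ => ?_
      rw [tens_eq, hts, hts, star_mul, scal_star, mul_assoc, mul_assoc (scal (star (u j)))]
      congr 1
      rw [← mul_assoc]
      congr 1
      change star (Matrix.diagonal fun _ : Fin L => x j) * Matrix.diagonal (fun _ : Fin L => x l)
        = Matrix.diagonal fun _ : Fin L => star (x j) * x l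
      rw [Matrix.star_eq_conjTranspose, Matrix.diagonal_conjTranspose,
        Matrix.diagonal_mul_diagonal]
      rfl
    ext a b
    rw [h, CStarMatrix.add_apply]
    have hsum : ∀ (f : Fin n → CStarMatrix (Fin L) (Fin L) A), (∑ j, f j) a b = ∑ j, f j a b :=
      fun f => Matrix.sum_apply a b _ (fun j => CStarMatrix.ofMatrix.symm (f j))
    simp only [hsum]
    change _ = grpMat E cA a b + (1 : Matrix (Fin L) (Fin L) ℂ) a b • e
    have hd : (1 : Matrix (Fin L) (Fin L) ℂ) a b • e = ∑ j, ∑ l,
        if j = l then (star (u j) * u l) a b • (star (x j) * x l) else 0 := by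
      rw [hed, Finset.smul_sum]
      refine Finset.sum_congr rfl fun j _ => ?_
      rw [Fintype.sum_eq_single j fun l hl => if_neg (Ne.symm hl), if_pos rfl, hu1]
    rw [hd, grpMat, ← Finset.sum_add_distrib]
    refine Finset.sum_congr rfl fun j _ => ?_
    rw [← Finset.sum_add_distrib]
    refine Finset.sum_congr rfl fun l _ => ?_
    change (star (u j) * u l) a b • (star (x j) * x l) = _
    by_cases hjl : j = l
    · simp [hcA, hjl]
    · rw [huu, Matrix.of_apply, ite_smul, one_smul, zero_smul, hcA]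
      simp [hjl, hπ]
  -- the bound on the ball, transferred to matrices
  set θ := 5 * Real.sqrt δ with hθ
  have hθ0 : 0 < θ := by positivity
  set ck : Fin n → Fin n → Matrix (Fin k) (Fin k) ℂ := fun j l => φ (cA j l) with hck
  have hmapB : (ballMat R cA).map φ = ballMat R ck := by
    ext1 a b
    simp [ballMat, Matrix.map_apply, map_sum, apply_ite φ, hck]
  have hmapG : (grpMat E cA).map φ = grpMat E ck := by
    ext1 a b
    simp [grpMat, Matrix.map_apply, map_sum, apply_ite φ, hck]
  obtain ⟨hXsa, hXn⟩ := ball_bound x δ hδ hδ1 he hr R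
  have hB1 : Bdd θ (Matrix.compRingEquiv _ (Fin k) ℂ (ballMat R ck)) := by
    have h := ((bdd_of_norm_le hXsa hXn).cp hφ hφ1).flatten
    change Bdd θ (Matrix.compRingEquiv _ (Fin k) ℂ ((ballMat R cA).map φ)) at h
    rwa [hmapB] at h
  set Hb := CStarMatrix.ofMatrix (Matrix.compRingEquiv _ (Fin k) ℂ (ballMat R ck)) with hHb
  have hHbn : ‖Hb ^ (2 * p)‖ ≤ θ ^ (2 * p) :=
    (norm_pow_le' _ (by omega)).trans (pow_le_pow_left₀ (norm_nonneg _) (hB1.norm_le hθ0.le) _)
  -- the big matrix
  set H := Matrix.compRingEquiv (Fin L) (Fin k) ℂ (grpMat E ck) with hH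
  have hHh : H.IsHermitian := by
    have hsa : IsSelfAdjoint X := by
      have : X = star S * S - tens e 1 := eq_sub_of_add_eq hSS.symm
      rw [this]
      refine (IsSelfAdjoint.star_mul_self S).sub ?_
      change star (tens e 1) = tens e 1
      ext a b
      simp only [tens, CStarMatrix.star_apply, CStarMatrix.ofMatrix_apply, Matrix.map_apply,
        Matrix.one_apply, star_smul]
      by_cases hab : a = b
      · subst hab
        simp [hed, star_sum]
      · simp [hab, Ne.symm hab]
    have h := ((bdd_of_norm_le hsa le_rfl).cp hφ hφ1).flatten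
    change Bdd _ (Matrix.compRingEquiv _ (Fin k) ℂ ((grpMat E cA).map φ)) at h
    rw [hmapG] at h
    exact h.isSelfAdjoint
  have htr : (H ^ (2 * p)).trace.re ≤ (L : ℝ) * k * θ ^ (2 * p) := by
    rw [hH, ← map_pow, Matrix.trace, Complex.re_sum]
    refine (Finset.sum_le_card_nsmul _ _ (θ ^ (2 * p)) fun ai _ => ?_).trans_eq ?_
    · change ((grpMat E ck ^ (2 * p)) ai.1 ai.1 ai.2 ai.2).re ≤ _
      have e0 := grpMat_pow_diag E ck (m := 2 * p) (by omega) ai.1
      refine (le_of_eq (congrArg (fun M : Matrix (Fin k) (Fin k) ℂ => (M ai.2 ai.2).re) e0)).trans ?_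
      refine le_trans (Complex.re_le_norm _) (le_trans ?_ hHbn)
      refine le_trans (le_of_eq ?_) (CStarMatrix.norm_entry_le_norm
        (i := (base n (R + 1), ai.2)) (j := (base n (R + 1), ai.2)))
      refine congrArg norm ?_
      have e1 : Hb ^ (2 * p)
          = CStarMatrix.ofMatrix (Matrix.compRingEquiv _ (Fin k) ℂ (ballMat R ck ^ (2 * p))) := by
        rw [map_pow]; rfl
      rw [e1]; rfl
    · simp [Finset.card_univ, Fintype.card_prod, nsmul_eq_mul]
  set θ' := 30 * Real.sqrt δ with hθ'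
  have hθ'0 : 0 < θ' := by positivity
  obtain ⟨P, hPs, hPP, hPtr, hPn⟩ := exists_compression H hHh p hθ'0 htr
  set PA := P.map (algebraMap ℂ A) with hPA
  set X'' : CStarMatrix (Fin L) (Fin L) A :=
    CStarMatrix.ofMatrix ((grpMat E ck).map ψ) with hX''
  have hPXP : ‖scal P * X'' * scal P‖ ≤ θ' := by
    set Pk := P.map (algebraMap ℂ (Matrix (Fin k) (Fin k) ℂ)) with hPk
    have hkey : Matrix.compRingEquiv (Fin L) (Fin k) ℂ (Pk * grpMat E ck * Pk)
        = (P ⊗ₖ (1 : Matrix (Fin k) (Fin k) ℂ)) * H * (P ⊗ₖ (1 : Matrix (Fin k) (Fin k) ℂ)) := by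
      rw [map_mul, map_mul, hPk, comp_scalar]
    have hP1 : star (P ⊗ₖ (1 : Matrix (Fin k) (Fin k) ℂ)) = P ⊗ₖ (1 : Matrix (Fin k) (Fin k) ℂ) := by
      rw [Matrix.star_eq_conjTranspose, Matrix.conjTranspose_kronecker,
        Matrix.conjTranspose_one, ← Matrix.star_eq_conjTranspose, hPs]
    have hsa2 : IsSelfAdjoint (CStarMatrix.ofMatrix
        ((P ⊗ₖ (1 : Matrix (Fin k) (Fin k) ℂ)) * H * (P ⊗ₖ (1 : Matrix (Fin k) (Fin k) ℂ)))) := by
      change star (_ * H * _ : Matrix (Fin L × Fin k) (Fin L × Fin k) ℂ) = _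
      rw [star_mul, star_mul, hP1, Matrix.star_eq_conjTranspose H, hHh, mul_assoc]
      rfl
    have h := bdd_of_norm_le hsa2 hPn
    change Bdd θ' ((P ⊗ₖ (1 : Matrix (Fin k) (Fin k) ℂ)) * H
      * (P ⊗ₖ (1 : Matrix (Fin k) (Fin k) ℂ))) at h
    rw [← hkey] at h
    have h2 := ((h.unflatten).cp hψ hψ1).norm_le hθ'0.le
    rwa [hPk, map_sandwich] at h2
  have herr : ‖X - X''‖ ≤ ε := by
    have e1 : X - X'' = ∑ jl : Fin n × Fin n, scal (star (u jl.1))
        * diagM (fun _ => cA jl.1 jl.2 - ψ (ck jl.1 jl.2)) * scal (u jl.2) := by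
      simp only [← tens_eq]
      ext a b
      have hsum : ∀ (f : Fin n × Fin n → CStarMatrix (Fin L) (Fin L) A),
          (∑ j, f j) a b = ∑ j, f j a b :=
        fun f => Matrix.sum_apply a b _ (fun j => CStarMatrix.ofMatrix.symm (f j))
      rw [hsum, Fintype.sum_prod_type, CStarMatrix.sub_apply]
      change grpMat E cA a b - ψ (grpMat E ck a b)
        = ∑ j, ∑ l, (star (u j) * u l) a b • (cA j l - ψ (ck j l))
      simp only [grpMat, map_sum, ← Finset.sum_sub_distrib]
      refine Finset.sum_congr rfl fun j _ => Finset.sum_congr rfl fun l _ => ?_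
      rw [huu, Matrix.of_apply, ite_smul, one_smul, zero_smul, hπ]
      split_ifs <;> simp
    rw [e1]
    refine (norm_sum_le _ _).trans ((Finset.sum_le_card_nsmul _ _ ε' fun jl _ => ?_).trans ?_)
    · have a1 : ‖scal (A := A) (star (u jl.1))‖ ≤ 1 := by
        rw [← scal_star]
        exact (norm_star (scal (A := A) (u jl.1))).trans_le
          (norm_scal_le_one (by rw [hu1, mul_one]))
      have a2 : ‖scal (A := A) (u jl.2)‖ ≤ 1 := norm_scal_le_one (by rw [hu1, mul_one])
      have a3 : ‖diagM fun _ : Fin L => cA jl.1 jl.2 - ψ (ck jl.1 jl.2)‖ ≤ ε' := by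
        refine norm_diagM hε'0.le fun _ => ?_
        by_cases h : jl.1 = jl.2
        · simp [hck, hcA, h, hε'0.le]
        · rw [norm_sub_rev]
          have := (happ (star (x jl.1) * x jl.2)
            (Finset.mem_image.2 ⟨jl, Finset.mem_univ _, rfl⟩)).le
          simpa [hck, hcA, h] using this
      refine (norm_mul_le _ _).trans ?_
      refine (mul_le_mul ((norm_mul_le _ _).trans (mul_le_mul a1 a3 (norm_nonneg _) zero_le_one))
        a2 (norm_nonneg _) (by positivity)).trans_eq (by ring)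
    · rw [nsmul_eq_mul, Finset.card_univ, Fintype.card_prod, Fintype.card_fin, Nat.cast_mul]
      rw [hε', mul_div, div_le_iff₀ (by positivity)]
      nlinarith
  refine ⟨L, u, P, Fintype.card_pos, hPs, hPP, hu1, fun i => ?_, fun i j hij => ?_, ?_, ?_⟩
  · have : ¬ π (FreeGroup.of i) = 1 := fun h =>
      FreeGroup.of_ne_one i (model_eq_one (hnorm1 i) h)
    simp [hu, Matrix.trace, this]
  · have : ¬ π ((FreeGroup.of i)⁻¹ * FreeGroup.of j) = 1 := by
      intro h
      rw [map_mul, map_inv, inv_mul_eq_one] at h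
      exact hij (FreeGroup.of_injective (model_injOn (hnorm1 i) (hnorm1 j) h))
    simp [huu, Matrix.trace, -map_mul, this]
  · refine hPtr.trans ?_
    have hq : θ ^ (2 * p) / θ' ^ (2 * p) = (1 / 6) ^ (2 * p) := by
      rw [← div_pow]
      congr 1
      rw [hθ, hθ', div_eq_iff (by positivity)]
      ring
    calc (k : ℝ) * ((L : ℝ) * k * θ ^ (2 * p) / θ' ^ (2 * p))
        = (L : ℝ) * ((k : ℝ) * k * (1 / 6) ^ (2 * p)) := by rw [← hq]; ring
      _ ≤ (L : ℝ) * ε := mul_le_mul_of_nonneg_left hp (Nat.cast_nonneg _)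
      _ = ε * L := mul_comm _ _
  · have hte : scal P * tens e 1 * scal P = tens e P := by
      have h1 : tens e (1 : Matrix (Fin L) (Fin L) ℂ) = diagM fun _ : Fin L => e := by
        have := tens_eq (L := L) e 1 1
        rwa [one_mul, scal_one, one_mul, mul_one] at this
      rw [h1, ← tens_eq, hPP]
    have e1 : scal P * star S * S * scal P - tens e P = scal P * X'' * scal P
        + scal P * (X - X'') * scal P := by
      rw [mul_assoc (scal P) (star S) S, hSS, mul_add, add_mul, hte, mul_sub, sub_mul]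
      abel
    rw [e1]
    refine (norm_add_le _ _).trans (add_le_add hPXP ?_)
    have hP1 : ‖scal (A := A) P‖ ≤ 1 := norm_scal_le_one (by rw [hPs, hPP, hPP])
    refine (norm_mul_le _ _).trans ((mul_le_mul ((norm_mul_le _ _).trans
      (mul_le_mul hP1 herr (norm_nonneg _) zero_le_one)) hP1 (norm_nonneg _)
      (by positivity)).trans_eq (by ring))

end Vale.Agent.P095.Amenable
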