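import Vale.Agent.P095.Amenable.OrthGood
import Vale.Agent.P101.Char

/-!
Almost central contractions of full norm with almost orthogonal translates.
-/

noncomputable section

open Filter Topology
open scoped BoundedContinuousFunction ComplexStarModule

namespace Vale.Agent.P095.Amenable

open Vale.Agent.P101 Vale.Agent.P095.Finite

universe u v w

variable {A : Type u} [CStarAlgebra A] {ω : Ultrafilter ℕ}

section Generic

variable {D : Type u} [CStarAlgebra D]

/-- Functions of x on which x is almost the number d. -/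
def HasTop (x : D) (d : ℝ) : Prop :=
  ∀ η : ℝ, 0 < η → ∃ g e : D, g * e = e ∧ e ≠ 0 ∧ ‖g‖ ≤ 1 ∧ ‖(x - (d : ℂ) • 1) * g‖ ≤ 2 * η

lemma hasTop_of_mem {x : D} (hx : IsSelfAdjoint x) {d : ℝ} (hd : d ∈ spectrum ℝ x) :
    HasTop x d := fun η hη =>
  ⟨cfc (plat d η) x, cfc (tent d η) x, cfc_plat_mul_tent x d η, cfc_tent_ne_zero x hx hd,
    norm_cfc_plat_le x d η, by
      rw [Complex.coe_smul, ← Algebra.algebraMap_eq_smul_one]
      exact norm_sub_mul_plat_le x hx hη⟩

lemma exists_top (x : D) (hx : IsSelfAdjoint x) (hne : x ≠ 0) :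
    HasTop x ‖x‖ ∨ HasTop (-x) ‖x‖ := by
  have : Nontrivial D := nontrivial_of_ne x 0 hne
  rcases CStarAlgebra.norm_or_neg_norm_mem_spectrum (a := x) hx with h | h
  · exact Or.inl (hasTop_of_mem hx h)
  · refine Or.inr (hasTop_of_mem hx.neg ?_)
    rw [← spectrum.neg_eq]
    simpa using h

/-- A self-adjoint element commuting with its image and away from it. -/
lemma exists_split_hom (ψ : D →⋆ₐ[ℂ] D) {M : D} (hM : IsSelfAdjoint M)
    (hc : Commute M (ψ M)) {d : ℝ} (hd : 0 < d) (hdist : d ≤ ‖M - ψ M‖) :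
    ∃ Y G : D, IsSelfAdjoint Y ∧ ‖Y‖ ≤ 1 ∧ Y * G = G ∧ G ≠ 0 ∧ Y * ψ Y = 0 := by
  have hM' : IsSelfAdjoint (ψ M) := hM.map ψ
  obtain ⟨s, t, hst, hne⟩ := exists_separated hM hM' hc hd hdist
  set r : ℝ := d / 16
  set M' := ψ M with hMdef
  have hr : 0 < r := by positivity
  have hsep : 4 * r ≤ |t - s| := by rw [abs_sub_comm]; show 4 * (d / 16) ≤ _; linarith
  have hcc : ∀ f f' : ℝ → ℝ, Commute (cfc f M) (cfc f' M') := fun f f' =>
    ((hc.cfc_real f).symm.cfc_real f').symm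
  refine ⟨cfc (plat s r) M * cfc (plat t r) M', cfc (tent s r) M * cfc (tent t r) M',
    IsSelfAdjoint.commute_iff IsSelfAdjoint.cfc IsSelfAdjoint.cfc |>.1 (hcc _ _),
    (norm_mul_le _ _).trans
      (mul_le_one₀ (norm_cfc_plat_le _ _ _) (norm_nonneg _) (norm_cfc_plat_le _ _ _)), ?_, hne, ?_⟩
  · rw [mul_assoc, ← mul_assoc (cfc (plat t r) M'), ← (hcc (tent s r) (plat t r)).eq, mul_assoc,
      cfc_plat_mul_tent, ← mul_assoc, cfc_plat_mul_tent]
  · have e : ψ (cfc (plat s r) M) = cfc (plat s r) M' :=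
      StarAlgHomClass.map_cfc ψ (plat s r) M (hf := (continuous_plat s r).continuousOn)
        (hφ := AddMonoidHomClass.continuous_of_bound ψ 1 fun z => by
          rw [one_mul]; exact NonUnitalStarAlgHom.norm_apply_le ψ z)
        (ha := hM) (hφa := hM')
    rw [map_mul, e, mul_assoc, ← mul_assoc (cfc (plat t r) M'), cfc_plat_mul_plat M' hr hsep,
      zero_mul, mul_zero]

/-- Without characters there are two orthogonal plateaus. -/
lemma exists_split_two [Nontrivial D] (he : IsEmpty (D →⋆ₐ[ℂ] ℂ)) :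
    ∃ Y G : Bool → D, (∀ i, IsSelfAdjoint (Y i)) ∧ (∀ i, ‖Y i‖ ≤ 1) ∧ (∀ i, Y i * G i = G i) ∧
      (∀ i, G i ≠ 0) ∧ ∀ i j, i ≠ j → Y i * Y j = 0 := by
  obtain ⟨f, hf, s, hs, t, ht, hst⟩ : ∃ f : D, IsSelfAdjoint f ∧
      ∃ s ∈ spectrum ℝ f, ∃ t ∈ spectrum ℝ f, s ≠ t := by
    by_contra hne
    simp only [not_exists, not_and, not_not] at hne
    have hsc : ∀ f : D, IsSelfAdjoint f → ∃ r : ℝ, f = algebraMap ℝ _ r := fun f hf => by
      obtain ⟨r, hr⟩ := ContinuousFunctionalCalculus.spectrum_nonempty (R := ℝ) f hf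
      refine ⟨r, ?_⟩
      conv_lhs => rw [← cfc_id' ℝ f]
      rw [cfc_congr (g := fun _ => r) fun x hx => hne f hf x hx r hr, cfc_const r f]
    have hcomm : ∀ a b : D, a * b = b * a := fun a b => by
      obtain ⟨r1, e1⟩ := hsc _ (ℜ a).2
      obtain ⟨r2, e2⟩ := hsc _ (ℑ a).2
      rw [← realPart_add_I_smul_imaginaryPart a, e1, e2, add_mul, mul_add, smul_mul_assoc,
        mul_smul_comm, Algebra.commutes r1 b, Algebra.commutes r2 b]
    refine he.false (exists_char_of_not_full (R := D) fun hF => ?_).some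
    have hz : ({x : D | ∃ a b, a * b - b * a = x}) ⊆ ((⊥ : TwoSidedIdeal D) : Set _) := by
      rintro x ⟨a, b, rfl⟩
      rw [hcomm a b, sub_self]
      exact TwoSidedIdeal.zero_mem _
    exact one_ne_zero ((TwoSidedIdeal.mem_bot _).1 (TwoSidedIdeal.span_le.2 hz hF))
  set r : ℝ := |s - t| / 4
  have hr : 0 < r := div_pos (abs_pos.2 (sub_ne_zero.2 hst)) (by norm_num)
  let v : Bool → ℝ := fun p => if p then s else t
  refine ⟨fun p => cfc (plat (v p) r) f, fun p => cfc (tent (v p) r) f,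
    fun p => IsSelfAdjoint.cfc, fun p => norm_cfc_plat_le _ _ _,
    fun p => cfc_plat_mul_tent _ _ _, fun p => cfc_tent_ne_zero f hf (by
      cases p <;> simpa [v]), fun p q hpq => cfc_plat_mul_plat f hr ?_⟩
  have e : 4 * r = |s - t| := by show 4 * (|s - t| / 4) = _; ring
  cases p <;> cases q
  · exact absurd rfl hpq
  · simp [v, e, abs_sub_comm]
  · simp [v, e]
  · exact absurd rfl hpq

end Generic

/-- A nontrivially acting automorphism moves some self-adjoint contraction, upwards. -/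
lemma exists_moved [Nontrivial A] (ψ : A ≃⋆ₐ[ℂ] A) (h : ¬ ActsTrivially ω ψ) :
    ∃ (F : CQ ω A) (d : ℝ), IsSelfAdjoint F ∧ ‖F‖ ≤ 1 ∧ 0 < d ∧
      HasTop (F - actHom ω ψ F) d := by
  obtain ⟨x, hx, hxn⟩ : ∃ x : ℕ →ᵇ A, IsCentral ω x ∧
      ¬ Tendsto (fun n => ‖ψ (x n) - x n‖) (ω : Filter ℕ) (𝓝 0) := by
    simpa [ActsTrivially] using h
  set Z := proj ω ⟨x, hx⟩
  have hZ : actHom ω ψ Z ≠ Z := fun e => by
    rw [actHom_proj, proj_eq_iff] at e
    exact hxn (e.congr fun n => by simp [coe_centralAct])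
  have : Nontrivial (CQ ω A) := nontrivial_of_ne _ _ hZ
  obtain ⟨W, hW, hWm⟩ : ∃ W : CQ ω A, IsSelfAdjoint W ∧ actHom ω ψ W ≠ W := by
    by_contra hne
    simp only [not_exists, not_and, not_not] at hne
    refine hZ ?_
    rw [← realPart_add_I_smul_imaginaryPart Z, map_add, map_smul, hne _ (ℜ Z).2, hne _ (ℑ Z).2]
  set F₀ : CQ ω A := (((‖W‖ + 1)⁻¹ : ℝ) : ℂ) • W
  have hF₀ : IsSelfAdjoint F₀ := by
    show star F₀ = F₀
    rw [star_smul, hW.star_eq, Complex.star_def, Complex.conj_ofReal]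
  have hF₀n : ‖F₀‖ ≤ 1 := by
    rw [norm_smul, Complex.norm_real, Real.norm_eq_abs, abs_of_nonneg (by positivity),
      inv_mul_le_one₀ (by positivity)]
    linarith
  have hne : F₀ - actHom ω ψ F₀ ≠ 0 := by
    rw [sub_ne_zero, map_smul]
    intro e
    refine hWm ((smul_right_injective (CQ ω A) ?_) e).symm
    simp only [ne_eq, Complex.ofReal_eq_zero]
    positivity
  have hpos := norm_pos_iff.2 hne
  rcases exists_top (F₀ - actHom ω ψ F₀) (hF₀.sub (hF₀.map _)) hne with hs | hs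
  · exact ⟨F₀, _, hF₀, hF₀n, hpos, hs⟩
  · refine ⟨-F₀, ‖F₀ - actHom ω ψ F₀‖, hF₀.neg, by rwa [norm_neg], hpos, ?_⟩
    rwa [map_neg, show -F₀ - -(actHom ω ψ F₀) = -(F₀ - actHom ω ψ F₀) by abel]

/-- Commuting copies of a moved element, with a joint top for the differences. -/
lemma exists_chain (hA : IsSimpleUnital A) [Nontrivial A] (ψ : A ≃⋆ₐ[ℂ] A) {F : CQ ω A} {d η : ℝ}
    (hF : IsSelfAdjoint F) (hFn : ‖F‖ ≤ 1) (hd : HasTop (F - actHom ω ψ F) d) (hη : 0 < η)
    (hη1 : η ≤ 1) : ∀ (j : ℕ) (S : Finset A) (γ : ℝ), 0 < γ → γ ≤ 1 →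
    ∃ (a : Fin j → A) (G : A),
      (∀ i, IsSelfAdjoint (a i) ∧ ‖a i‖ ≤ 2 ∧ ∀ s ∈ S, ‖a i * s - s * a i‖ ≤ γ) ∧
      (∀ i k, i ≠ k → ‖a i * ψ (a k) - ψ (a k) * a i‖ ≤ γ) ∧
      (∀ s ∈ S, ‖G * s - s * G‖ ≤ γ) ∧ 1 - γ ≤ ‖G‖ ∧ ‖G‖ ≤ 1 + γ ∧
      ∀ i, ‖(a i - ψ (a i) - algebraMap ℝ A d) * G‖ ≤ 3 * η + γ := by
  intro j
  induction j with
  | zero =>
    exact fun S γ hγ _ => ⟨Fin.elim0, 1, fun i => i.elim0, fun i => i.elim0,
      fun s _ => by simp [hγ.le], by simp [hγ.le], by simp [hγ.le], fun i => i.elim0⟩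
  | succ j ih =>
    intro S γ hγ hγ1
    classical
    set B : ℝ := ∑ s ∈ S, ‖s‖
    have hB : ∀ s ∈ S, ‖s‖ ≤ B := fun s hs =>
      Finset.single_le_sum (fun t _ => norm_nonneg t) hs
    have hB0 : 0 ≤ B := Finset.sum_nonneg fun t _ => norm_nonneg t
    set δ : ℝ := γ / 16
    have hδ : 0 < δ := by positivity
    obtain ⟨a, G, ha, hcross, hGS, hG1, hG2, hGd⟩ := ih S δ hδ (by show γ / 16 ≤ 1; linarith)
    obtain ⟨x0, hx0⟩ := proj_surjective ω F
    set x : ↥(centralAlg ω A) := (2⁻¹ : ℂ) • (x0 + star x0)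
    have hx : proj ω x = F := by
      rw [map_smul, map_add, map_star, hx0, hF.star_eq, ← two_smul ℂ F, smul_smul,
        inv_mul_cancel₀ two_ne_zero, one_smul]
    have hxs : ∀ n, IsSelfAdjoint ((x : ℕ →ᵇ A) n) := fun n => by
      show star ((2⁻¹ : ℂ) • ((x0 : ℕ →ᵇ A) n + star ((x0 : ℕ →ᵇ A) n)))
        = (2⁻¹ : ℂ) • ((x0 : ℕ →ᵇ A) n + star ((x0 : ℕ →ᵇ A) n))
      rw [star_smul, star_add, star_star, add_comm (star _)]
      simp
    set Δ : CQ ω A := F - actHom ω ψ F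
    have hΔ : IsSelfAdjoint Δ := hF.sub (hF.map _)
    obtain ⟨g₁, e₁, hge, he0, hg1, hgd⟩ := hd η hη
    obtain ⟨g, hg⟩ := proj_surjective ω g₁
    obtain ⟨e, he⟩ := proj_surjective ω e₁
    set D : ↥(centralAlg ω A) := x - centralAct ω ψ x - algebraMap ℂ _ (d : ℂ)
    have hD : ∀ n, (D : ℕ →ᵇ A) n
        = (x : ℕ →ᵇ A) n - ψ ((x : ℕ →ᵇ A) n) - algebraMap ℝ A d := fun n => by
      show (x : ℕ →ᵇ A) n - ψ ((x : ℕ →ᵇ A) n) - algebraMap ℂ A (d : ℂ) = _
      congr 1
    have hDg : nrm ω ((D * g : ↥(centralAlg ω A)) : ℕ →ᵇ A) ≤ 2 * η := by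
      rw [← norm_proj, map_mul, hg, map_sub, map_sub, hx, ← actHom_proj, hx,
        AlgHomClass.commutes, Algebra.algebraMap_eq_smul_one]
      exact hgd
    have v1 : ∀ᶠ n in (ω : Filter ℕ), ‖(x : ℕ →ᵇ A) n‖ ≤ 2 :=
      ((tendsto_nrm (ω := ω) _).eventually_lt_const (u := 2) (by
        rw [← norm_proj, hx]; linarith)).mono fun n h => h.le
    have v2 : ∀ᶠ n in (ω : Filter ℕ), ‖(g : ℕ →ᵇ A) n‖ ≤ 1 + δ :=
      ((tendsto_nrm (ω := ω) _).eventually_lt_const (u := 1 + δ) (by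
        rw [← norm_proj, hg]; linarith)).mono fun n h => h.le
    have v3 : ∀ᶠ n in (ω : Filter ℕ),
        ‖(D : ℕ →ᵇ A) n * (g : ℕ →ᵇ A) n‖ ≤ 2 * η + δ :=
      ((tendsto_nrm (ω := ω) ((D * g : ↥(centralAlg ω A)) : ℕ →ᵇ A)).eventually_lt_const
        (u := 2 * η + δ) (by linarith)).mono fun n h => h.le
    have v4 : ∀ᶠ n in (ω : Filter ℕ), ‖G‖ - δ ≤ ‖G * (g : ℕ →ᵇ A) n‖ :=
      eventually_norm_mul_ge hA g.2 e.2
        (not_isNull_of_ne_zero (by rw [he]; exact he0))
        ((proj_eq_iff ω (g * e) e).1 (by rw [map_mul, hg, he, hge])) G hδ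
    have cen : ∀ (z : ↥(centralAlg ω A)) (T : Finset A), ∀ᶠ n in (ω : Filter ℕ), ∀ s ∈ T,
        ‖(z : ℕ →ᵇ A) n * s - s * (z : ℕ →ᵇ A) n‖ ≤ δ / (B + 1) := fun z T =>
      (Finset.eventually_all T).2 fun s _ => (z.2 s).eventually_le_const (by positivity)
    obtain ⟨n, n1, n2, n3, n4, n5, n6, n7, n8⟩ := (v1.and (v2.and (v3.and (v4.and
      ((cen x (S ∪ Finset.univ.image fun i => ψ (a i))).and
      ((cen (centralAct ω ψ x) (Finset.univ.image a)).and
      ((cen g S).and (cen D {G})))))))).exists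
    have hdiv : δ / (B + 1) ≤ δ := div_le_self hδ.le (by linarith)
    refine ⟨Fin.snoc a ((x : ℕ →ᵇ A) n), G * (g : ℕ →ᵇ A) n, ?_, ?_, ?_, ?_, ?_, ?_⟩
    · intro i
      refine Fin.lastCases ?_ (fun i => ?_) i
      · rw [Fin.snoc_last]
        exact ⟨hxs n, n1, fun s hs => (n5 s (by simp [hs])).trans (hdiv.trans (by
          show γ / 16 ≤ γ; linarith))⟩
      · rw [Fin.snoc_castSucc]
        exact ⟨(ha i).1, (ha i).2.1, fun s hs => ((ha i).2.2 s hs).trans (by
          show γ / 16 ≤ γ; linarith)⟩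
    · intro i k
      refine Fin.lastCases ?_ (fun i => ?_) i <;> refine Fin.lastCases ?_ (fun k => ?_) k
      · exact fun h => absurd rfl h
      · intro _
        rw [Fin.snoc_last, Fin.snoc_castSucc]
        exact (n5 _ (by simp)).trans (hdiv.trans (by show γ / 16 ≤ γ; linarith))
      · intro _
        rw [Fin.snoc_last, Fin.snoc_castSucc, norm_sub_rev]
        exact (n6 _ (by simp)).trans (hdiv.trans (by show γ / 16 ≤ γ; linarith))
      · intro h
        rw [Fin.snoc_castSucc, Fin.snoc_castSucc]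
        exact (hcross i k fun e => h (by rw [e])).trans (by show γ / 16 ≤ γ; linarith)
    · intro s hs
      calc ‖G * (g : ℕ →ᵇ A) n * s - s * (G * (g : ℕ →ᵇ A) n)‖
          = ‖G * ((g : ℕ →ᵇ A) n * s - s * (g : ℕ →ᵇ A) n)
              + (G * s - s * G) * (g : ℕ →ᵇ A) n‖ := by congr 1; noncomm_ring
        _ ≤ (1 + δ) * δ + δ * (1 + δ) := (norm_add_le _ _).trans (add_le_add
            ((norm_mul_le _ _).trans (mul_le_mul hG2 ((n7 s hs).trans hdiv) (norm_nonneg _)
              (by positivity)))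
            ((norm_mul_le _ _).trans (mul_le_mul (hGS s hs) n2 (norm_nonneg _) hδ.le)))
        _ ≤ γ := by
          have h16 : δ = γ / 16 := rfl
          nlinarith
    · have h16 : δ = γ / 16 := rfl
      linarith
    · have h16 : δ = γ / 16 := rfl
      have := (norm_mul_le G ((g : ℕ →ᵇ A) n)).trans (mul_le_mul hG2 n2 (norm_nonneg _) (by positivity))
      nlinarith
    · intro i
      have h16 : δ = γ / 16 := rfl
      refine Fin.lastCases ?_ (fun i => ?_) i
      · rw [Fin.snoc_last, ← hD]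
        calc ‖(D : ℕ →ᵇ A) n * (G * (g : ℕ →ᵇ A) n)‖
            = ‖((D : ℕ →ᵇ A) n * G - G * (D : ℕ →ᵇ A) n) * (g : ℕ →ᵇ A) n
                + G * ((D : ℕ →ᵇ A) n * (g : ℕ →ᵇ A) n)‖ := by congr 1; noncomm_ring
          _ ≤ δ * (1 + δ) + (1 + δ) * (2 * η + δ) := (norm_add_le _ _).trans (add_le_add
              ((norm_mul_le _ _).trans (mul_le_mul ((n8 G (by simp)).trans hdiv) n2 (norm_nonneg _)
                hδ.le))
              ((norm_mul_le _ _).trans (mul_le_mul hG2 n3 (norm_nonneg _) (by positivity))))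
          _ ≤ 3 * η + γ := by nlinarith
      · rw [Fin.snoc_castSucc, ← mul_assoc]
        calc ‖(a i - ψ (a i) - algebraMap ℝ A d) * G * (g : ℕ →ᵇ A) n‖
            ≤ (3 * η + δ) * (1 + δ) := (norm_mul_le _ _).trans
              (mul_le_mul (hGd i) n2 (norm_nonneg _) (by positivity))
          _ ≤ 3 * η + γ := by nlinarith

/-- An automorphism acting nontrivially has a good element almost orthogonal to its image. -/
theorem avail_single (hω : (ω : Filter ℕ) ≤ cofinite) (hA : IsSimpleUnital A) [Nontrivial A]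
    [TopologicalSpace.SeparableSpace A] {J : Type v} [Finite J] (φ : J → A ≃⋆ₐ[ℂ] A) (j₀ : J)
    (h : ¬ ActsTrivially ω (φ j₀)) : Avail φ PUnit.{w + 1} fun _ _ j => j = j₀ := by
  classical
  set ψ := φ j₀
  obtain ⟨F, d, hF, hFn, hd0, hd⟩ := exists_moved ψ h
  obtain ⟨D, hD⟩ := TopologicalSpace.exists_dense_seq A
  have step : ∀ m : ℕ, ∃ a : A, IsSelfAdjoint a ∧ ‖a‖ ≤ 2 ∧
      (∀ i ≤ m, ‖a * D i - D i * a‖ ≤ 1 / (m + 1)) ∧
      ‖a * ψ a - ψ a * a‖ ≤ 9 / (m + 1) ∧ d - 8 / (m + 1) ≤ ‖a - ψ a‖ := fun m => by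
    set γ : ℝ := 1 / (2 * (m + 1)) with hγdef
    have hm1 : (1 : ℝ) ≤ m + 1 := by simp
    have hγ : 0 < γ := by positivity
    have hγ1 : γ ≤ 1 / 2 := by
      rw [hγdef]; exact one_div_le_one_div_of_le two_pos (by linarith)
    have hγm : γ ≤ 1 / (m + 1) := by
      rw [hγdef]; exact one_div_le_one_div_of_le (by positivity) (by linarith)
    obtain ⟨a, G, ha, hcross, -, hG1, -, hGd⟩ := exists_chain hA ψ hF hFn hd hγ (by linarith) (m + 1)
      ((Finset.range (m + 1)).image D) γ hγ (by linarith)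
    set k : ℂ := ((m + 1 : ℕ) : ℂ)⁻¹ with hk
    have hkn : ‖k‖ = 1 / (m + 1 : ℝ) := by
      rw [hk, norm_inv, Complex.norm_natCast, one_div]; push_cast; rfl
    have hmean : ∀ (f : Fin (m + 1) → A) (c : ℝ), (∀ i, ‖f i‖ ≤ c) → ‖k • ∑ i, f i‖ ≤ c :=
      fun f c hf => by
        rw [norm_smul, hkn]
        calc 1 / (m + 1 : ℝ) * ‖∑ i, f i‖ ≤ 1 / (m + 1 : ℝ) * ((m + 1 : ℝ) * c) := by
              refine mul_le_mul_of_nonneg_left ((norm_sum_le _ _).trans ?_) (by positivity)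
              calc ∑ i, ‖f i‖ ≤ ∑ _i : Fin (m + 1), c := Finset.sum_le_sum fun i _ => hf i
                _ = (m + 1 : ℝ) * c := by simp
          _ = c := by field_simp
    have hψ : ψ (k • ∑ i, a i) = k • ∑ i, ψ (a i) := by rw [map_smul, map_sum]
    refine ⟨k • ∑ i, a i, ?_, hmean _ _ fun i => (ha i).2.1, fun i hi => ?_, ?_, ?_⟩
    · show star (k • ∑ i, a i) = k • ∑ i, a i
      rw [star_smul, star_sum, hk]
      simp [(ha _).1.star_eq]
    · rw [smul_mul_assoc, mul_smul_comm, ← smul_sub, Finset.sum_mul, Finset.mul_sum,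
        ← Finset.sum_sub_distrib]
      exact hmean _ _ fun l => ((ha l).2.2 (D i)
        (Finset.mem_image_of_mem D (Finset.mem_range.2 (by omega)))).trans hγm
    · rw [hψ]
      refine (norm_comm_mean_le (Nat.succ_pos m) a (fun i => ψ (a i)) hγ.le (fun i => (ha i).2.1)
        (fun i => by rw [norm_equiv]; exact (ha i).2.1) hcross).trans ?_
      push_cast
      rw [show (9 : ℝ) / (m + 1) = 8 / (m + 1) + 1 / (m + 1) by ring]
      linarith
    · have h1 : ‖(k • ∑ i, a i - ψ (k • ∑ i, a i) - algebraMap ℝ A d) * G‖ ≤ 4 * γ := by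
        have e : k • ∑ i, a i - ψ (k • ∑ i, a i) - algebraMap ℝ A d
            = k • ∑ i, (a i - ψ (a i) - algebraMap ℝ A d) := by
          rw [hψ, Finset.sum_sub_distrib, Finset.sum_sub_distrib, smul_sub, smul_sub,
            Finset.sum_const, Finset.card_univ, Fintype.card_fin,
            ← Nat.cast_smul_eq_nsmul ℂ (m + 1), smul_smul, hk,
            inv_mul_cancel₀ (by exact_mod_cast Nat.succ_ne_zero m), one_smul]
        rw [e, smul_mul_assoc, Finset.sum_mul]
        exact hmean _ _ fun i => by linarith [hGd i]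
      set M := k • ∑ i, a i - ψ (k • ∑ i, a i)
      have h2 : d * ‖G‖ ≤ ‖M * G‖ + 4 * γ := by
        calc d * ‖G‖ = ‖algebraMap ℝ A d * G‖ := by
              rw [Algebra.algebraMap_eq_smul_one, smul_mul_assoc, one_mul, norm_smul,
                Real.norm_eq_abs, abs_of_pos hd0]
          _ = ‖M * G - (M - algebraMap ℝ A d) * G‖ := by congr 1; noncomm_ring
          _ ≤ _ := (norm_sub_le _ _).trans (add_le_add le_rfl h1)
      have h3 := norm_mul_le M G
      have hG : 1 / 2 ≤ ‖G‖ := by linarith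
      have h8 : 8 * γ ≤ 8 / (m + 1) := by
        rw [show (8 : ℝ) / (m + 1) = 8 * (1 / (m + 1)) by ring]; linarith
      nlinarith
  choose a ha ha2 hac hacomm had using step
  let q : ℕ →ᵇ A := BoundedContinuousFunction.ofNormedAddCommGroupDiscrete a 2 ha2
  have hat : (ω : Filter ℕ) ≤ atTop := tendsto_atTop_omega hω
  have hsmall : ∀ c : ℝ, Tendsto (fun m : ℕ => c / (m + 1 : ℝ)) (ω : Filter ℕ) (𝓝 0) := fun c => by
    simpa [div_eq_mul_inv] using
      ((tendsto_one_div_add_atTop_nhds_zero_nat (𝕜 := ℝ)).const_mul c).mono_left hat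
  have hqc : IsCentral ω q := fun b => by
    refine Metric.tendsto_nhds.2 fun ε hε => ?_
    obtain ⟨i, hi⟩ := hD.exists_dist_lt b (show 0 < ε / 10 by positivity)
    rw [dist_eq_norm] at hi
    filter_upwards [(hsmall 1).eventually_lt_const (half_pos hε), hat (eventually_ge_atTop i)]
      with m h1 h2
    rw [Real.dist_eq, sub_zero, abs_of_nonneg (norm_nonneg _)]
    show ‖a m * b - b * a m‖ < ε
    have e1 := (norm_mul_le (a m) (b - D i)).trans
      (mul_le_mul (ha2 m) hi.le (norm_nonneg _) two_pos.le)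
    have e2 := (norm_mul_le (b - D i) (a m)).trans
      (mul_le_mul hi.le (ha2 m) (norm_nonneg _) (by positivity))
    calc ‖a m * b - b * a m‖
        = ‖(a m * D i - D i * a m) + a m * (b - D i) - (b - D i) * a m‖ := by congr 1; noncomm_ring
      _ ≤ ‖a m * D i - D i * a m‖ + ‖a m * (b - D i)‖ + ‖(b - D i) * a m‖ :=
          (norm_sub_le _ _).trans (add_le_add (norm_add_le _ _) le_rfl)
      _ < ε := by linarith [hac m i h2]
  set M : CQ ω A := proj ω ⟨q, hqc⟩
  have hM : IsSelfAdjoint M := by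
    show star M = M
    rw [← map_star, proj_eq_iff]
    refine Tendsto.congr (fun n => ?_) tendsto_const_nhds
    simp [q, (ha n).star_eq]
  have hM' : IsSelfAdjoint (actHom ω ψ M) := hM.map _
  have hMc : Commute M (actHom ω ψ M) := by
    show M * actHom ω ψ M = actHom ω ψ M * M
    rw [actHom_proj, ← map_mul, ← map_mul, proj_eq_iff]
    refine squeeze_zero (fun n => norm_nonneg _) (fun n => ?_) (hsmall 9)
    simpa [q, coe_centralAct] using hacomm n
  have hMd : d ≤ ‖M - actHom ω ψ M‖ := by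
    rw [actHom_proj, ← map_sub, norm_proj]
    refine le_of_tendsto_of_tendsto' (f := fun m : ℕ => d - 8 / (m + 1 : ℝ))
      (by simpa using (tendsto_const_nhds (x := d)).sub (hsmall 8)) (tendsto_nrm (ω := ω) _)
      fun n => ?_
    simpa [q, coe_centralAct] using had n
  obtain ⟨Y, G, hY, hYn, hYG, hG, hYψ⟩ := exists_split_hom (actHom ω ψ) hM hMc hd0 hMd
  exact avail_of_CQ hA _ (fun _ => Y) (fun _ => G) (fun _ => hY) (fun _ => hYn) (fun _ => hYG)
    (fun _ => hG) fun _ _ j hj => hj ▸ hYψ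

/-- Without characters the central sequence algebra has two separated values. -/
theorem avail_two (hA : IsSimpleUnital A) [Nontrivial A] (he : IsEmpty (CentralChar ω A))
    {J : Type v} [Finite J] (φ : J → A ≃⋆ₐ[ℂ] A) (j₁ : J) (h1 : φ j₁ = StarAlgEquiv.refl ℂ A) :
    Avail φ (ULift.{w} Bool) fun p q j => p ≠ q ∧ j = j₁ := by
  have hn : Nontrivial (CQ ω A) := by
    refine nontrivial_of_ne 1 0 fun h => ?_
    rw [← map_one (proj ω (A := A)), ← map_zero (proj ω (A := A)), proj_eq_iff] at h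
    exact one_ne_zero (α := ℝ) (tendsto_nhds_unique tendsto_const_nhds
      (h.congr fun n => show ‖(1 : A) - 0‖ = (1 : ℝ) by rw [sub_zero, norm_one]))
  obtain ⟨Y, G, hY, hYn, hYG, hG, hrel⟩ := exists_split_two (isEmpty_char he)
  refine avail_of_CQ hA _ (fun p => Y p.down) (fun p => G p.down) (fun p => hY _) (fun p => hYn _)
    (fun p => hYG _) (fun p => hG _) fun p q j hpq => ?_
  rw [hpq.2, h1, actHom_refl]
  exact hrel _ _ fun e => hpq.1 (ULift.ext _ _ e)

/-- Almost central contractions of full norm with almost orthogonal translates. -/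
theorem orth_ok : OrthStatement.{u, v} := by
  intro A _ _ ω hω hA he G α E hE K S ε hε
  classical
  rcases subsingleton_or_nontrivial A with hss | hnt
  · refine ⟨fun _ => 0, fun p => ⟨⟨0, by simp⟩, by simp⟩, fun p s _ => by simp [hε.le],
      fun p s _ => ?_, fun p q _ => by simp [hε.le], fun p q g _ => by simp [hε.le]⟩
    simp [Subsingleton.elim s 0, hε.le]
  let φ : Option E → A ≃⋆ₐ[ℂ] A := fun o => o.elim (StarAlgEquiv.refl ℂ A) fun g => α g
  have hE' : ∀ T : Finset E, Avail φ PUnit.{1} fun _ _ j => ∃ g ∈ T, j = some g := fun T => by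
    induction T using Finset.induction_on with
    | empty => exact (avail_one PUnit).comap id fun p q j h => by simp at h
    | insert g T _ ih =>
      refine ((avail_single hω hA φ (some g) (hE g g.2)).prod ih).comap (fun p => (p, p))
        fun p q j h => ?_
      obtain ⟨g', hg', rfl⟩ := h
      rcases Finset.mem_insert.1 hg' with rfl | h'
      · exact Or.inl rfl
      · exact Or.inr ⟨g', h', rfl⟩
  have hK : ∀ k : ℕ, Avail φ (Fin k → ULift.{0} Bool) fun p q j => p ≠ q ∧ j = none := fun k => by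
    induction k with
    | zero => exact (avail_one _).comap id fun p q j h => h.1 (Subsingleton.elim p q)
    | succ k ih =>
      refine ((avail_two (ω := ω) hA he φ none rfl).prod ih).comap
        (fun p => (p 0, fun i => p i.succ)) fun p q j h => ?_
      by_cases h0 : p 0 = q 0
      · refine Or.inr ⟨fun e => h.1 (funext fun i => Fin.cases h0 (congrFun e) i), h.2⟩
      · exact Or.inl ⟨h0, h.2⟩
  have hmain : Avail φ (Fin K) fun p q j => (∃ g, j = some g) ∨ (p ≠ q ∧ j = none) := by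
    refine ((hE' Finset.univ).prod (hK K)).comap
      (fun p => (PUnit.unit, fun i => ⟨decide (i = p)⟩)) fun p q j h => ?_
    rcases h with ⟨g, rfl⟩ | ⟨hpq, rfl⟩
    · exact Or.inl ⟨g, Finset.mem_univ g, rfl⟩
    · refine Or.inr ⟨fun e => hpq ?_, rfl⟩
      simpa using congrArg (fun z => (z p).down) e
  obtain ⟨h, hh, hrel⟩ := hmain S ε hε
  exact ⟨h, fun p => (hh p).1, fun p => (hh p).2.1, fun p => (hh p).2.2,
    fun p q hpq => hrel p q none (Or.inr ⟨hpq, rfl⟩),
    fun p q g hg => hrel p q (some ⟨g, hg⟩) (Or.inl ⟨_, rfl⟩)⟩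

end Vale.Agent.P095.Amenable
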