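import Vale.Agent.P095.Main
import Vale.Agent.P095.Amenable.Defs
import Vale.Agent.P095.Amenable.Folner
import Vale.Agent.P095.Amenable.Pair.Limit
import Vale.Agent.P095.Amenable.Pair.Central
import Vale.Agent.P095.Finite.Diag

/-!
Exactly invariant central sequences which anticommute up to tracially null elements.
-/

noncomputable section

open Filter Topology
open scoped BoundedContinuousFunction

namespace Vale.Agent.P095.Amenable

open Vale.Agent.P101 (CQ centralAlg)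

universe u v

variable {A : Type u} [CStarAlgebra A] {ω : Ultrafilter ℕ}

/-- A bounded sequence almost commuting with a dense sequence is central. -/
lemma isCentral_of_dense {d : ℕ → A} (hd : DenseRange d) {x : ℕ →ᵇ A}
    (h : ∀ m, Tendsto (fun n => ‖x n * d m - d m * x n‖) (ω : Filter ℕ) (𝓝 0)) :
    P101.IsCentral ω x := by
  intro b
  refine Metric.tendsto_nhds.2 fun ε hε => ?_
  obtain ⟨m, hm⟩ := hd.exists_dist_lt b (show 0 < ε / (4 * (‖x‖ + 1)) by positivity)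
  filter_upwards [Metric.tendsto_nhds.1 (h m) (ε / 2) (by positivity)] with n hn
  rw [Real.dist_eq, sub_zero, abs_of_nonneg (norm_nonneg _)] at hn ⊢
  rw [dist_eq_norm] at hm
  have hx : ‖x n‖ ≤ ‖x‖ + 1 := (x.norm_coe_le_norm n).trans (by linarith)
  have e1 : ‖x n * (b - d m)‖ ≤ ε / 4 := (norm_mul_le _ _).trans
    ((mul_le_mul hx hm.le (norm_nonneg _) (by positivity)).trans_eq (by field_simp))
  have e2 : ‖(b - d m) * x n‖ ≤ ε / 4 := (norm_mul_le _ _).trans
    ((mul_le_mul hm.le hx (norm_nonneg _) (by positivity)).trans_eq (by field_simp))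
  calc ‖x n * b - b * x n‖
      = ‖(x n * d m - d m * x n) + x n * (b - d m) - (b - d m) * x n‖ := by
        congr 1; noncomm_ring
    _ ≤ ‖x n * d m - d m * x n‖ + ‖x n * (b - d m)‖ + ‖(b - d m) * x n‖ :=
        (norm_sub_le _ _).trans (add_le_add (norm_add_le _ _) le_rfl)
    _ < ε := by linarith

variable [TopologicalSpace.SeparableSpace A]

/-- The central sequence algebra has the uniform McDuff property for limit traces. -/
lemma uniformMcDuff_limTraces (hω : (ω : Filter ℕ) ≤ cofinite)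
    (he : IsEmpty (P101.CentralChar ω A)) : UniformMcDuff (limTraces ω A) := by
  classical
  intro S δ hδ
  obtain ⟨a, b, ha, hb, hab⟩ := exists_central_pair ω hω he hδ
  obtain ⟨d, hd⟩ := TopologicalSpace.exists_dense_seq A
  let l : CQ ω A → ↥(centralAlg ω A) := Function.surjInv (P101.proj_surjective ω)
  have hm : ∀ n : ℕ, ∃ m, (Small {σ | IsTr σ} ((a * a - 1 : ↥(centralAlg ω A)).1 m) δ ∧
      Small {σ | IsTr σ} ((b * b - 1 : ↥(centralAlg ω A)).1 m) δ ∧
      Small {σ | IsTr σ} ((a * b + b * a : ↥(centralAlg ω A)).1 m) δ) ∧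
      ∀ c ∈ (Finset.range (n + 1)).image d ∪ S.image (fun s => (l s : ℕ →ᵇ A) n),
        ‖(a : ℕ →ᵇ A) m * c - c * (a : ℕ →ᵇ A) m‖ < 1 / ((n : ℝ) + 1) ∧
        ‖(b : ℕ →ᵇ A) m * c - c * (b : ℕ →ᵇ A) m‖ < 1 / ((n : ℝ) + 1) := fun n => by
    have hpos : (0 : ℝ) < 1 / ((n : ℝ) + 1) := Nat.one_div_pos_of_nat
    exact (hab.and ((Filter.eventually_all_finset _).2 fun c _ =>
      ((a.2 c).eventually_lt_const hpos).and ((b.2 c).eventually_lt_const hpos))).exists
  choose m hm1 hm2 using hm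
  have hsmall : Tendsto (fun n : ℕ => 1 / ((n : ℝ) + 1)) (ω : Filter ℕ) (𝓝 0) :=
    tendsto_one_div_add_atTop_nhds_zero_nat.mono_left (P101.tendsto_atTop_omega hω)
  have hcen : ∀ w : ↥(centralAlg ω A), (∀ n, ∀ c ∈ (Finset.range (n + 1)).image d ∪
      S.image (fun s => (l s : ℕ →ᵇ A) n),
        ‖(w : ℕ →ᵇ A) (m n) * c - c * (w : ℕ →ᵇ A) (m n)‖ < 1 / ((n : ℝ) + 1)) →
      P101.IsCentral ω (P101.reidx m (w : ℕ →ᵇ A)) ∧ ∀ s ∈ S,
        P101.IsNull ω (P101.reidx m (w : ℕ →ᵇ A) * (l s : ℕ →ᵇ A)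
          - (l s : ℕ →ᵇ A) * P101.reidx m (w : ℕ →ᵇ A)) := by
    intro w hw
    refine ⟨isCentral_of_dense hd fun k => ?_, fun s hs => ?_⟩
    · refine squeeze_zero' (Eventually.of_forall fun n => norm_nonneg _) ?_ hsmall
      filter_upwards [(P101.tendsto_atTop_omega hω) (eventually_ge_atTop k)] with n hn
      exact (hw n (d k) (Finset.mem_union_left _
        (Finset.mem_image_of_mem d (Finset.mem_range.2 (by omega))))).le
    · exact squeeze_zero (fun n => norm_nonneg _) (fun n => (hw n _ (Finset.mem_union_right _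
        (Finset.mem_image_of_mem (fun s => (l s : ℕ →ᵇ A) n) hs))).le) hsmall
  obtain ⟨hac, has⟩ := hcen a fun n c hc => (hm2 n c hc).1
  obtain ⟨hbc, hbs⟩ := hcen b fun n c hc => (hm2 n c hc).2
  let a' : ↥(centralAlg ω A) := ⟨_, hac⟩
  let b' : ↥(centralAlg ω A) := ⟨_, hbc⟩
  have hsa : ∀ (w : ↥(centralAlg ω A)), (∀ n, IsSelfAdjoint ((w : ℕ →ᵇ A) n)) →
      IsSelfAdjoint (P101.proj ω w) := fun w hw => by
    rw [isSelfAdjoint_iff, ← map_star]
    congr 1
    exact Subtype.ext (BoundedContinuousFunction.ext fun n => (hw n).star_eq)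
  have hnorm : ∀ (w : ↥(centralAlg ω A)), (∀ n, ‖(w : ℕ →ᵇ A) n‖ ≤ 1) → ‖P101.proj ω w‖ ≤ 1 :=
    fun w hw => by
      rw [P101.norm_proj]
      exact (P101.nrm_le _).trans ((BoundedContinuousFunction.norm_le zero_le_one).2 hw)
  have hzero : ∀ (x : CQ ω A), x = 0 → Small (limTraces ω A) x δ := fun x hx τ hτ => by
    rw [hx, (isTr_limTrace ω hτ).sn_zero]; exact hδ.le
  have hdef : ∀ e : ↥(centralAlg ω A), (∀ n, Small {σ | IsTr σ} ((e : ℕ →ᵇ A) n) δ) →
      Small (limTraces ω A) (P101.proj ω e) δ := fun e he τ hτ =>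
    Real.sqrt_le_iff.2 ⟨hδ.le, limTrace_le ω hτ e (Eventually.of_forall he)⟩
  refine ⟨P101.proj ω a', P101.proj ω b', hsa a' fun n => (ha (m n)).1, hsa b' fun n => (hb (m n)).1,
    hnorm a' fun n => (ha (m n)).2, hnorm b' fun n => (hb (m n)).2, ?_, ?_, ?_,
    fun s hs => ⟨hzero _ ?_, hzero _ ?_⟩⟩
  · rw [← map_mul, ← map_one (P101.proj ω (A := A)), ← map_sub]
    exact hdef _ fun n => (hm1 n).1
  · rw [← map_mul, ← map_one (P101.proj ω (A := A)), ← map_sub]
    exact hdef _ fun n => (hm1 n).2.1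
  · rw [← map_mul, ← map_mul, ← map_add]
    exact hdef _ fun n => (hm1 n).2.2
  · rw [br, ← Function.surjInv_eq (P101.proj_surjective ω) s, ← map_mul, ← map_mul, sub_eq_zero,
      P101.proj_eq_iff]
    exact has s hs
  · rw [br, ← Function.surjInv_eq (P101.proj_surjective ω) s, ← map_mul, ← map_mul, sub_eq_zero,
      P101.proj_eq_iff]
    exact hbs s hs

/-- One approximate step: central sequences almost invariant in norm with small defects. -/
lemma exists_step {G : Type v} [Group G] [Countable G] (hG : Folner G) (α : G → A ≃⋆ₐ[ℂ] A)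
    (hα : ∀ g h x, α (g * h) x = α g (α h x)) (hω : (ω : Filter ℕ) ≤ cofinite)
    (he : IsEmpty (P101.CentralChar ω A)) (E : Finset G) {ε : ℝ} (hε : 0 < ε) :
    ∃ a b : ↥(centralAlg ω A),
      (∀ n, IsSelfAdjoint ((a : ℕ →ᵇ A) n) ∧ ‖(a : ℕ →ᵇ A) n‖ ≤ 1) ∧
      (∀ n, IsSelfAdjoint ((b : ℕ →ᵇ A) n) ∧ ‖(b : ℕ →ᵇ A) n‖ ≤ 1) ∧
      ∀ᶠ n in (ω : Filter ℕ), Small {σ | IsTr σ} ((a * a - 1 : ↥(centralAlg ω A)).1 n) ε ∧
        Small {σ | IsTr σ} ((b * b - 1 : ↥(centralAlg ω A)).1 n) ε ∧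
        Small {σ | IsTr σ} ((a * b + b * a : ↥(centralAlg ω A)).1 n) ε ∧
        ∀ h ∈ E, ‖α h ((a : ℕ →ᵇ A) n) - (a : ℕ →ᵇ A) n‖ ≤ ε ∧
          ‖α h ((b : ℕ →ᵇ A) n) - (b : ℕ →ᵇ A) n‖ ≤ ε := by
  classical
  set β := Finite.actCQ ω α hα with hβ
  obtain ⟨P, hP, hPE⟩ := hG E (ε / 4) (by positivity)
  have h1 : ∀ x, β 1 x = x := fun x =>
    EquivLike.injective (β 1) (by rw [hβ, ← Finite.actCQ_mul, mul_one])
  set η : ℝ := ε / 10 with hη'
  have hη : 0 < η := by positivity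
  obtain ⟨x, z, hx, hz, hxn, hzn, hxx, hzz, hxz, -, hxP⟩ :=
    final_ok G hG (CQ ω A) (limTraces ω A) (fun τ hτ => isTr_limTrace ω hτ) β
      (Finite.actCQ_mul ω α hα) h1 (limTraces_inv ω α hα) (uniformMcDuff_limTraces hω he)
      ∅ P η hη
  set x' := avgF β P x
  set z' := avgF β P z
  have hclose : ∀ w : CQ ω A, (∀ g ∈ P, Small (limTraces ω A) (β g w - w) η) →
      Small (limTraces ω A) (avgF β P w - w) η := by
    intro w hw τ hτ
    have hτ' := isTr_limTrace ω hτ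
    rw [avgF_sub_self β P hP, hτ'.sn_smul_real, abs_of_nonneg (by positivity),
      inv_mul_le_iff₀ (Nat.cast_pos.2 (Finset.card_pos.2 hP))]
    refine (hτ'.sn_sum_le P _).trans ((Finset.sum_le_card_nsmul P _ η fun g hg => hw g hg τ hτ).trans_eq ?_)
    simp
  have hx'c := hclose x fun g hg => (hxP g hg).1
  have hz'c := hclose z fun g hg => (hxP g hg).2
  have hx' := avgF_isSelfAdjoint β P hx
  have hz' := avgF_isSelfAdjoint β P hz
  have hx'n := norm_avgF_le β P hxn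
  have hz'n := norm_avgF_le β P hzn
  -- products move little
  have hprod : ∀ p q p' q' : CQ ω A, ‖p‖ ≤ 1 → ‖q'‖ ≤ 1 → Small (limTraces ω A) (p' - p) η →
      Small (limTraces ω A) (q' - q) η → Small (limTraces ω A) (p' * q' - p * q) (2 * η) := by
    intro p q p' q' hp hq' h1 h2 τ hτ
    have hτ' := isTr_limTrace ω hτ
    rw [show p' * q' - p * q = (p' - p) * q' + p * (q' - q) by noncomm_ring]
    refine (hτ'.sn_add_le _ _).trans ?_
    have e1 := (hτ'.sn_mul_le_right (p' - p) q').trans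
      (mul_le_of_le_one_right (sn_nonneg _) hq')
    have e2 := (hτ'.sn_mul_le_left p (q' - q)).trans
      (mul_le_of_le_one_left (sn_nonneg _) hp)
    linarith [h1 τ hτ, h2 τ hτ]
  have dsq : ∀ p p' : CQ ω A, ‖p‖ ≤ 1 → ‖p'‖ ≤ 1 → Small (limTraces ω A) (p' - p) η →
      Small (limTraces ω A) (p * p - 1) η → Small (limTraces ω A) (p' * p' - 1) (3 * η) := by
    intro p p' hp hp' h1 h2 τ hτ
    rw [show p' * p' - 1 = (p' * p' - p * p) + (p * p - 1) by abel]
    exact ((isTr_limTrace ω hτ).sn_add_le _ _).trans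
      (by linarith [hprod p p p' p' hp hp' h1 h1 τ hτ, h2 τ hτ])
  have dxz : Small (limTraces ω A) (x' * z' + z' * x') (5 * η) := by
    intro τ hτ
    rw [show x' * z' + z' * x' = (x' * z' - x * z) + (z' * x' - z * x) + (x * z + z * x) by abel]
    refine ((isTr_limTrace ω hτ).sn_add_le _ _).trans ((add_le_add
      ((isTr_limTrace ω hτ).sn_add_le _ _) le_rfl).trans ?_)
    linarith [hprod x z x' z' hxn hz'n hx'c hz'c τ hτ, hprod z x z' x' hzn hx'n hz'c hx'c τ hτ,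
      hxz τ hτ]
  obtain ⟨a, ha, ha'⟩ := Link.exists_rep_sa ω hx' hx'n
  obtain ⟨b, hb, hb'⟩ := Link.exists_rep_sa ω hz' hz'n
  have hev : ∀ (e : ↥(centralAlg ω A)) {δ : ℝ}, 0 ≤ δ → δ < ε →
      Small (limTraces ω A) (P101.proj ω e) δ →
      ∀ᶠ n in (ω : Filter ℕ), Small {σ | IsTr σ} ((e : ℕ →ᵇ A) n) ε :=
    fun e δ h0 h1 h => eventually_of_limTraces ω e h0 h h1
  have hinv : ∀ (w : ↥(centralAlg ω A)) (h : G), ‖β h (P101.proj ω w) - P101.proj ω w‖ < ε →
      ∀ᶠ n in (ω : Filter ℕ), ‖α h ((w : ℕ →ᵇ A) n) - (w : ℕ →ᵇ A) n‖ ≤ ε := fun w h hw => by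
    rw [hβ, Finite.actCQ_apply, Finite.actHom_proj, ← map_sub, P101.norm_proj] at hw
    exact ((P101.tendsto_nrm _).eventually_lt_const hw).mono fun n hn => hn.le
  refine ⟨a, b, ha', hb', (hev _ (δ := 3 * η) (by positivity) (by linarith) ?_).and
    ((hev _ (δ := 3 * η) (by positivity) (by linarith) ?_).and
    ((hev _ (δ := 5 * η) (by positivity) (by linarith) ?_).and
    ((Filter.eventually_all_finset E).2 fun h hh => (hinv a h ?_).and (hinv b h ?_))))⟩
  · rw [map_sub, map_mul, map_one, ha]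
    exact dsq x x' hxn hx'n hx'c hxx
  · rw [map_sub, map_mul, map_one, hb]
    exact dsq z z' hzn hz'n hz'c hzz
  · rw [map_add, map_mul, map_mul, ha, hb]
    exact dxz
  · rw [ha]
    exact (norm_avgF_inv β (Finite.actCQ_mul ω α hα) P hP hxn h (hPE h hh)).trans_lt (by linarith)
  · rw [hb]
    exact (norm_avgF_inv β (Finite.actCQ_mul ω α hα) P hP hzn h (hPE h hh)).trans_lt (by linarith)

/-- Module Pair. -/
theorem pair_ok : PairStatement.{u, v} := by
  intro G _ _ hG A _ _ α hα ω hω he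
  classical
  obtain ⟨enc, henc⟩ := Countable.exists_injective_nat G
  let E : ℕ → Finset G := fun j => (Finset.range j).preimage enc henc.injOn
  obtain ⟨d, hd⟩ := TopologicalSpace.exists_dense_seq A
  let δ : ℕ → ℝ := fun j => 1 / (j + 1)
  have hδ : ∀ j, 0 < δ j := fun j => Nat.one_div_pos_of_nat
  choose a b ha hb hab using fun j => exists_step (ω := ω) hG α hα hω he (E j) (hδ j)
  let T : Set (A →ₗ[ℂ] ℂ) := {σ | IsTr σ}
  let P : ℕ → ℕ → Prop := fun j n =>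
    (Small T ((a j * a j - 1 : ↥(centralAlg ω A)).1 n) (δ j) ∧
      Small T ((b j * b j - 1 : ↥(centralAlg ω A)).1 n) (δ j) ∧
      Small T ((a j * b j + b j * a j : ↥(centralAlg ω A)).1 n) (δ j) ∧
      ∀ h ∈ E j, ‖α h ((a j : ℕ →ᵇ A) n) - (a j : ℕ →ᵇ A) n‖ ≤ δ j ∧
        ‖α h ((b j : ℕ →ᵇ A) n) - (b j : ℕ →ᵇ A) n‖ ≤ δ j) ∧
    ∀ k ∈ Finset.range j, ‖(a j : ℕ →ᵇ A) n * d k - d k * (a j : ℕ →ᵇ A) n‖ ≤ δ j ∧
      ‖(b j : ℕ →ᵇ A) n * d k - d k * (b j : ℕ →ᵇ A) n‖ ≤ δ j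
  have hP : ∀ j, ∀ᶠ n in (ω : Filter ℕ), P j n := fun j =>
    (hab j).and ((Finset.eventually_all _).2 fun k _ =>
      (((a j).2 (d k)).eventually_le_const (hδ j)).and (((b j).2 (d k)).eventually_le_const (hδ j)))
  obtain ⟨φ, hφ⟩ := Finite.exists_diag hω P hP
  let X : ℕ →ᵇ A := BoundedContinuousFunction.ofNormedAddCommGroupDiscrete
    (fun n => (a (φ n) : ℕ →ᵇ A) n) 1 fun n => (ha (φ n) n).2
  let Z : ℕ →ᵇ A := BoundedContinuousFunction.ofNormedAddCommGroupDiscrete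
    (fun n => (b (φ n) : ℕ →ᵇ A) n) 1 fun n => (hb (φ n) n).2
  have small : ∀ {η : ℝ}, 0 < η → ∀ J₀ : ℕ,
      ∀ᶠ n in (ω : Filter ℕ), J₀ ≤ φ n ∧ δ (φ n) < η ∧ P (φ n) n := fun {η} hη J₀ => by
    obtain ⟨J, hJ⟩ := exists_nat_one_div_lt hη
    filter_upwards [hφ (max J₀ J)] with n hn
    exact ⟨le_of_max_le_left hn.1, lt_of_le_of_lt (one_div_le_one_div_of_le (by positivity)
      (by exact_mod_cast Nat.add_le_add_right (le_of_max_le_right hn.1) 1)) hJ, hn.2⟩
  have null : ∀ (F : ℕ → ℝ) (J₀ : ℕ), (∀ n, 0 ≤ F n) →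
      (∀ n, J₀ ≤ φ n → P (φ n) n → F n ≤ δ (φ n)) → Tendsto F (ω : Filter ℕ) (𝓝 0) := by
    intro F J₀ h0 hF
    refine Metric.tendsto_nhds.2 fun ε hε => ?_
    filter_upwards [small hε J₀] with n ⟨h1, h2, h3⟩
    rw [Real.dist_eq, sub_zero, abs_of_nonneg (h0 n)]
    exact (hF n h1 h3).trans_lt h2
  have hsmall : ∀ (D : ℕ →ᵇ A), (∀ n, P (φ n) n → Small T (D n) (δ (φ n))) →
      TraceNull ω (star D * D) := by
    intro D hD η hη
    filter_upwards [small (Real.sqrt_pos.2 hη) 0] with n ⟨_, h2, h3⟩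
    intro τ hτ
    show (τ (star (D n) * D n)).re ≤ η
    rw [← hτ.sq_sn, ← Real.sq_sqrt hη.le]
    exact pow_le_pow_left₀ (sn_nonneg _) ((hD n h3 τ hτ).trans h2.le) 2
  refine ⟨X, Z, fun n => ⟨(ha (φ n) n).1, (hb (φ n) n).1⟩, ?_, ?_, fun g => ?_, fun g => ?_,
    ?_, ?_, ?_⟩
  · exact isCentral_of_dense hd fun k => null _ (k + 1) (fun n => norm_nonneg _)
      fun n hn hP => (hP.2 k (Finset.mem_range.2 (by omega))).1
  · exact isCentral_of_dense hd fun k => null _ (k + 1) (fun n => norm_nonneg _)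
      fun n hn hP => (hP.2 k (Finset.mem_range.2 (by omega))).2
  · exact null _ (enc g + 1) (fun n => norm_nonneg _)
      fun n hn hP => (hP.1.2.2.2 g (by simp [E]; omega)).1
  · exact null _ (enc g + 1) (fun n => norm_nonneg _)
      fun n hn hP => (hP.1.2.2.2 g (by simp [E]; omega)).2
  · exact hsmall (X * X - 1) fun n hP => hP.1.1
  · exact hsmall (Z * Z - 1) fun n hP => hP.1.2.1
  · exact hsmall (X * Z + Z * X) fun n hP => hP.1.2.2.1

end Vale.Agent.P095.Amenable
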