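import Vale.Agent.P095.Amenable.SI.Stage
import Vale.Agent.P095.Finite.Diag

/-! Two orthogonal intertwiners with orthogonal translates for tracially null central sequences. -/

noncomputable section

open Filter Topology
open scoped BoundedContinuousFunction

namespace Vale.Agent.P095.Amenable

open Vale.Agent.P101

universe u v

/-- The commutator of an intertwiner is controlled by the intertwining defects. -/
lemma norm_comm_sq_le {A : Type u} [CStarAlgebra A] {s x e : A} {δ : ℝ}
    (h0 : ‖star s * 1 * s - e * 1‖ ≤ δ) (h1 : ‖star s * x * s - e * x‖ ≤ δ)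
    (h2 : ‖star s * star x * s - e * star x‖ ≤ δ)
    (h3 : ‖star s * (star x * x) * s - e * (star x * x)‖ ≤ δ) :
    ‖s * x - x * s‖ * ‖s * x - x * s‖ ≤ δ * (1 + ‖x‖) ^ 2 := by
  rw [← CStarRing.norm_star_mul_self]
  have e1 : star (s * x - x * s) * (s * x - x * s)
      = (star s * (star x * x) * s - e * (star x * x))
        + (star x * (star s * 1 * s - e * 1) * x
          - ((star s * star x * s - e * star x) * x + star x * (star s * x * s - e * x))) := by
    simp only [star_sub, star_mul]; noncomm_ring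
  rw [e1]
  refine (norm_add_le _ _).trans ((add_le_add h3 ((norm_sub_le _ _).trans
    (add_le_add (norm_mul₃_le ..) ((norm_add_le _ _).trans
      (add_le_add (norm_mul_le _ _) (norm_mul_le _ _)))))).trans ?_)
  rw [norm_star]
  nlinarith [norm_nonneg x, mul_le_mul_of_nonneg_left h0 (sq_nonneg ‖x‖),
    mul_le_mul_of_nonneg_left h1 (norm_nonneg x), mul_le_mul_of_nonneg_left h2 (norm_nonneg x)]

/-- Module SI, given the modules Small, Compare, Orth and Excise. -/
theorem si_of (hsmall : SmallStatement.{u}) (hcomp : CompareStatement.{u})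
    (horth : OrthStatement.{u, v}) (hexc : ExciseStatement.{u}) : SIStatement.{u, v} := by
  intro A _ _ ω hω hsimp hnuc hc he G _ α e he1 hec het
  classical
  obtain ⟨enc, henc⟩ := Countable.exists_injective_nat G
  obtain ⟨d, hd⟩ := TopologicalSpace.exists_dense_seq A
  let F : ℕ → Finset A := fun j => insert 1 ((Finset.range j).image d ∪
    ((Finset.range j).image fun m => star (d m)) ∪ (Finset.range j).image fun m => star (d m) * d m)
  let E : ℕ → Finset G := fun j => ((Finset.range j).preimage enc henc.injOn).filter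
    fun g => ¬ ActsTrivially ω (α g)
  let δ : ℕ → ℝ := fun j => 1 / (j + 1)
  have hδ : ∀ j, 0 < δ j := fun j => Nat.one_div_pos_of_nat
  have hδ1 : ∀ j, δ j ≤ 1 := fun j =>
    (div_le_one (by positivity)).2 (le_add_of_nonneg_left (Nat.cast_nonneg j))
  let Q : ℕ → ℕ → (Fin 2 → A) → Prop := fun j n S => (∀ q, ‖S q‖ ≤ 2) ∧
    (∀ q, ∀ x ∈ F j, ‖star (S q) * x * S q - e n * x‖ ≤ δ j) ∧ ‖star (S 0) * S 1‖ ≤ δ j ∧
    ∀ g ∈ E j, ∀ i k, ‖star (S i) * α g (S k)‖ ≤ δ j
  have hP : ∀ j, ∀ᶠ n in (ω : Filter ℕ), ∃ S, Q j n S := fun j =>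
    SI.stage hsmall hcomp horth hexc A ω hω hsimp hnuc hc he G α e he1 hec het (F j)
      (Finset.mem_insert_self _ _) (E j) (fun g hg => (Finset.mem_filter.1 hg).2) (hδ j) (hδ1 j)
  obtain ⟨φ, hφ⟩ := Finite.exists_diag hω (fun j n => ∃ S, Q j n S) hP
  let S : ℕ → Fin 2 → A := fun n =>
    if h : ∃ S, Q (φ n) n S then Classical.choose h else fun _ => 0
  have hS2 : ∀ q n, ‖S n q‖ ≤ 2 := fun q n => by
    by_cases h : ∃ S, Q (φ n) n S
    · simp only [S, dif_pos h]; exact (Classical.choose_spec h).1 q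
    · simp [S, dif_neg h]
  let s : Fin 2 → ℕ →ᵇ A := fun q =>
    BoundedContinuousFunction.ofNormedAddCommGroupDiscrete (fun n => S n q) 2 (hS2 q)
  have hsn : ∀ q n, s q n = S n q := fun q n => rfl
  have null : ∀ (f : ℕ → ℝ) (J₀ : ℕ) (C : ℝ), (∀ n, 0 ≤ f n) →
      (∀ n, J₀ ≤ φ n → Q (φ n) n (S n) → f n ≤ C * δ (φ n)) →
      Tendsto f (ω : Filter ℕ) (𝓝 0) := by
    intro f J₀ C h0 hf
    refine Metric.tendsto_nhds.2 fun ε hε => ?_
    obtain ⟨J, hJ⟩ := exists_nat_one_div_lt (show 0 < ε / (|C| + 1) by positivity)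
    filter_upwards [hφ (max J₀ J)] with n ⟨hn, hn'⟩
    rw [Real.dist_eq, sub_zero, abs_of_nonneg (h0 n)]
    have hQ : Q (φ n) n (S n) := by simp only [S, dif_pos hn']; exact Classical.choose_spec hn'
    have h1 : δ (φ n) ≤ 1 / (J + 1 : ℝ) := one_div_le_one_div_of_le (by positivity)
      (by exact_mod_cast Nat.add_le_add_right (le_of_max_le_right hn) 1)
    have h2 : C * δ (φ n) ≤ (|C| + 1) * (1 / (J + 1 : ℝ)) := mul_le_mul
      ((le_abs_self C).trans (by linarith)) h1 (hδ _).le (by positivity)
    rw [lt_div_iff₀ (by positivity), mul_comm] at hJ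
    exact (hf n (le_of_max_le_left hn) hQ).trans_lt (h2.trans_lt hJ)
  refine ⟨s, fun q b => ?_, fun q => ?_, ?_, fun g hg i j => ?_⟩
  · have hd' : ∀ m, Tendsto (fun n => ‖s q n * d m - d m * s q n‖) (ω : Filter ℕ) (𝓝 0) := by
      intro m
      have h2 := null (fun n => ‖s q n * d m - d m * s q n‖ * ‖s q n * d m - d m * s q n‖) (m + 1)
        ((1 + ‖d m‖) ^ 2) (fun n => mul_self_nonneg _) fun n hn hQ => by
          have hm : m ∈ Finset.range (φ n) := Finset.mem_range.2 (by omega)
          rw [mul_comm ((1 + ‖d m‖) ^ 2)]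
          simp only [hsn]
          exact norm_comm_sq_le (hQ.2.1 q 1 (Finset.mem_insert_self _ _))
            (hQ.2.1 q _ (Finset.mem_insert_of_mem (Finset.mem_union_left _ (Finset.mem_union_left _
              (Finset.mem_image_of_mem d hm)))))
            (hQ.2.1 q _ (Finset.mem_insert_of_mem (Finset.mem_union_left _ (Finset.mem_union_right _
              (Finset.mem_image_of_mem (fun m => star (d m)) hm)))))
            (hQ.2.1 q _ (Finset.mem_insert_of_mem (Finset.mem_union_right _
              (Finset.mem_image_of_mem (fun m => star (d m) * d m) hm))))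
      have h3 := h2.sqrt
      rw [Real.sqrt_zero] at h3
      exact h3.congr fun n => Real.sqrt_mul_self (norm_nonneg _)
    refine Metric.tendsto_nhds.2 fun ε hε => ?_
    obtain ⟨m, hm⟩ := hd.exists_dist_lt b (show 0 < ε / 10 by positivity)
    filter_upwards [Metric.tendsto_nhds.1 (hd' m) (ε / 2) (by positivity)] with n hn
    rw [Real.dist_eq, sub_zero, abs_of_nonneg (norm_nonneg _)] at hn ⊢
    rw [dist_eq_norm] at hm
    calc ‖s q n * b - b * s q n‖
        = ‖(s q n * d m - d m * s q n) + s q n * (b - d m) - (b - d m) * s q n‖ := by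
          congr 1; noncomm_ring
      _ ≤ ‖s q n * d m - d m * s q n‖ + ‖s q n * (b - d m)‖ + ‖(b - d m) * s q n‖ :=
          (norm_sub_le _ _).trans (add_le_add (norm_add_le _ _) le_rfl)
      _ < ε := by
          have e1 := (norm_mul_le (s q n) (b - d m)).trans
            (mul_le_mul (hS2 q n) hm.le (norm_nonneg _) two_pos.le)
          have e2 := (norm_mul_le (b - d m) (s q n)).trans
            (mul_le_mul hm.le (hS2 q n) (norm_nonneg _) (by positivity))
          linarith
  · exact null _ 0 1 (fun n => norm_nonneg _) fun n _ hQ => by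
      simpa [hsn] using hQ.2.1 q 1 (Finset.mem_insert_self _ _)
  · exact null _ 0 1 (fun n => norm_nonneg _) fun n _ hQ => by simpa [hsn] using hQ.2.2.1
  · refine null _ (enc g + 1) 1 (fun n => norm_nonneg _) fun n hn hQ => ?_
    rw [one_mul, hsn, hsn]
    exact hQ.2.2.2 g (Finset.mem_filter.2 ⟨by simp; omega, hg⟩) i j

end Vale.Agent.P095.Amenable
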