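import Mathlib
import Vale.Agent.P095.Amenable.Small.Proj
import Vale.Agent.P095.Amenable.Small.Nuclear
import Vale.Agent.P095.Amenable.Small.Compress

/-!
Module Small: for R = 2N+1 the free matrix model in R by R matrices puts R times rank P copies of
the cut of e below L copies of the unit, hence below L * N copies of a, and L * N < R * rank P.
-/

noncomputable section

open scoped CStarAlgebra
open Finset

namespace Vale.Agent.P095.Amenable

universe u

namespace Small

variable {A : Type u} [CStarAlgebra A] [PartialOrder A] [StarOrderedRing A] {R L : ℕ}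

/-- Only the row i₀ of each block is nonzero. -/
def RowOnly (i₀ : Fin R) (Y : CStarMatrix (Fin L) (Fin L) (CStarMatrix (Fin R) (Fin R) A)) : Prop :=
  ∀ a b q k, q ≠ i₀ → Y a b q k = 0

lemma RowOnly.mul_right {i₀ : Fin R}
    {Y : CStarMatrix (Fin L) (Fin L) (CStarMatrix (Fin R) (Fin R) A)} (h : RowOnly i₀ Y)
    (M : CStarMatrix (Fin L) (Fin L) (CStarMatrix (Fin R) (Fin R) A)) : RowOnly i₀ (Y * M) := by
  intro a b q k hq
  rw [CStarMatrix.mul_apply]
  refine (Matrix.sum_apply q k univ fun c => Y a c * M c b).trans (sum_eq_zero fun c _ => ?_)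
  rw [CStarMatrix.mul_apply]
  exact sum_eq_zero fun c' _ => by rw [h a c q c' hq, zero_mul]

lemma rowOnly_sum {i₀ : Fin R} {ι : Type*} (s : Finset ι) (x : ι → A) (k : ι → Fin R)
    (u : ι → Matrix (Fin L) (Fin L) ℂ) :
    RowOnly i₀ (∑ j ∈ s, tens (sgl i₀ (k j) (x j)) (u j)) := by
  intro a b q k' hq
  have h : (∑ j ∈ s, tens (sgl i₀ (k j) (x j)) (u j)) a b
      = ∑ j ∈ s, tens (sgl i₀ (k j) (x j)) (u j) a b := Matrix.sum_apply a b s _
  rw [h]
  refine (Matrix.sum_apply q k' s _).trans (sum_eq_zero fun j _ => ?_)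
  simp [tens, CStarMatrix.ofMatrix_apply, sgl_apply, hq]

lemma star_mul_self_apply {i₀ : Fin R}
    {Y : CStarMatrix (Fin L) (Fin L) (CStarMatrix (Fin R) (Fin R) A)} (h : RowOnly i₀ Y)
    (b b' : Fin L) (k k' : Fin R) :
    (star Y * Y) b b' k k' = ∑ a, star (Y a b i₀ k) * Y a b' i₀ k' := by
  rw [CStarMatrix.mul_apply]
  refine (Matrix.sum_apply k k' univ fun a => star Y b a * Y a b').trans (sum_congr rfl fun a _ => ?_)
  rw [CStarMatrix.mul_apply, sum_eq_single i₀ (fun q _ hq => ?_) (by simp)]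
  · simp [CStarMatrix.star_apply]
  · rw [h a b' q k' hq, mul_zero]

/-- The columns of Y compressed by an isometry onto the range of P. -/
lemma exists_rows {r : ℕ} {P : Matrix (Fin L) (Fin L) ℂ} {W : Fin L → Fin r → ℂ}
    (hW : ∀ i j, ∑ b, star (W b i) * W b j = if i = j then 1 else 0)
    (hPW : ∀ b i, ∑ b', P b b' * W b' i = W b i) (hW1 : ∀ b i, ‖W b i‖ ≤ 1)
    {i₀ : Fin R} {Y : CStarMatrix (Fin L) (Fin L) (CStarMatrix (Fin R) (Fin R) A)}
    (hY : RowOnly i₀ Y) {c : A} {γ : ℝ}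
    (h : ∀ b b' k k', ‖(star Y * Y) b b' k k' - P b b' • dg R c k k'‖ ≤ γ) :
    ∃ V : Fin L → Fin r × Fin R → A, ∀ s t,
      ‖∑ a, star (V a s) * V a t - if s = t then c else 0‖ ≤ (L : ℝ) ^ 2 * γ := by
  refine ⟨fun a s => ∑ b, W b s.1 • Y a b i₀ s.2, fun s t => ?_⟩
  have e1 : ∑ a, star (∑ b, W b s.1 • Y a b i₀ s.2) * (∑ b, W b t.1 • Y a b i₀ t.2)
      = ∑ b, ∑ b', (star (W b s.1) * W b' t.1) • (star Y * Y) b b' s.2 t.2 := by
    simp only [star_mul_self_apply hY, smul_sum, star_sum, star_smul, sum_mul, mul_sum,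
      smul_mul_assoc, mul_smul_comm, smul_smul]
    rw [sum_comm]
    refine ((sum_congr rfl fun b _ => sum_comm).trans ?_)
    rw [sum_comm]
    exact sum_congr rfl fun b _ => sum_congr rfl fun b' _ => sum_congr rfl fun a _ => by
      rw [mul_comm]
  have e2 : (if s = t then c else 0)
      = ∑ b, ∑ b', (star (W b s.1) * W b' t.1) • (P b b' • dg R c s.2 t.2) := by
    simp only [smul_smul, ← sum_smul]
    have : ∑ b, ∑ b', star (W b s.1) * W b' t.1 * P b b' = if s.1 = t.1 then 1 else 0 := by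
      rw [← hW]
      refine sum_congr rfl fun b _ => ?_
      rw [← hPW b t.1, mul_sum]
      exact sum_congr rfl fun b' _ => by ring
    rw [this, dg_apply]
    obtain ⟨i, k⟩ := s; obtain ⟨j, k'⟩ := t
    by_cases hij : i = j <;> by_cases hk : k = k' <;> simp [hij, hk]
  rw [e1, e2, ← sum_sub_distrib]
  refine (norm_sum_le _ _).trans (le_trans (sum_le_sum fun b _ => ?_) (le_of_eq
    (show ∑ _b : Fin L, (L : ℝ) * γ = (L : ℝ) ^ 2 * γ by simp; ring)))
  rw [← sum_sub_distrib]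
  refine (norm_sum_le _ _).trans (le_trans (sum_le_sum fun b' _ => ?_) (le_of_eq
    (show ∑ _b : Fin L, γ = (L : ℝ) * γ by simp)))
  rw [← smul_sub, norm_smul, norm_mul, norm_star]
  have h1 : ‖W b s.1‖ * ‖W b' t.1‖ ≤ 1 := mul_le_one₀ (hW1 _ _) (norm_nonneg _) (hW1 _ _)
  exact (mul_le_of_le_one_left (norm_nonneg _) h1).trans (h _ _ _ _)

lemma norm_isometry_le {r : ℕ} {W : Fin L → Fin r → ℂ}
    (hW : ∀ i j, ∑ b, star (W b i) * W b j = if i = j then 1 else 0) (b : Fin L) (i : Fin r) :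
    ‖W b i‖ ≤ 1 := by
  have h := congrArg Complex.re (hW i i)
  rw [if_pos rfl, Complex.re_sum, Complex.one_re] at h
  have e : ∀ c, (star (W c i) * W c i).re = ‖W c i‖ ^ 2 := fun c => by
    rw [Complex.star_def, ← Complex.normSq_eq_conj_mul_self, Complex.ofReal_re,
      Complex.normSq_eq_norm_sq]
  simp only [e] at h
  have h2 := single_le_sum (f := fun c => ‖W c i‖ ^ 2) (fun c _ => sq_nonneg _) (mem_univ b)
  nlinarith [norm_nonneg (W b i)]

/-- The composed star homomorphism into matrices of matrices. -/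
def dg2 (L R : ℕ) : A →⋆ₐ[ℂ] CStarMatrix (Fin L) (Fin L) (CStarMatrix (Fin R) (Fin R) A) :=
  (dg L).comp (dg R)

lemma dg2_apply (a : A) : dg2 L R a = dg L (dg R a) := rfl

lemma continuous_dg2 :
    Continuous (dg2 L R : A → CStarMatrix (Fin L) (Fin L) (CStarMatrix (Fin R) (Fin R) A)) := by
  let := CStarAlgebra.spectralOrder (CStarMatrix (Fin R) (Fin R) A)
  have := CStarAlgebra.spectralOrderedRing (CStarMatrix (Fin R) (Fin R) A)
  exact continuous_dg.comp continuous_dg

lemma norm_dg2_le (a : A) : ‖dg2 L R a‖ ≤ ‖a‖ := by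
  let := CStarAlgebra.spectralOrder (CStarMatrix (Fin R) (Fin R) A)
  have := CStarAlgebra.spectralOrderedRing (CStarMatrix (Fin R) (Fin R) A)
  exact (norm_dg_le _).trans (norm_dg_le _)

/-- The matrix model for a family with small rows, placed in the first row of R by R matrices. -/
lemma exists_model (hF : FreeStatement.{u}) (hnuc : IsNuclearAlg A) (i₀ : Fin R) {n : ℕ}
    (x : Fin n → A) {e : A} (hen : ‖e‖ ≤ 1) {e1 : ℝ} (he10 : 0 < e1) (he11 : e1 ≤ 1)
    (hx1 : ‖∑ j, star (x j) * x j - e‖ ≤ e1 / 8) {δ0 : ℝ} (hδ00 : 0 < δ0) (hδ01 : δ0 ≤ 1)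
    (hδ02 : δ0 ≤ (e1 / 240) ^ 2) (hx2 : ‖∑ j, x j * star (x j)‖ ≤ δ0 / R) :
    ∃ (L : ℕ) (P : Matrix (Fin L) (Fin L) ℂ)
      (S : CStarMatrix (Fin L) (Fin L) (CStarMatrix (Fin R) (Fin R) A)),
      0 < L ∧ star P = P ∧ P * P = P ∧ (L : ℝ) - P.trace.re ≤ 1 / 4 * L ∧ RowOnly i₀ S ∧
      ‖scal P * (star S * S) * scal P - dg2 L R e * scal P‖ ≤ 3 * (e1 / 8) := by
  let := CStarAlgebra.spectralOrder (CStarMatrix (Fin R) (Fin R) A)
  have := CStarAlgebra.spectralOrderedRing (CStarMatrix (Fin R) (Fin R) A)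
  let ix := (finProdFinEquiv : Fin R × Fin n ≃ Fin (R * n))
  let y : Fin (R * n) → CStarMatrix (Fin R) (Fin R) A := fun s =>
    sgl i₀ (ix.symm s).1 (x (ix.symm s).2)
  have hyy : ∑ s, star (y s) * y s = dg R (∑ j, star (x j) * x j) := by
    rw [← ix.sum_comp, Fintype.sum_prod_type, ← sum_sgl_self]
    refine sum_congr rfl fun k _ => ?_
    rw [← sum_sgl_sum]
    refine sum_congr rfl fun j _ => ?_
    simp only [y, Equiv.symm_apply_apply, star_sgl, sgl_mul_sgl, if_true]
  have hy1 : ‖∑ s, star (y s) * y s‖ ≤ 2 := by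
    rw [hyy]
    refine (norm_dg_le _).trans ?_
    have h := norm_add_le (∑ j, star (x j) * x j - e) e
    rw [sub_add_cancel] at h
    linarith
  have hy2 : ‖∑ s, y s * star (y s)‖ ≤ δ0 := by
    have hR0 : (R : ℝ) ≠ 0 := Nat.cast_ne_zero.2 (Nat.pos_iff_ne_zero.1 i₀.pos)
    rw [← ix.sum_comp, Fintype.sum_prod_type]
    refine (norm_sum_le _ _).trans (le_trans (sum_le_sum fun k _ => ?_)
      (le_of_eq (show ∑ _k : Fin R, δ0 / R = δ0 by
        simp only [sum_const, card_univ, Fintype.card_fin, nsmul_eq_mul]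
        field_simp)))
    have : ∑ j, y (ix (k, j)) * star (y (ix (k, j))) = sgl i₀ i₀ (∑ j, x j * star (x j)) := by
      rw [← sum_sgl_sum]
      refine sum_congr rfl fun j _ => ?_
      simp only [y, Equiv.symm_apply_apply, star_sgl, sgl_mul_sgl, if_true]
    rw [this]
    exact (norm_sgl_self_le _ _).trans hx2
  obtain ⟨L, u, P, hL, hP1, hP2, -, -, -, hcof, hS⟩ := hF (CStarMatrix (Fin R) (Fin R) A)
    (nuclear_matrix hnuc R) (R * n) y δ0 hδ00 hδ01 hy1 hy2 (min (1 / 4) (e1 / 8))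
    (lt_min (by norm_num) (by positivity))
  refine ⟨L, P, ∑ s, tens (y s) (u s), hL, hP1, hP2,
    hcof.trans (mul_le_mul_of_nonneg_right (min_le_left _ _) (Nat.cast_nonneg L)),
    rowOnly_sum univ (fun s => x (ix.symm s).2) (fun s => (ix.symm s).1) u, ?_⟩
  have h30 : 30 * Real.sqrt δ0 + min (1 / 4) (e1 / 8) ≤ 2 * (e1 / 8) := by
    have h1 : Real.sqrt δ0 ≤ e1 / 240 := Real.sqrt_le_iff.2 ⟨by positivity, hδ02⟩
    have h2 : min (1 / 4) (e1 / 8) ≤ e1 / 8 := min_le_right _ _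
    linarith
  rw [hyy, tens_eq, ← dg2_apply, mul_assoc (scal P)] at hS
  have hd : ‖dg2 L R (∑ j, star (x j) * x j - e) * scal P‖ ≤ e1 / 8 := by
    refine (norm_mul_le _ _).trans ?_
    exact (mul_le_of_le_one_right (norm_nonneg _) (norm_scal_le hP1 hP2)).trans
      ((norm_dg2_le _).trans hx1)
  rw [map_sub (dg2 L R) (∑ j, star (x j) * x j) e, sub_mul] at hd
  exact (norm_sub_le_norm_sub_add_norm_sub _ _ _).trans
    ((add_le_add (hS.trans h30) hd).trans (by linarith))

/-- The model gives rows whose inner products are close to R times rank P copies of the cut. -/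
lemma exists_cut_rows {r : ℕ} {P : Matrix (Fin L) (Fin L) ℂ} (hP1 : star P = P) (hP2 : P * P = P)
    {W : Fin L → Fin r → ℂ}
    (hW : ∀ i j, ∑ b, star (W b i) * W b j = if i = j then 1 else 0)
    (hPW : ∀ b i, ∑ b', P b b' * W b' i = W b i) {i₀ : Fin R}
    {S : CStarMatrix (Fin L) (Fin L) (CStarMatrix (Fin R) (Fin R) A)} (hS : RowOnly i₀ S)
    {e : A} (hesa : IsSelfAdjoint e) {η η' : ℝ} (hη : η' < η)
    (h : ‖scal P * (star S * S) * scal P - dg2 L R e * scal P‖ ≤ η') {ε : ℝ} (hε : 0 < ε) :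
    ∃ V : Fin L → Fin r × Fin R → A, ∀ s t,
      ‖∑ a, star (V a s) * V a t - if s = t then cut e η else 0‖ < ε := by
  let := CStarAlgebra.spectralOrder (CStarMatrix (Fin R) (Fin R) A)
  have := CStarAlgebra.spectralOrderedRing (CStarMatrix (Fin R) (Fin R) A)
  let := CStarAlgebra.spectralOrder (CStarMatrix (Fin L) (Fin L) (CStarMatrix (Fin R) (Fin R) A))
  have := CStarAlgebra.spectralOrderedRing
    (CStarMatrix (Fin L) (Fin L) (CStarMatrix (Fin R) (Fin R) A))
  have hcut : dg2 L R (cut e η) = cut (dg2 L R e) η :=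
    StarAlgHomClass.map_cfc (dg2 L R) (fun t : ℝ => max (t - η) 0) e (cont_cut η).continuousOn
      continuous_dg2 hesa (hesa.map (dg2 L R))
  have hγ : (0 : ℝ) < ε / (2 * ((L : ℝ) ^ 2 + 1)) := by positivity
  obtain ⟨C, hC⟩ := exists_compress (hesa.map (dg2 L R)) (by rw [star_scal, hP1])
    (by rw [scal_mul, hP2]) (dg_commute_scal (dg R e) P) hη h hγ
  obtain ⟨V, hV⟩ := exists_rows hW hPW (norm_isometry_le hW) ((hS.mul_right (scal P)).mul_right C)
    (c := cut e η) (γ := ε / (2 * ((L : ℝ) ^ 2 + 1))) fun b b' k k' => by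
      rw [← hcut, dg2_apply, ← tens_eq] at hC
      set D := star (S * scal P * C) * (S * scal P * C) - tens (dg R (cut e η)) P with hD
      have h1 : ‖D b b' k k'‖ ≤ ‖D b b'‖ := CStarMatrix.norm_entry_le_norm
      have h2 : ‖D b b'‖ ≤ ‖D‖ := CStarMatrix.norm_entry_le_norm
      exact (h1.trans h2).trans hC
  refine ⟨V, fun s t => lt_of_le_of_lt (hV s t) ?_⟩
  rw [← mul_div_assoc, div_lt_iff₀ (by positivity)]
  nlinarith [sq_nonneg (L : ℝ)]

end Small

open Vale.Agent.P095.Amenable.Small in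
theorem small_ok (hD : DecompStatement.{u}) (hF : FreeStatement.{u}) : SmallStatement.{u} := by
  intro A _ _ hsimp hnuc a ha ha0 η hη
  let := CStarAlgebra.spectralOrder A
  have := CStarAlgebra.spectralOrderedRing A
  obtain ⟨N, T, hT⟩ := exists_copies hsimp ha ha0
  set R := 2 * N + 1 with hR
  set e1 : ℝ := min η 1 with he1
  have he10 : 0 < e1 := lt_min hη one_pos
  set δ0 : ℝ := min 1 ((e1 / 240) ^ 2) with hδ0
  have hδ00 : 0 < δ0 := lt_min one_pos (by positivity)
  refine ⟨δ0 / (3 * R), by positivity, fun e he hen htr => ?_⟩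
  obtain ⟨n, x, hx1, hx2⟩ :=
    hD A e (δ0 / (3 * R)) he hen (by positivity) htr (e1 / 8) (by positivity)
  have hx2' : ‖∑ j, x j * star (x j)‖ ≤ δ0 / R := by
    refine hx2.trans (le_of_eq ?_)
    field_simp
  obtain ⟨L, P, S, hL, hP1, hP2, hcof, hS, hnorm⟩ := exists_model hF hnuc (⟨0, by omega⟩ : Fin R)
    x hen he10 (min_le_right _ _) hx1 hδ00 (min_le_left _ _) (min_le_right _ _) hx2'
  obtain ⟨r, W, hr, hW, hPW⟩ := exists_isometry P hP1 hP2
  refine ⟨L * N, r * R, ?_, fun ε hε => ?_⟩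
  · rw [hr] at hcof
    have hL' : (1 : ℝ) ≤ L := by exact_mod_cast hL
    have hRN : (R : ℝ) = 2 * N + 1 := by rw [hR]; push_cast; ring
    have : (L * N : ℝ) < r * R := by
      rw [hRN]
      nlinarith [Nat.cast_nonneg (α := ℝ) N]
    exact_mod_cast this
  have hesa : IsSelfAdjoint e := by
    obtain ⟨w, rfl⟩ := he
    exact IsSelfAdjoint.star_mul_self w
  obtain ⟨V, hV⟩ := exists_cut_rows hP1 hP2 hW hPW hS hesa
    (show 3 * (e1 / 8) < η by
      have : e1 ≤ η := min_le_left _ _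
      linarith) hnorm hε
  refine ⟨fun p s => T (finProdFinEquiv.symm p).2 *
    V (finProdFinEquiv.symm p).1 (finProdFinEquiv.symm s), fun s t => ?_⟩
  have e' : ∑ p : Fin (L * N), star (T (finProdFinEquiv.symm p).2 *
        V (finProdFinEquiv.symm p).1 (finProdFinEquiv.symm s)) * a *
      (T (finProdFinEquiv.symm p).2 * V (finProdFinEquiv.symm p).1 (finProdFinEquiv.symm t))
      = ∑ c, star (V c (finProdFinEquiv.symm s)) * V c (finProdFinEquiv.symm t) := by
    rw [← finProdFinEquiv.sum_comp, Fintype.sum_prod_type]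
    refine sum_congr rfl fun c _ => ?_
    simp only [Equiv.symm_apply_apply]
    calc ∑ i, star (T i * V c (finProdFinEquiv.symm s)) * a * (T i * V c (finProdFinEquiv.symm t))
        = star (V c (finProdFinEquiv.symm s)) * (∑ i, star (T i) * a * T i) *
            V c (finProdFinEquiv.symm t) := by
          simp only [mul_sum, sum_mul, star_mul, mul_assoc]
      _ = _ := by rw [hT, mul_one]
  rw [e']
  simpa only [Equiv.apply_eq_iff_eq] using hV (finProdFinEquiv.symm s) (finProdFinEquiv.symm t)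

end Vale.Agent.P095.Amenable
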