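import Vale.Agent.P095.Amenable.Colours
import Vale.Agent.P095.Amenable.Compare
import Vale.Agent.P095.Amenable.Decomp
import Vale.Agent.P095.Amenable.Excise
import Vale.Agent.P095.Amenable.Orth
import Vale.Agent.P095.Amenable.Small
import Vale.Agent.P095.Amenable.SI
import Vale.Agent.P095.Amenable.Pair
import Vale.Agent.P095.Amenable.Finish
import Vale.Agent.P095.Amenable.Bridge

/-! Assembly: actions of amenable groups on unital simple separable nuclear algebras whose central
sequence algebra has no characters. -/

noncomputable section

open Filter Topology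
open scoped BoundedContinuousFunction

namespace Vale.Agent.P095.Amenable

open Vale.Agent.P101

universe u v

/-- The main theorem, given the module Free. -/
theorem final_of_free (hfree : FreeStatement.{u}) : Final.{u, v} :=
  final_of colours_ok (si_of (small_ok decomp_ok hfree) compare_ok orth_ok excise_ok) pair_ok
    finish_ok

/-- No characters give invariant homomorphisms from the dimension drop algebra, and conversely,
given the module Free. -/
theorem noChar_iff_of_free (hfree : FreeStatement.{u}) (G : Type v) [Group G] [Countable G]
    (hG : Folner G) (A : Type u) [CStarAlgebra A] [TopologicalSpace.SeparableSpace A]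
    (hsimp : IsSimpleUnital A) (hnuc : IsNuclearAlg A)
    (α : G → A ≃⋆ₐ[ℂ] A) (hα : ∀ g h x, α (g * h) x = α g (α h x))
    (ω : Ultrafilter ℕ) (hω : (ω : Filter ℕ) ≤ cofinite) :
    IsEmpty (CentralChar ω A) ↔ ∃ H : CentralHom ω A, ∀ g, InDimDrop g → ∀ k,
      Tendsto (fun n => ‖α k (H.val g n) - H.val g n‖) (ω : Filter ℕ) (𝓝 0) :=
  ⟨fun he => invariantHom_of_inv hα (final_of_free hfree G hG A hsimp hnuc α hα ω hω he),
    fun ⟨H, _⟩ => isEmpty_of_hom ⟨H⟩⟩

end Vale.Agent.P095.Amenable
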