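import Vale.Agent.P095.Amenable.Defs
import Vale.Agent.P101.Central
import Vale.Agent.P095.Finite.Action

/-!
Tools for almost orthogonal translates: tents and plateaus of self-adjoint elements, means of
copies, and lower bounds for products with central sequences in a simple algebra.
-/

noncomputable section

open Filter Topology
open scoped BoundedContinuousFunction

namespace Vale.Agent.P095.Amenable

open Vale.Agent.P101

universe u

/-- A tent of radius e at r. -/
def tent (r e t : ℝ) : ℝ := max 0 (1 - |t - r| / e)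

/-- A plateau at r: one up to e, zero from 2e. -/
def plat (r e t : ℝ) : ℝ := max 0 (min 1 (2 - |t - r| / e))

@[fun_prop] lemma continuous_tent (r e : ℝ) : Continuous (tent r e) := by unfold tent; fun_prop

@[fun_prop] lemma continuous_plat (r e : ℝ) : Continuous (plat r e) := by unfold plat; fun_prop

lemma plat_nonneg (r e t : ℝ) : 0 ≤ plat r e t := le_max_left _ _

lemma plat_le_one (r e t : ℝ) : plat r e t ≤ 1 := max_le zero_le_one (min_le_left _ _)

lemma plat_eq_zero {r e t : ℝ} (he : 0 < e) (h : 2 * e ≤ |t - r|) : plat r e t = 0 :=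
  max_eq_left ((min_le_right _ _).trans (by
    have : 2 ≤ |t - r| / e := (le_div_iff₀ he).2 h
    linarith))

lemma plat_mul_tent (r e t : ℝ) : plat r e t * tent r e t = tent r e t := by
  by_cases h : |t - r| / e ≤ 1
  · have : plat r e t = 1 := by
      unfold plat
      rw [min_eq_left (by linarith)]; simp
    rw [this, one_mul]
  · have : tent r e t = 0 := max_eq_left (by linarith [not_le.1 h])
    rw [this, mul_zero]

lemma plat_mul_plat {s t e : ℝ} (he : 0 < e) (h : 4 * e ≤ |s - t|) (x : ℝ) :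
    plat s e x * plat t e x = 0 := by
  by_cases h1 : 2 * e ≤ |x - s|
  · rw [plat_eq_zero he h1, zero_mul]
  · have h2 : 2 * e ≤ |x - t| := by
      have := abs_sub_le s x t
      rw [abs_sub_comm s x] at this
      linarith [not_le.1 h1]
    rw [plat_eq_zero he h2, mul_zero]

variable {D : Type u} [CStarAlgebra D]

lemma norm_cfc_plat_le (x : D) (r e : ℝ) : ‖cfc (plat r e) x‖ ≤ 1 :=
  norm_cfc_le zero_le_one fun t _ => by
    rw [Real.norm_eq_abs, abs_of_nonneg (plat_nonneg _ _ _)]; exact plat_le_one _ _ _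

lemma cfc_plat_mul_tent (x : D) (r e : ℝ) :
    cfc (plat r e) x * cfc (tent r e) x = cfc (tent r e) x := by
  rw [← cfc_mul (plat r e) (tent r e) x]
  exact cfc_congr fun t _ => plat_mul_tent r e t

lemma cfc_plat_mul_plat (x : D) {s t e : ℝ} (he : 0 < e) (h : 4 * e ≤ |s - t|) :
    cfc (plat s e) x * cfc (plat t e) x = 0 := by
  rw [← cfc_mul (plat s e) (plat t e) x, cfc_congr (g := fun _ => (0 : ℝ))
    fun y _ => plat_mul_plat he h y]
  exact cfc_const_zero ℝ x

lemma cfc_tent_ne_zero (x : D) (hx : IsSelfAdjoint x) {r e : ℝ} (hr : r ∈ spectrum ℝ x) :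
    cfc (tent r e) x ≠ 0 := fun h => by
  have h2 : tent r e r ∈ spectrum ℝ (cfc (tent r e) x) :=
    (cfc_map_spectrum (R := ℝ) (tent r e) x) ▸ ⟨r, hr, rfl⟩
  have : Nontrivial D := by
    by_contra hn
    rw [not_nontrivial_iff_subsingleton] at hn
    simp [spectrum.of_subsingleton] at hr
  rw [h, spectrum.zero_eq] at h2
  simp [tent] at h2

lemma norm_sub_mul_plat_le (x : D) (hx : IsSelfAdjoint x) {r e : ℝ} (he : 0 < e) :
    ‖(x - algebraMap ℝ D r) * cfc (plat r e) x‖ ≤ 2 * e := by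
  have e1 : (x - algebraMap ℝ D r) * cfc (plat r e) x
      = cfc (fun t => (t - r) * plat r e t) x := by
    rw [cfc_mul (fun t => t - r) (plat r e) x, cfc_sub (fun t => t) (fun _ => r) x, cfc_id' ℝ x,
      cfc_const r x]
  rw [e1]
  refine norm_cfc_le (by positivity) fun t _ => ?_
  rw [Real.norm_eq_abs, abs_mul, abs_of_nonneg (plat_nonneg r e t)]
  by_cases h : |t - r| ≤ 2 * e
  · calc |t - r| * plat r e t ≤ 2 * e * 1 :=
          mul_le_mul h (plat_le_one _ _ _) (plat_nonneg _ _ _) (by positivity)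
      _ = 2 * e := mul_one _
  · rw [plat_eq_zero he (not_le.1 h).le, mul_zero]; positivity

/-- Commuting self-adjoint elements at positive distance have a joint value off the diagonal. -/
theorem exists_separated {M M' : D} (hM : IsSelfAdjoint M) (hM' : IsSelfAdjoint M')
    (hc : Commute M M') {d : ℝ} (hd : 0 < d) (hdist : d ≤ ‖M - M'‖) :
    ∃ s t : ℝ, d / 2 ≤ |s - t| ∧ cfc (tent s (d / 16)) M * cfc (tent t (d / 16)) M' ≠ 0 := by
  have : Nontrivial D := nontrivial_of_ne (M - M') 0 fun h => by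
    rw [h, norm_zero] at hdist; linarith
  set N : D := M + Complex.I • M' with hN
  have hsN : star N = M - Complex.I • M' := by
    rw [hN, star_add, star_smul, hM.star_eq, hM'.star_eq, Complex.star_def, Complex.conj_I,
      neg_smul, sub_eq_add_neg]
  have hn : IsStarNormal N := ⟨by
    rw [hsN]
    show (M - Complex.I • M') * N = N * (M - Complex.I • M')
    rw [hN]
    simp only [add_mul, mul_add, sub_mul, mul_sub, smul_mul_assoc, mul_smul_comm, hc.eq, smul_add,
      smul_sub]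
    abel⟩
  have hre : cfc (fun z : ℂ => (z.re : ℂ)) N = M := by
    have e : (fun z : ℂ => (z.re : ℂ)) = fun z => (2⁻¹ : ℂ) • (z + star z) := by
      funext z; rw [Complex.re_eq_add_conj, smul_eq_mul, Complex.star_def]; ring
    rw [e, cfc_smul .., cfc_add .., cfc_id' ℂ N, cfc_star .., cfc_id' ℂ N, hsN, hN]
    rw [show M + Complex.I • M' + (M - Complex.I • M') = (2 : ℂ) • M by rw [two_smul]; abel,
      smul_smul]
    norm_num
  have him : cfc (fun z : ℂ => (z.im : ℂ)) N = M' := by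
    have e : (fun z : ℂ => (z.im : ℂ)) = fun z => ((2 * Complex.I)⁻¹ : ℂ) • (z - star z) := by
      funext z; rw [Complex.im_eq_sub_conj, smul_eq_mul, Complex.star_def]; field_simp
    rw [e, cfc_smul .., cfc_sub .., cfc_id' ℂ N, cfc_star .., cfc_id' ℂ N, hsN, hN]
    rw [show M + Complex.I • M' - (M - Complex.I • M') = (2 * Complex.I) • M' by
      rw [mul_smul, two_smul]; abel, smul_smul, inv_mul_cancel₀ (by simp), one_smul]
  have hMr : ∀ f : ℝ → ℝ, Continuous f → cfc f M = cfc (fun z : ℂ => (f z.re : ℂ)) N := by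
    intro f hf
    rw [cfc_real_eq_complex f hM, ← hre, ← cfc_comp' (fun z : ℂ => (f z.re : ℂ)) _ N]
    simp
  have hMi : ∀ f : ℝ → ℝ, Continuous f → cfc f M' = cfc (fun z : ℂ => (f z.im : ℂ)) N := by
    intro f hf
    rw [cfc_real_eq_complex f hM', ← him, ← cfc_comp' (fun z : ℂ => (f z.re : ℂ)) _ N]
    simp
  obtain ⟨z, hz, hzd⟩ : ∃ z ∈ spectrum ℂ N, d / 2 ≤ |z.re - z.im| := by
    by_contra hne
    have h1 : ‖cfc (fun z : ℂ => ((z.re : ℂ) - (z.im : ℂ))) N‖ ≤ d / 2 :=
      norm_cfc_le (by positivity) fun z hz => by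
        rw [← Complex.ofReal_sub, Complex.norm_real, Real.norm_eq_abs]
        exact (not_le.1 fun h => hne ⟨z, hz, h⟩).le
    rw [cfc_sub .., hre, him] at h1
    linarith
  refine ⟨z.re, z.im, hzd, fun h => ?_⟩
  rw [hMr _ (continuous_tent _ _), hMi _ (continuous_tent _ _),
    ← cfc_mul _ _ N (by fun_prop) (by fun_prop)] at h
  have h2 := cfc_map_spectrum (R := ℂ)
    (fun w : ℂ => (tent z.re (d / 16) w.re : ℂ) * (tent z.im (d / 16) w.im : ℂ)) N hn
    (by fun_prop)
  rw [h, spectrum.zero_eq] at h2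
  have h3 : (tent z.re (d / 16) z.re : ℂ) * (tent z.im (d / 16) z.im : ℂ) ∈ ({0} : Set ℂ) :=
    h2 ▸ ⟨z, hz, rfl⟩
  simp [tent] at h3

/-- Means over copies nearly commute. -/
theorem norm_comm_mean_le {m : ℕ} (hm : 0 < m) (f g : Fin m → D) {γ : ℝ} (hγ : 0 ≤ γ)
    (hf : ∀ j, ‖f j‖ ≤ 2) (hg : ∀ j, ‖g j‖ ≤ 2)
    (hc : ∀ j k, j ≠ k → ‖f j * g k - g k * f j‖ ≤ γ) :
    ‖((m : ℂ)⁻¹ • ∑ j, f j) * ((m : ℂ)⁻¹ • ∑ j, g j)
      - ((m : ℂ)⁻¹ • ∑ j, g j) * ((m : ℂ)⁻¹ • ∑ j, f j)‖ ≤ 8 / m + γ := by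
  have e : (∑ j, f j) * (∑ j, g j) - (∑ j, g j) * (∑ j, f j)
      = ∑ j, ∑ k, (f j * g k - g k * f j) := by
    rw [Finset.sum_mul_sum, Finset.sum_mul_sum, Finset.sum_comm (f := fun i j => g i * f j),
      ← Finset.sum_sub_distrib]
    exact Finset.sum_congr rfl fun j _ => (Finset.sum_sub_distrib _ _).symm
  rw [smul_mul_smul_comm, smul_mul_smul_comm, ← smul_sub, e, norm_smul, norm_mul, norm_inv,
    Complex.norm_natCast]
  have h1 : ∀ j, ∑ k, ‖f j * g k - g k * f j‖ ≤ 8 + m * γ := fun j => by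
    calc ∑ k, ‖f j * g k - g k * f j‖ ≤ ∑ k, ((if k = j then 8 else 0) + γ) := by
          refine Finset.sum_le_sum fun k _ => ?_
          split_ifs with h
          · subst h
            have h2 := (norm_mul_le (f k) (g k)).trans (mul_le_mul (hf k) (hg k) (norm_nonneg _) (by norm_num))
            have h3 := (norm_mul_le (g k) (f k)).trans (mul_le_mul (hg k) (hf k) (norm_nonneg _) (by norm_num))
            have := norm_sub_le (f k * g k) (g k * f k)
            linarith
          · rw [zero_add]; exact hc j k (Ne.symm h)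
      _ = 8 + m * γ := by simp [Finset.sum_add_distrib]
  calc (m : ℝ)⁻¹ * (m : ℝ)⁻¹ * ‖∑ j, ∑ k, (f j * g k - g k * f j)‖
      ≤ (m : ℝ)⁻¹ * (m : ℝ)⁻¹ * (m * (8 + m * γ)) := by
        refine mul_le_mul_of_nonneg_left ((norm_sum_le _ _).trans ?_) (by positivity)
        calc ∑ j, ‖∑ k, (f j * g k - g k * f j)‖ ≤ ∑ _j : Fin m, (8 + m * γ) :=
              Finset.sum_le_sum fun j _ => (norm_sum_le _ _).trans (h1 j)
          _ = m * (8 + m * γ) := by simp [mul_add]
    _ = 8 / m + γ := by field_simp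

variable {A : Type u} [CStarAlgebra A] {ω : Ultrafilter ℕ}

/-- A central sequence which is not null is killed by no nonzero element of a simple algebra. -/
theorem nrm_mul_pos (hA : IsSimpleUnital A) {g : ℕ →ᵇ A} (hg : IsCentral ω g)
    (hg0 : ¬ IsNull ω g) {a : A} (ha : a ≠ 0) :
    ¬ Tendsto (fun n => ‖a * g n‖) (ω : Filter ℕ) (𝓝 0) := by
  intro h
  refine hg0 ?_
  obtain ⟨N, p, q, hpq⟩ := hA a ha
  have ht : ∀ i, Tendsto (fun n => ‖p i * a * q i * g n‖) (ω : Filter ℕ) (𝓝 0) := fun i => by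
    refine squeeze_zero (fun n => norm_nonneg _) (fun n => ?_)
      ((((hg (q i)).const_mul (‖p i * a‖)).add ((h.mul_const ‖q i‖).const_mul ‖p i‖)).trans
        (by simp))
    calc ‖p i * a * q i * g n‖
        = ‖p i * a * -(g n * q i - q i * g n) + p i * (a * g n * q i)‖ := by congr 1; noncomm_ring
      _ ≤ _ := (norm_add_le _ _).trans (add_le_add ((norm_mul_le _ _).trans (by rw [norm_neg]))
          ((norm_mul_le _ _).trans (mul_le_mul_of_nonneg_left (norm_mul_le _ _) (norm_nonneg _))))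
  refine squeeze_zero (fun n => norm_nonneg _) (fun n => ?_)
    ((tendsto_finsetSum Finset.univ fun i _ => ht i).trans (by simp))
  calc ‖g n‖ = ‖∑ i, p i * a * q i * g n‖ := by rw [← Finset.sum_mul, hpq, one_mul]
    _ ≤ _ := norm_sum_le _ _

/-- A central sequence fixing a nonzero central sequence has full norm against every element. -/
theorem eventually_norm_mul_ge (hA : IsSimpleUnital A) {h g : ℕ →ᵇ A} (hh : IsCentral ω h)
    (hg : IsCentral ω g) (hg0 : ¬ IsNull ω g) (hhg : IsNull ω (h * g - g)) (a : A) {ε : ℝ}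
    (hε : 0 < ε) : ∀ᶠ n in (ω : Filter ℕ), ‖a‖ - ε ≤ ‖a * h n‖ := by
  rcases eq_or_ne a 0 with rfl | ha
  · filter_upwards with n
    simp [hε.le]
  let := CStarAlgebra.spectralOrder A
  have := CStarAlgebra.spectralOrderedRing A
  have : Nontrivial A := nontrivial_of_ne a 0 ha
  set P := star a * a
  have hα : 0 < ‖P‖ := norm_pos_iff.2 fun e => ha ((CStarRing.star_mul_self_eq_zero_iff a).1 e)
  obtain ⟨e, he, hea⟩ : ∃ e : ℝ, 0 < e ∧ (‖a‖ - ε / 2) ^ 2 ≤ ‖P‖ - 2 * e ∨
      0 < e ∧ ‖a‖ ≤ ε / 2 := by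
    rcases le_or_gt ‖a‖ (ε / 2) with h | h
    · exact ⟨1, Or.inr ⟨one_pos, h⟩⟩
    · refine ⟨(‖a‖ * ‖a‖ - (‖a‖ - ε / 2) ^ 2) / 2, Or.inl ⟨by nlinarith, ?_⟩⟩
      show _ ≤ ‖star a * a‖ - _
      rw [CStarRing.norm_star_mul_self]; linarith
  rotate_left
  · filter_upwards with n
    linarith [norm_nonneg (a * h n)]
  have hP : IsSelfAdjoint P := IsSelfAdjoint.star_mul_self a
  have hr : ‖P‖ ∈ spectrum ℝ P := CStarAlgebra.norm_mem_spectrum_of_nonneg (star_mul_self_nonneg a)
  set F := cfc (tent ‖P‖ e) P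
  set F' := cfc (plat ‖P‖ e) P
  let y : ℕ →ᵇ A := BoundedContinuousFunction.const ℕ F * g
  have hy0 : 0 < nrm ω y := (nrm_nonneg (ω := ω) y).lt_of_ne fun e' =>
    nrm_mul_pos hA hg hg0 (cfc_tent_ne_zero P hP hr) ((isNull_iff (ω := ω) y).2 e'.symm)
  have herr : Tendsto (fun n => ‖a * h n * y n - a * y n‖) (ω : Filter ℕ) (𝓝 0) := by
    refine squeeze_zero (fun n => norm_nonneg _) (fun n => ?_)
      ((((hh F).mul_const ‖g‖).const_mul ‖a‖).add ((hhg.const_mul ‖F‖).const_mul ‖a‖)|>.trans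
        (by simp))
    show ‖a * h n * (F * g n) - a * (F * g n)‖ ≤ _
    calc ‖a * h n * (F * g n) - a * (F * g n)‖
        = ‖a * ((h n * F - F * h n) * g n) + a * (F * ((h * g - g) n))‖ := by
          simp only [BoundedContinuousFunction.coe_sub, BoundedContinuousFunction.coe_mul,
            Pi.sub_apply, Pi.mul_apply]
          congr 1; noncomm_ring
      _ ≤ _ := (norm_add_le _ _).trans (add_le_add
          ((norm_mul_le _ _).trans (mul_le_mul_of_nonneg_left ((norm_mul_le _ _).trans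
            (mul_le_mul_of_nonneg_left (g.norm_coe_le_norm n) (norm_nonneg _))) (norm_nonneg _)))
          ((norm_mul_le _ _).trans (mul_le_mul_of_nonneg_left (norm_mul_le _ _) (norm_nonneg _))))
  have key : ∀ n, (‖a‖ - ε / 2) * ‖y n‖ ≤ ‖a * y n‖ := fun n => by
    rcases le_or_gt (‖a‖ - ε / 2) 0 with h | h
    · exact (mul_nonpos_of_nonpos_of_nonneg h (norm_nonneg _)).trans (norm_nonneg _)
    · have h1 : F' * y n = y n := by
        show F' * (F * g n) = F * g n
        rw [← mul_assoc, cfc_plat_mul_tent]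
      have h2 : ‖(P - algebraMap ℝ A ‖P‖) * y n‖ ≤ 2 * e * ‖y n‖ := by
        conv_lhs => rw [← h1, ← mul_assoc]
        exact (norm_mul_le _ _).trans
          (mul_le_mul_of_nonneg_right (norm_sub_mul_plat_le P hP he) (norm_nonneg _))
      have h3 : ‖star (y n) * (P * y n)‖ = ‖a * y n‖ * ‖a * y n‖ := by
        rw [← CStarRing.norm_star_mul_self, star_mul]
        simp only [P, mul_assoc]
      have h4 : ‖P‖ * (‖y n‖ * ‖y n‖) ≤ ‖a * y n‖ * ‖a * y n‖ + 2 * e * (‖y n‖ * ‖y n‖) := by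
        have e1 : star (y n) * (P * y n)
            = ‖P‖ • (star (y n) * y n) + star (y n) * ((P - algebraMap ℝ A ‖P‖) * y n) := by
          rw [sub_mul, mul_sub, Algebra.algebraMap_eq_smul_one, smul_mul_assoc, one_mul,
            mul_smul_comm]
          abel
        have e2 : ‖P‖ * (‖y n‖ * ‖y n‖) = ‖‖P‖ • (star (y n) * y n)‖ := by
          rw [norm_smul, norm_norm, CStarRing.norm_star_mul_self (x := y n)]
        rw [e2, ← h3, e1]
        refine (norm_le_add_norm_add _ _).trans (add_le_add le_rfl ((norm_mul_le _ _).trans ?_))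
        rw [norm_star]
        calc ‖y n‖ * ‖(P - algebraMap ℝ A ‖P‖) * y n‖ ≤ ‖y n‖ * (2 * e * ‖y n‖) :=
              mul_le_mul_of_nonneg_left h2 (norm_nonneg _)
          _ = _ := by ring
      refine nonneg_le_nonneg_of_sq_le_sq (norm_nonneg _) ?_
      nlinarith [mul_le_mul_of_nonneg_right hea (mul_nonneg (norm_nonneg (y n)) (norm_nonneg (y n)))]
  have hev := (herr.eventually_lt_const (mul_pos (half_pos hε) (half_pos hy0))).and
    ((tendsto_nrm (ω := ω) y).eventually_const_lt (half_lt_self hy0))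
  filter_upwards [hev] with n ⟨h1, h2⟩
  have h3 : ‖a * y n‖ ≤ ‖a * h n * y n‖ + ‖a * h n * y n - a * y n‖ := by
    simpa [norm_sub_rev] using norm_le_insert' (a * y n) (a * h n * y n)
  nlinarith [norm_mul_le (a * h n) (y n), key n, norm_nonneg (y n)]

end Vale.Agent.P095.Amenable
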