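import Vale.Agent.P095.Amenable.OrthBasic

/-!
Families of almost central contractions with full norm and prescribed almost orthogonalities:
how they come from the central sequence algebra and how they combine.
-/

noncomputable section

open Filter Topology
open scoped BoundedContinuousFunction

namespace Vale.Agent.P095.Amenable

open Vale.Agent.P101 Vale.Agent.P095.Finite

universe u v w

variable {A : Type u} [CStarAlgebra A]

/-- An almost central contraction of full norm against a finite set. -/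
def Good (S : Finset A) (ε : ℝ) (h : A) : Prop :=
  (Nonneg h ∧ ‖h‖ ≤ 1) ∧ (∀ s ∈ S, ‖h * s - s * h‖ ≤ ε) ∧ ∀ s ∈ S, ‖s‖ - ε ≤ ‖s * h‖

/-- For every finite set and tolerance there are good elements with the given orthogonalities. -/
def Avail {J : Type v} (φ : J → A ≃⋆ₐ[ℂ] A) (ι : Type w) (R : ι → ι → J → Prop) : Prop :=
  ∀ (S : Finset A) (ε : ℝ), 0 < ε → ∃ h : ι → A, (∀ p, Good S ε (h p)) ∧
    ∀ p q j, R p q j → ‖h p * φ j (h q)‖ ≤ ε

variable {J : Type v} {φ : J → A ≃⋆ₐ[ℂ] A}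

lemma Avail.comap {ι ι' : Type w} {R : ι → ι → J → Prop} {R' : ι' → ι' → J → Prop}
    (h : Avail φ ι R) (f : ι' → ι) (hR : ∀ p q j, R' p q j → R (f p) (f q) j) :
    Avail φ ι' R' := fun S ε hε => by
  obtain ⟨a, ha, ha'⟩ := h S ε hε
  exact ⟨fun p => a (f p), fun p => ha (f p), fun p q j hpq => ha' _ _ j (hR p q j hpq)⟩

lemma avail_one [Nontrivial A] (ι : Type w) : Avail φ ι fun _ _ _ => False := fun S ε hε =>
  ⟨fun _ => 1, fun _ => ⟨⟨⟨1, by simp⟩, norm_one.le⟩, fun s _ => by simp [hε.le],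
    fun s _ => by simp [hε.le]⟩, fun p q j h => h.elim⟩

/-- Products of independent families. -/
lemma Avail.prod [Finite J] {ι₁ ι₂ : Type w} [Finite ι₁] {R₁ : ι₁ → ι₁ → J → Prop}
    {R₂ : ι₂ → ι₂ → J → Prop} (h₁ : Avail φ ι₁ R₁) (h₂ : Avail φ ι₂ R₂) :
    Avail φ (ι₁ × ι₂) fun p q j => R₁ p.1 q.1 j ∨ R₂ p.2 q.2 j := by
  classical
  intro S ε hε
  have := Fintype.ofFinite ι₁
  have := Fintype.ofFinite J
  obtain ⟨a, ha, ha'⟩ := h₁ S (ε / 4) (by positivity)
  choose y hy using fun p => (ha p).1.1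
  have hyn : ∀ p, ‖y p‖ ≤ 1 := fun p => by
    have h := (ha p).1.2
    rw [hy p, CStarRing.norm_star_mul_self] at h
    nlinarith [norm_nonneg (y p)]
  set B : ℝ := ∑ s ∈ S, ‖s‖
  have hB : ∀ s ∈ S, ‖s‖ ≤ B := fun s hs =>
    Finset.single_le_sum (fun t _ => norm_nonneg t) hs
  have hB0 : 0 ≤ B := Finset.sum_nonneg fun t _ => norm_nonneg t
  set δ : ℝ := ε / (8 * (B + 1))
  have hδ : 0 < δ := by positivity
  have hδB : δ * (B + 1) = ε / 8 := by
    show ε / (8 * (B + 1)) * (B + 1) = ε / 8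
    field_simp
  obtain ⟨b, hb, hb'⟩ := h₂
    (S ∪ Finset.univ.image y ∪ (Finset.univ.image fun jp : J × ι₁ => φ jp.1 (a jp.2))
      ∪ (S ×ˢ (Finset.univ : Finset ι₁)).image fun sp => sp.1 * a sp.2) δ hδ
  have hh : ∀ p : ι₁ × ι₂, ‖star (y p.1) * b p.2 * y p.1 - a p.1 * b p.2‖ ≤ δ := fun p => by
    rw [hy p.1]
    calc ‖star (y p.1) * b p.2 * y p.1 - star (y p.1) * y p.1 * b p.2‖
        = ‖star (y p.1) * (b p.2 * y p.1 - y p.1 * b p.2)‖ := by congr 1; noncomm_ring
      _ ≤ 1 * δ := (norm_mul_le _ _).trans (mul_le_mul (by rw [norm_star]; exact hyn _)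
          ((hb p.2).2.1 _ (by simp)) (norm_nonneg _) zero_le_one)
      _ = δ := one_mul δ
  refine ⟨fun p => star (y p.1) * b p.2 * y p.1, fun p => ?_, ?_⟩
  · obtain ⟨⟨z, hz⟩, hbn⟩ := (hb p.2).1
    refine ⟨⟨⟨z * y p.1, by show star (y p.1) * b p.2 * y p.1 = _; rw [hz, star_mul]; noncomm_ring⟩, ?_⟩, fun s hs => ?_, fun s hs => ?_⟩
    · refine (norm_mul_le _ _).trans (mul_le_one₀ ((norm_mul_le _ _).trans
        (mul_le_one₀ (by rw [norm_star]; exact hyn _) (norm_nonneg _) hbn)) (norm_nonneg _) (hyn _))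
    · show ‖star (y p.1) * b p.2 * y p.1 * s - s * (star (y p.1) * b p.2 * y p.1)‖ ≤ ε
      calc _ = ‖(star (y p.1) * b p.2 * y p.1 - a p.1 * b p.2) * s
              + a p.1 * (b p.2 * s - s * b p.2) + (a p.1 * s - s * a p.1) * b p.2
              - s * (star (y p.1) * b p.2 * y p.1 - a p.1 * b p.2)‖ := by congr 1; noncomm_ring
        _ ≤ δ * ‖s‖ + 1 * δ + ε / 4 * 1 + ‖s‖ * δ := by
          refine (norm_sub_le _ _).trans (add_le_add ((norm_add₃_le).trans
            (add_le_add (add_le_add ?_ ?_) ?_)) ((norm_mul_le _ _).trans ?_))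
          · exact (norm_mul_le _ _).trans (mul_le_mul_of_nonneg_right (hh p) (norm_nonneg _))
          · exact (norm_mul_le _ _).trans (mul_le_mul (ha p.1).1.2
              ((hb p.2).2.1 _ (by simp [hs])) (norm_nonneg _) zero_le_one)
          · exact (norm_mul_le _ _).trans (mul_le_mul ((ha p.1).2.1 s hs) hbn (norm_nonneg _)
              (by positivity))
          · exact mul_le_mul_of_nonneg_left (hh p) (norm_nonneg _)
        _ ≤ ε := by nlinarith [hB s hs, norm_nonneg s]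
    · show ‖s‖ - ε ≤ ‖s * (star (y p.1) * b p.2 * y p.1)‖
      have h1 : ‖s * a p.1‖ - δ ≤ ‖s * a p.1 * b p.2‖ := (hb p.2).2.2 _ (by
        simp only [Finset.mem_union, Finset.mem_image, Finset.mem_product, Finset.mem_univ,
          and_true, Prod.exists]
        exact Or.inr ⟨s, p.1, hs, rfl⟩)
      have h2 : ‖s * a p.1 * b p.2‖ ≤ ‖s * (star (y p.1) * b p.2 * y p.1)‖
          + ‖s‖ * ‖star (y p.1) * b p.2 * y p.1 - a p.1 * b p.2‖ := by
        calc _ = ‖s * (star (y p.1) * b p.2 * y p.1)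
                - s * (star (y p.1) * b p.2 * y p.1 - a p.1 * b p.2)‖ := by
              congr 1; noncomm_ring
          _ ≤ _ := (norm_sub_le _ _).trans (add_le_add le_rfl (norm_mul_le _ _))
      have h3 := (ha p.1).2.2 s hs
      have h4 := mul_le_mul_of_nonneg_left (hh p) (norm_nonneg s)
      nlinarith [hB s hs, norm_nonneg s]
  · intro p q j hpq
    show ‖star (y p.1) * b p.2 * y p.1 * φ j (star (y q.1) * b q.2 * y q.1)‖ ≤ ε
    set c := star (y p.1) * b p.2 * y p.1 - a p.1 * b p.2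
    set c' := φ j (star (y q.1) * b q.2 * y q.1) - φ j (a q.1) * φ j (b q.2) with hc'
    have hc'n : ‖c'‖ ≤ δ := by
      rw [hc', ← map_mul, ← map_sub, norm_equiv]; exact hh q
    have e1 : star (y p.1) * b p.2 * y p.1 = c + a p.1 * b p.2 := by
      show _ = star (y p.1) * b p.2 * y p.1 - _ + _
      rw [sub_add_cancel]
    have e2 : φ j (star (y q.1) * b q.2 * y q.1) = c' + φ j (a q.1) * φ j (b q.2) := by
      rw [hc', sub_add_cancel]
    have na : ∀ i, ‖φ j (a i)‖ ≤ 1 := fun i => by rw [norm_equiv]; exact (ha i).1.2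
    have nb : ∀ i, ‖φ j (b i)‖ ≤ 1 := fun i => by rw [norm_equiv]; exact (hb i).1.2
    have hX : ‖c' + φ j (a q.1) * φ j (b q.2)‖ ≤ 2 := by
      rw [← e2, norm_equiv]
      exact ((norm_mul_le _ _).trans (mul_le_one₀ ((norm_mul_le _ _).trans
        (mul_le_one₀ (by rw [norm_star]; exact hyn _) (norm_nonneg _) (hb _).1.2))
        (norm_nonneg _) (hyn _))).trans one_le_two
    have hmin : ‖a p.1 * φ j (a q.1) * (b p.2 * φ j (b q.2))‖ ≤ max (ε / 4) δ := by
      refine (norm_mul_le _ _).trans ?_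
      rcases hpq with h | h
      · refine ((mul_le_mul (ha' _ _ j h) ((norm_mul_le _ _).trans
          (mul_le_one₀ (hb _).1.2 (norm_nonneg _) (nb _))) (norm_nonneg _) (by positivity)).trans
          (by rw [mul_one]; exact le_max_left _ _))
      · refine ((mul_le_mul ((norm_mul_le _ _).trans
          (mul_le_one₀ (ha _).1.2 (norm_nonneg _) (na _))) (hb' _ _ j h) (norm_nonneg _)
          zero_le_one).trans (by rw [one_mul]; exact le_max_right _ _))
    have hcomm : ‖b p.2 * φ j (a q.1) - φ j (a q.1) * b p.2‖ ≤ δ := (hb p.2).2.1 _ (by simp)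
    have hδε : δ ≤ ε / 8 := by nlinarith
    calc _ = ‖c * (c' + φ j (a q.1) * φ j (b q.2)) + a p.1 * b p.2 * c'
          + a p.1 * (b p.2 * φ j (a q.1) - φ j (a q.1) * b p.2) * φ j (b q.2)
          + a p.1 * φ j (a q.1) * (b p.2 * φ j (b q.2))‖ := by
          rw [e1, e2]; congr 1; noncomm_ring
      _ ≤ δ * 2 + 1 * δ + 1 * δ * 1 + max (ε / 4) δ := by
          refine (norm_add_le _ _).trans (add_le_add ((norm_add₃_le).trans
            (add_le_add (add_le_add ?_ ?_) ?_)) hmin)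
          · exact (norm_mul_le _ _).trans (mul_le_mul (hh p) hX (norm_nonneg _) hδ.le)
          · exact (norm_mul_le _ _).trans (mul_le_mul ((norm_mul_le _ _).trans
              (mul_le_one₀ (ha _).1.2 (norm_nonneg _) (hb _).1.2)) hc'n (norm_nonneg _) zero_le_one)
          · exact (norm_mul_le _ _).trans (mul_le_mul ((norm_mul_le _ _).trans
              (mul_le_mul (ha _).1.2 hcomm (norm_nonneg _) zero_le_one)) (nb _) (norm_nonneg _)
              (by positivity))
      _ ≤ ε := by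
          rw [max_eq_left (by linarith)]
          have : δ * (B + 1) = ε / 8 := hδB
          nlinarith

variable {ω : Ultrafilter ℕ}

/-- Identity automorphism on the central sequence algebra. -/
lemma actHom_refl (x : CQ ω A) : actHom ω (StarAlgEquiv.refl ℂ A) x = x := by
  obtain ⟨a, rfl⟩ := proj_surjective ω x
  rw [actHom_proj]
  rfl

lemma not_isNull_of_ne_zero {a : ↥(centralAlg ω A)} (h : proj ω a ≠ 0) :
    ¬ IsNull ω (a : ℕ →ᵇ A) := fun hn => h (by
  rw [← norm_eq_zero, norm_proj]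
  exact (isNull_iff (ω := ω) _).1 hn)

/-- Self-adjoint contractions of the central sequence algebra fixing something nonzero, with
orthogonalities, give available families. -/
theorem avail_of_CQ (hA : IsSimpleUnital A) [Finite J] {ι : Type w} [Finite ι]
    (R : ι → ι → J → Prop) (Y G : ι → CQ ω A) (hY : ∀ p, IsSelfAdjoint (Y p))
    (hYn : ∀ p, ‖Y p‖ ≤ 1) (hYG : ∀ p, Y p * G p = G p) (hG : ∀ p, G p ≠ 0)
    (hR : ∀ p q j, R p q j → Y p * actHom ω (φ j) (Y q) = 0) : Avail φ ι R := by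
  classical
  intro S ε hε
  have := Fintype.ofFinite ι
  have := Fintype.ofFinite J
  choose y hy using fun p => proj_surjective ω (Y p)
  choose g hg using fun p => proj_surjective ω (G p)
  set B : ℝ := ∑ s ∈ S, ‖s‖
  have hB : ∀ s ∈ S, ‖s‖ ≤ B := fun s hs =>
    Finset.single_le_sum (fun t _ => norm_nonneg t) hs
  have hB0 : 0 ≤ B := Finset.sum_nonneg fun t _ => norm_nonneg t
  set δ : ℝ := ε / (4 * (B + 1))
  have hδ : 0 < δ := by positivity
  set c : ℝ := (1 + δ)⁻¹
  have hc : 0 < c := by positivity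
  have hc1 : c ≤ 1 := inv_le_one_of_one_le₀ (by linarith)
  have hc2 : 1 - c * c ≤ 2 * δ := by
    have : 1 - δ ≤ c := by
      show 1 - δ ≤ (1 + δ)⁻¹
      rw [inv_eq_one_div, le_div_iff₀ (by positivity)]; nlinarith
    nlinarith
  let H : ι → ↥(centralAlg ω A) := fun p => star (y p) * y p
  have hH : ∀ p, proj ω (H p) = Y p * Y p := fun p => by
    rw [map_mul, map_star, hy, (hY p).star_eq]
  have e1 : ∀ᶠ n in (ω : Filter ℕ), ∀ p, ‖(y p : ℕ →ᵇ A) n‖ ≤ 1 + δ :=
    Filter.eventually_all.2 fun p =>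
      ((tendsto_nrm (ω := ω) _).eventually_lt_const (u := 1 + δ) (by
        rw [← norm_proj, hy]; linarith [hYn p, hδ])).mono fun n h => h.le
  have e2 : ∀ᶠ n in (ω : Filter ℕ), ∀ p, ∀ s ∈ S,
      ‖(H p : ℕ →ᵇ A) n * s - s * (H p : ℕ →ᵇ A) n‖ ≤ ε :=
    Filter.eventually_all.2 fun p => (Finset.eventually_all _).2 fun s _ =>
      ((H p).2 s).eventually_le_const hε
  have e3 : ∀ᶠ n in (ω : Filter ℕ), ∀ p, ∀ s ∈ S, ‖s‖ - ε / 2 ≤ ‖s * (H p : ℕ →ᵇ A) n‖ := by
    refine Filter.eventually_all.2 fun p => (Finset.eventually_all _).2 fun s _ => ?_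
    refine eventually_norm_mul_ge hA (H p).2 (g p).2 (not_isNull_of_ne_zero (by rw [hg]; exact hG p))
      ?_ s (half_pos hε)
    refine (proj_eq_iff ω (H p * g p) (g p)).1 ?_
    rw [map_mul, hH, hg, mul_assoc, hYG, hYG]
  have e4 : ∀ᶠ n in (ω : Filter ℕ), ∀ p q j, R p q j →
      ‖(H p : ℕ →ᵇ A) n * φ j ((H q : ℕ →ᵇ A) n)‖ ≤ ε := by
    refine Filter.eventually_all.2 fun p => Filter.eventually_all.2 fun q =>
      Filter.eventually_all.2 fun j => ?_
    by_cases hr : R p q j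
    · have e : proj ω (H p * centralAct ω (φ j) (H q)) = proj ω 0 := by
        rw [map_mul, ← actHom_proj, hH, hH, map_mul, map_zero, mul_assoc (Y p) (Y p),
          ← mul_assoc (Y p) _ (actHom ω (φ j) (Y q)), hR p q j hr, zero_mul, mul_zero]
      have := (proj_eq_iff ω _ _).1 e
      exact (this.eventually_le_const hε).mono fun n hn _ => by simpa [coe_centralAct] using hn
    · exact Filter.Eventually.of_forall fun n h => absurd h hr
  obtain ⟨n, h1, h2, h3, h4⟩ := (e1.and (e2.and (e3.and e4))).exists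
  have hval : ∀ p, (H p : ℕ →ᵇ A) n = star ((y p : ℕ →ᵇ A) n) * (y p : ℕ →ᵇ A) n := fun p => rfl
  refine ⟨fun p => ((c * c : ℝ) : ℂ) • (H p : ℕ →ᵇ A) n, fun p => ?_, fun p q j hr => ?_⟩
  · refine ⟨⟨⟨((c : ℝ) : ℂ) • (y p : ℕ →ᵇ A) n, ?_⟩, ?_⟩, fun s hs => ?_, fun s hs => ?_⟩
    · show ((c * c : ℝ) : ℂ) • _ = _
      rw [hval, star_smul, smul_mul_smul_comm, Complex.star_def, Complex.conj_ofReal,
        Complex.ofReal_mul]
    · rw [norm_smul, Complex.norm_real, Real.norm_eq_abs, abs_of_nonneg (by positivity), hval,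
        CStarRing.norm_star_mul_self]
      calc c * c * (‖(y p : ℕ →ᵇ A) n‖ * ‖(y p : ℕ →ᵇ A) n‖)
          ≤ c * c * ((1 + δ) * (1 + δ)) := by
            gcongr
            · exact h1 p
            · exact h1 p
        _ = 1 := by show (1 + δ)⁻¹ * (1 + δ)⁻¹ * _ = 1; field_simp
    · show ‖((c * c : ℝ) : ℂ) • _ * s - s * (((c * c : ℝ) : ℂ) • _)‖ ≤ ε
      rw [smul_mul_assoc, mul_smul_comm, ← smul_sub, norm_smul, Complex.norm_real,
        Real.norm_eq_abs, abs_of_nonneg (by positivity)]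
      exact (mul_le_of_le_one_left (norm_nonneg _) (mul_le_one₀ hc1 hc.le hc1)).trans (h2 p s hs)
    · show ‖s‖ - ε ≤ ‖s * (((c * c : ℝ) : ℂ) • _)‖
      rw [mul_smul_comm, norm_smul, Complex.norm_real, Real.norm_eq_abs,
        abs_of_nonneg (by positivity)]
      have h5 := mul_le_mul_of_nonneg_left (h3 p s hs) (show (0 : ℝ) ≤ c * c by positivity)
      have hδB : δ * (B + 1) = ε / 4 := by
        show ε / (4 * (B + 1)) * (B + 1) = ε / 4
        field_simp
      nlinarith [hB s hs, norm_nonneg s, mul_le_one₀ hc1 hc.le hc1]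
  · show ‖((c * c : ℝ) : ℂ) • _ * φ j (((c * c : ℝ) : ℂ) • _)‖ ≤ ε
    rw [map_smul, smul_mul_smul_comm, norm_smul, norm_mul, Complex.norm_real, Real.norm_eq_abs,
      abs_of_nonneg (show 0 ≤ c * c by positivity)]
    have hcc := mul_le_one₀ hc1 hc.le hc1
    exact (mul_le_of_le_one_left (norm_nonneg _) (mul_le_one₀ hcc (by positivity) hcc)).trans
      (h4 p q j hr)

end Vale.Agent.P095.Amenable
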